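import Vale.Agent.P204.CV.DefsA

set_option linter.all false

/-! P204 class version, package A: `b⁺ ≤ 1` in the abstract smoothing system. -/

open Filter Topology Finset
open scoped InnerProductSpace BigOperators

namespace P204.GX.SmSys

variable {H Om : Type} [NormedAddCommGroup H] [InnerProductSpace ℝ H] [CompleteSpace H]
  [AddCommGroup Om] [Module ℝ Om]

variable (Y : SmSys H Om) {w0 : Om}

theorem pr_comm (u v : H) : ⟪u, Y.st v⟫_ℝ = ⟪v, Y.st u⟫_ℝ := by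
  rw [real_inner_comm, Y.st_symm]

theorem BP.rcs_cl (h : Y.BP w0) {c : Om} (hc : c ∈ Y.Cl) :
    ⟪Y.ι c, Y.st (Y.ι c)⟫_ℝ * ⟪Y.ι w0, Y.st (Y.ι w0)⟫_ℝ ≤ ⟪Y.ι c, Y.st (Y.ι w0)⟫_ℝ ^ 2 := by
  by_contra hcon
  push Not at hcon
  refine h.one w0 h.cl c hc ?_
  intro s t hst
  have hA := h.pos
  have e : ⟪Y.ι (s • w0 + t • c), Y.st (Y.ι (s • w0 + t • c))⟫_ℝ =
      s ^ 2 * ⟪Y.ι w0, Y.st (Y.ι w0)⟫_ℝ + 2 * s * t * ⟪Y.ι c, Y.st (Y.ι w0)⟫_ℝ +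
        t ^ 2 * ⟪Y.ι c, Y.st (Y.ι c)⟫_ℝ := by
    simp only [map_add, map_smul, inner_add_left, inner_add_right, real_inner_smul_left,
      real_inner_smul_right]
    rw [Y.pr_comm (Y.ι w0) (Y.ι c)]
    ring
  rw [e]
  generalize ⟪Y.ι w0, Y.st (Y.ι w0)⟫_ℝ = A at *
  generalize ⟪Y.ι c, Y.st (Y.ι w0)⟫_ℝ = B at *
  generalize ⟪Y.ι c, Y.st (Y.ι c)⟫_ℝ = C at *
  by_cases ht : t = 0
  · subst ht
    have hs : s ≠ 0 := by
      rintro rfl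
      exact hst rfl
    have : 0 < s ^ 2 * A := by positivity
    linarith
  · have h1 : 0 < (C * A - B ^ 2) * t ^ 2 := mul_pos (by linarith) (by positivity)
    have h2 : A * (s ^ 2 * A + 2 * s * t * B + t ^ 2 * C) =
        (A * s + B * t) ^ 2 + (C * A - B ^ 2) * t ^ 2 := by ring
    have h3 : 0 < A * (s ^ 2 * A + 2 * s * t * B + t ^ 2 * C) := by
      rw [h2]
      have := sq_nonneg (A * s + B * t)
      linarith
    exact (mul_pos_iff_of_pos_left hA).1 h3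

/-- A: reverse Cauchy-Schwarz on weakly closed forms -/
theorem BP.rcs (h : Y.BP w0) {z : H} (hz : z ∈ Y.Zw) :
    ⟪z, Y.st z⟫_ℝ * ⟪Y.ι w0, Y.st (Y.ι w0)⟫_ℝ ≤ ⟪z, Y.st (Y.ι w0)⟫_ℝ ^ 2 := by
  have hc : IsClosed {z : H | ⟪z, Y.st z⟫_ℝ * ⟪Y.ι w0, Y.st (Y.ι w0)⟫_ℝ ≤
      ⟪z, Y.st (Y.ι w0)⟫_ℝ ^ 2} :=
    isClosed_le ((continuous_id.inner Y.st.continuous).mul continuous_const)
      ((continuous_id.inner continuous_const).pow 2)
  have hsub : Y.ι '' (Y.Cl : Set Om) ⊆ {z : H | ⟪z, Y.st z⟫_ℝ * ⟪Y.ι w0, Y.st (Y.ι w0)⟫_ℝ ≤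
      ⟪z, Y.st (Y.ι w0)⟫_ℝ ^ 2} := by
    rintro _ ⟨c, hc, rfl⟩
    exact h.rcs_cl Y hc
  exact closure_minimal hsub hc (Y.Zw_le_closure hz)

/-- A: light cone -/
theorem BP.light (h : Y.BP w0) {e c : Om} (he : e ∈ Y.Cl) (hc : c ∈ Y.Cl)
    (e1 : 0 < ⟪Y.ι e, Y.st (Y.ι e)⟫_ℝ) (e2 : 0 < ⟪Y.ι e, Y.st (Y.ι w0)⟫_ℝ)
    (c1 : 0 ≤ ⟪Y.ι c, Y.st (Y.ι c)⟫_ℝ) (c2 : 0 ≤ ⟪Y.ι c, Y.st (Y.ι w0)⟫_ℝ) :
    0 ≤ ⟪Y.ι e, Y.st (Y.ι c)⟫_ℝ := by
  have hA := h.pos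
  rcases c2.lt_or_eq with c3 | c3
  · -- `x = E c - Cw e`, orthogonal to `w0`
    have h1 := h.rcs_cl Y (c := ⟪Y.ι e, Y.st (Y.ι w0)⟫_ℝ • c - ⟪Y.ι c, Y.st (Y.ι w0)⟫_ℝ • e)
      (sub_mem (Submodule.smul_mem _ _ hc) (Submodule.smul_mem _ _ he))
    have h2 : ⟪Y.ι (⟪Y.ι e, Y.st (Y.ι w0)⟫_ℝ • c - ⟪Y.ι c, Y.st (Y.ι w0)⟫_ℝ • e),
        Y.st (Y.ι w0)⟫_ℝ = 0 := by
      simp only [map_sub, map_smul, inner_sub_left, real_inner_smul_left]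
      ring
    have h3 : ⟪Y.ι (⟪Y.ι e, Y.st (Y.ι w0)⟫_ℝ • c - ⟪Y.ι c, Y.st (Y.ι w0)⟫_ℝ • e),
        Y.st (Y.ι (⟪Y.ι e, Y.st (Y.ι w0)⟫_ℝ • c - ⟪Y.ι c, Y.st (Y.ι w0)⟫_ℝ • e))⟫_ℝ =
        ⟪Y.ι e, Y.st (Y.ι w0)⟫_ℝ ^ 2 * ⟪Y.ι c, Y.st (Y.ι c)⟫_ℝ -
          2 * ⟪Y.ι e, Y.st (Y.ι w0)⟫_ℝ * ⟪Y.ι c, Y.st (Y.ι w0)⟫_ℝ * ⟪Y.ι e, Y.st (Y.ι c)⟫_ℝ +
          ⟪Y.ι c, Y.st (Y.ι w0)⟫_ℝ ^ 2 * ⟪Y.ι e, Y.st (Y.ι e)⟫_ℝ := by
      simp only [map_sub, map_smul, inner_sub_left, inner_sub_right, real_inner_smul_left,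
        real_inner_smul_right]
      rw [Y.pr_comm (Y.ι c) (Y.ι e)]
      ring
    rw [h2, h3] at h1
    generalize ⟪Y.ι w0, Y.st (Y.ι w0)⟫_ℝ = A at *
    generalize ⟪Y.ι c, Y.st (Y.ι w0)⟫_ℝ = B at *
    generalize ⟪Y.ι c, Y.st (Y.ι c)⟫_ℝ = C at *
    generalize ⟪Y.ι e, Y.st (Y.ι w0)⟫_ℝ = E at *
    generalize ⟪Y.ι e, Y.st (Y.ι e)⟫_ℝ = F at *
    generalize ⟪Y.ι e, Y.st (Y.ι c)⟫_ℝ = G at *
    have h4 : E ^ 2 * C - 2 * E * B * G + B ^ 2 * F ≤ 0 := by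
      by_contra hcon
      push Not at hcon
      have := mul_pos hcon hA
      nlinarith
    by_contra hG
    push Not at hG
    have h5 : 0 ≤ E ^ 2 * C := by positivity
    have h6 : 0 < B ^ 2 * F := by positivity
    have h7 : 0 < 2 * E * B * (-G) := by
      have : 0 < -G := by linarith
      positivity
    linarith
  · -- `c` is orthogonal to `w0`, hence null and orthogonal to everything
    have h0 := h.rcs_cl Y hc
    rw [← c3] at h0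
    have hC : ⟪Y.ι c, Y.st (Y.ι c)⟫_ℝ = 0 := by
      refine le_antisymm ?_ c1
      by_contra hcon
      push Not at hcon
      have := mul_pos hcon hA
      nlinarith
    by_contra hG
    push Not at hG
    -- `y = A e - E w0 + t c`
    set A := ⟪Y.ι w0, Y.st (Y.ι w0)⟫_ℝ with hAdef
    set E := ⟪Y.ι e, Y.st (Y.ι w0)⟫_ℝ with hE
    set F := ⟪Y.ι e, Y.st (Y.ι e)⟫_ℝ with hF
    set G := ⟪Y.ι e, Y.st (Y.ι c)⟫_ℝ with hGdef
    have key : ∀ t : ℝ, A ^ 2 * F - A * E ^ 2 + 2 * A * t * G ≤ 0 := by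
      intro t
      have h1 := h.rcs_cl Y (c := A • e - E • w0 + t • c)
        (add_mem (sub_mem (Submodule.smul_mem _ _ he) (Submodule.smul_mem _ _ h.cl))
          (Submodule.smul_mem _ _ hc))
      have h2 : ⟪Y.ι (A • e - E • w0 + t • c), Y.st (Y.ι w0)⟫_ℝ = 0 := by
        simp only [map_add, map_sub, map_smul, inner_add_left, inner_sub_left,
          real_inner_smul_left]
        rw [← hAdef, ← hE, ← c3]
        ring
      have h3 : ⟪Y.ι (A • e - E • w0 + t • c), Y.st (Y.ι (A • e - E • w0 + t • c))⟫_ℝ =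
          A ^ 2 * F - A * E ^ 2 + 2 * A * t * G := by
        simp only [map_add, map_sub, map_smul, inner_add_left, inner_sub_left, inner_add_right,
          inner_sub_right, real_inner_smul_left, real_inner_smul_right]
        rw [Y.pr_comm (Y.ι c) (Y.ι e), Y.pr_comm (Y.ι w0) (Y.ι e), Y.pr_comm (Y.ι w0) (Y.ι c),
          ← c3, hC, ← hAdef, ← hE, ← hF, ← hGdef]
        ring
      rw [h2, h3] at h1
      by_contra hcon
      push Not at hcon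
      have := mul_pos hcon hA
      nlinarith
    have h5 := key ((|A ^ 2 * F - A * E ^ 2| + 1) / (2 * A * G))
    have h6 : 2 * A * ((|A ^ 2 * F - A * E ^ 2| + 1) / (2 * A * G)) * G =
        |A ^ 2 * F - A * E ^ 2| + 1 := by
      have hA' : A ≠ 0 := hA.ne'
      have hG' : G ≠ 0 := hG.ne
      field_simp
    rw [h6] at h5
    have h7 := neg_abs_le (A ^ 2 * F - A * E ^ 2)
    linarith

/-- weakly null forms -/
def Nw : Submodule ℝ H where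
  carrier := {u | ∀ c ∈ Y.Cl, ⟪u, Y.st (Y.ι c)⟫_ℝ = 0}
  add_mem' := by
    intro a b ha hb c hc
    rw [inner_add_left, ha c hc, hb c hc, add_zero]
  zero_mem' := by intro c hc; simp
  smul_mem' := by
    intro r a ha c hc
    rw [real_inner_smul_left, ha c hc, mul_zero]

theorem mem_Nw {u : H} : u ∈ Y.Nw ↔ ∀ c ∈ Y.Cl, ⟪u, Y.st (Y.ι c)⟫_ℝ = 0 := Iff.rfl

theorem isClosed_Nw : IsClosed (Y.Nw : Set H) := by
  have h : (Y.Nw : Set H) = ⋂ c ∈ Y.Cl, {u : H | ⟪u, Y.st (Y.ι c)⟫_ℝ = 0} := by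
    ext u
    simp only [Set.mem_iInter, SetLike.mem_coe, mem_Nw]
    rfl
  rw [h]
  refine isClosed_biInter fun c _ => ?_
  exact isClosed_eq (continuous_id.inner continuous_const) continuous_const

theorem Nw_le_Zw : Y.Nw ≤ Y.Zw := by
  intro u hu e he
  rw [Y.pr_comm]
  exact hu e (Y.Ex_le he)

/-- exact forms are dense in the weakly null forms -/
theorem Nw_le_closure {z : H} (hz : z ∈ Y.Nw) : z ∈ closure (Y.ι '' (Y.Ex : Set Om)) := by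
  set E : Submodule ℝ H := Y.Ex.map Y.ι with hE
  have h1 : z ∈ Eᗮᗮ := by
    rw [Submodule.mem_orthogonal]
    intro u hu
    have hu1 : Y.st u ∈ Y.Zw := by
      intro e he
      rw [Y.st_st]
      exact (Submodule.mem_orthogonal _ _).1 hu _ (Submodule.mem_map_of_mem he)
    have h2 := Y.Zw_le_closure hu1
    have hc : IsClosed {y : H | ⟪y, Y.st z⟫_ℝ = 0} :=
      isClosed_eq (continuous_id.inner continuous_const) continuous_const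
    have hsub : Y.ι '' (Y.Cl : Set Om) ⊆ {y : H | ⟪y, Y.st z⟫_ℝ = 0} := by
      rintro _ ⟨c, hc, rfl⟩
      change ⟪Y.ι c, Y.st z⟫_ℝ = 0
      rw [Y.pr_comm]
      exact hz c hc
    have h3 : ⟪Y.st u, Y.st z⟫_ℝ = 0 := closure_minimal hsub hc h2
    rwa [Y.st_symm, Y.st_st] at h3
  rw [Submodule.orthogonal_orthogonal_eq_closure] at h1
  have h2 : z ∈ closure (E : Set H) := h1
  rwa [hE, Submodule.map_coe] at h2

/-- smoothings of weakly null forms are null -/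
theorem S_mem_Nul {δ : ℝ} (h0 : 0 < δ) (h1 : δ ≤ Y.δ0) {z : H} (hz : z ∈ Y.Nw) :
    Y.S δ z ∈ Y.Nul := by
  refine ⟨Y.S_mem_Cl δ h0 h1 (Y.Nw_le_Zw hz), fun c hc => ?_⟩
  set L : H →ₗ[ℝ] ℝ := (innerₗ H (Y.st (Y.ι c))) ∘ₗ Y.ι ∘ₗ Y.S δ with hL
  have hLa : ∀ u, L u = ⟪Y.ι (Y.S δ u), Y.st (Y.ι c)⟫_ℝ := fun u => by
    rw [real_inner_comm]
    rfl
  have hLb : ∀ u, ‖L u‖ ≤ (Y.K 0 * ‖Y.st (Y.ι c)‖) * ‖u‖ := by
    intro u
    rw [hLa, Real.norm_eq_abs]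
    refine (abs_real_inner_le_norm _ _).trans ?_
    have := Y.S_norm δ u h0 h1
    calc _ ≤ (Y.K 0 * ‖u‖) * ‖Y.st (Y.ι c)‖ := by gcongr
      _ = _ := by ring
  have hcont : Continuous L := (L.mkContinuous _ hLb).continuous
  have hcl : IsClosed {u : H | L u = 0} := isClosed_eq hcont continuous_const
  have hsub : Y.ι '' (Y.Ex : Set Om) ⊆ {u : H | L u = 0} := by
    rintro _ ⟨e, he, rfl⟩
    change L (Y.ι e) = 0
    rw [hLa]
    exact Y.stokes _ (Y.S_Ex δ e h0 h1 he) c hc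
  have h2 : L z = 0 := closure_minimal hsub hcl (Y.Nw_le_closure hz)
  rwa [hLa] at h2

theorem st_mem_Zw_of_perp {n : H} (hn : n ∈ Y.Nwᗮ) : Y.st n ∈ Y.Zw := by
  set E : Submodule ℝ H := Y.Cl.map ((Y.st : H →ₗ[ℝ] H) ∘ₗ Y.ι) with hE
  have hN : Y.Nw = Eᗮ := by
    ext u
    rw [Submodule.mem_orthogonal, mem_Nw]
    constructor
    · rintro h _ ⟨c, hc, rfl⟩
      have := h c hc
      rw [real_inner_comm] at this
      exact this
    · intro h c hc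
      have := h _ (Submodule.mem_map_of_mem hc)
      rw [real_inner_comm] at this
      exact this
  rw [hN, Submodule.orthogonal_orthogonal_eq_closure] at hn
  have hn' : n ∈ closure (E : Set H) := hn
  have hc : IsClosed {x : H | Y.st x ∈ Y.Zw} := Y.isClosed_Zw.preimage Y.st.continuous
  have hsub : (E : Set H) ⊆ {x : H | Y.st x ∈ Y.Zw} := by
    rintro _ ⟨c, hc, rfl⟩
    change Y.st (Y.st (Y.ι c)) ∈ Y.Zw
    rw [Y.st_st]
    exact Y.ι_mem_Zw hc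
  exact closure_minimal hsub hc hn'

/-- every anti-invariant L^2 form is the anti-invariant part of a weakly null form -/
theorem BP.exists_L2 (h : Y.BP w0) : ∃ C : ℝ, 0 ≤ C ∧ ∀ v : H, Y.pmH v = v →
    ∃ z ∈ Y.Nw, Y.pmH z = v ∧ ‖z‖ ≤ C * ‖v‖ := by
  have : CompleteSpace Y.Nw := Y.isClosed_Nw.completeSpace_coe
  set P : H →L[ℝ] H := Y.Nw.starProjection with hP
  have hPmem : ∀ u, P u ∈ Y.Nw := fun u => Submodule.starProjection_apply_mem _ _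
  have hPsub : ∀ u, u - P u ∈ Y.Nwᗮ := fun u => Submodule.sub_starProjection_mem_orthogonal _
  have hPP : ∀ u, ⟪P u, u⟫_ℝ = ‖P u‖ ^ 2 := by
    intro u
    have h : ⟪P u, u - P u⟫_ℝ = 0 := (Submodule.mem_orthogonal _ _).1 (hPsub u) _ (hPmem u)
    rw [inner_sub_right, real_inner_self_eq_norm_sq] at h
    linarith only [h]
  have hs0 := h.pos
  set s0 : ℝ := ⟪Y.ι w0, Y.st (Y.ι w0)⟫_ℝ with hs0def
  set K : ℝ := 3 + ‖Y.ι w0‖ ^ 2 / s0 with hK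
  have hK3 : 3 ≤ K := by
    have : 0 ≤ ‖Y.ι w0‖ ^ 2 / s0 := by positivity
    linarith only [this, hK.ge]
  -- coercivity
  have hco : ∀ φ : H, Y.pmH φ = φ → ‖φ‖ ^ 2 ≤ K * ‖P φ‖ ^ 2 := by
    intro φ hφ
    have hst : Y.st φ = φ := by rw [← hφ, Y.st_pmH]
    have hz : Y.st (φ - P φ) ∈ Y.Zw := Y.st_mem_Zw_of_perp (hPsub φ)
    have h0 := h.rcs Y hz
    rw [Y.st_st, ← hs0def] at h0
    have e1 : ⟪Y.st (φ - P φ), φ - P φ⟫_ℝ = ‖φ‖ ^ 2 - 2 * ‖P φ‖ ^ 2 + ⟪P φ, Y.st (P φ)⟫_ℝ := by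
      have h1 : ⟪φ, Y.st (P φ)⟫_ℝ = ‖P φ‖ ^ 2 := by
        rw [← Y.st_symm, hst, real_inner_comm, hPP]
      rw [Y.st_symm, map_sub, hst, inner_sub_left, inner_sub_right, inner_sub_right,
        real_inner_self_eq_norm_sq, hPP, h1]
      ring
    have e2 : ⟪Y.st (φ - P φ), Y.st (Y.ι w0)⟫_ℝ = -⟪P φ, Y.ι w0⟫_ℝ := by
      rw [Y.st_symm, Y.st_st, inner_sub_left]
      have : ⟪φ, Y.ι w0⟫_ℝ = 0 := by
        rw [← hφ, Y.pmH_symm, Y.pmH_ι, h.pm, map_zero, inner_zero_right]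
      rw [this]
      ring
    rw [e1, e2] at h0
    have h3 : -‖P φ‖ ^ 2 ≤ ⟪P φ, Y.st (P φ)⟫_ℝ := by
      have := neg_le_of_abs_le (abs_real_inner_le_norm (P φ) (Y.st (P φ)))
      rw [Y.norm_st] at this
      linarith only [this]
    have h4 : ⟪P φ, Y.ι w0⟫_ℝ ^ 2 ≤ (‖P φ‖ * ‖Y.ι w0‖) ^ 2 := by
      have := abs_real_inner_le_norm (P φ) (Y.ι w0)
      calc ⟪P φ, Y.ι w0⟫_ℝ ^ 2 = |⟪P φ, Y.ι w0⟫_ℝ| ^ 2 := (sq_abs _).symm
        _ ≤ _ := by gcongr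
    have h5 : (‖φ‖ ^ 2 - 3 * ‖P φ‖ ^ 2) * s0 ≤ (‖P φ‖ * ‖Y.ι w0‖) ^ 2 := by
      have h6 : (‖φ‖ ^ 2 - 3 * ‖P φ‖ ^ 2) * s0 ≤
          (‖φ‖ ^ 2 - 2 * ‖P φ‖ ^ 2 + ⟪P φ, Y.st (P φ)⟫_ℝ) * s0 :=
        mul_le_mul_of_nonneg_right (by linarith only [h3]) hs0.le
      rw [neg_sq] at h0
      linarith only [h6, h0, h4]
    have h7 : ‖φ‖ ^ 2 - 3 * ‖P φ‖ ^ 2 ≤ (‖P φ‖ * ‖Y.ι w0‖) ^ 2 / s0 := by
      rw [le_div_iff₀ hs0]
      exact h5
    have h8 : (‖P φ‖ * ‖Y.ι w0‖) ^ 2 / s0 = ‖Y.ι w0‖ ^ 2 / s0 * ‖P φ‖ ^ 2 := by ring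
    rw [hK]
    linarith only [h7, h8]
  set T : H →L[ℝ] H := Y.pmH ∘L P ∘L Y.pmH + (ContinuousLinearMap.id ℝ H - Y.pmH) with hT
  have hTa : ∀ u, T u = Y.pmH (P (Y.pmH u)) + (u - Y.pmH u) := fun u => by simp [hT]
  set B : H →L[ℝ] H →L[ℝ] ℝ := (innerSL ℝ).comp T with hB
  have hBa : ∀ u w, B u w = ⟪T u, w⟫_ℝ := fun u w => by
    simp only [hB, ContinuousLinearMap.comp_apply, coe_innerSL_apply]
  have hTT : ∀ u, ⟪T u, u⟫_ℝ = ‖P (Y.pmH u)‖ ^ 2 + ‖u - Y.pmH u‖ ^ 2 := by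
    intro u
    rw [hTa, inner_add_left, Y.pmH_symm, hPP]
    congr 1
    have h1 : ⟪u - Y.pmH u, Y.pmH u⟫_ℝ = 0 := by
      rw [real_inner_comm]; exact Y.inner_pm_compl u u
    have h2 : ⟪u - Y.pmH u, u - Y.pmH u⟫_ℝ = ‖u - Y.pmH u‖ ^ 2 := real_inner_self_eq_norm_sq _
    rw [inner_sub_right, h1, sub_zero] at h2
    exact h2
  have hBc : IsCoercive B := by
    refine ⟨1 / K, by positivity, fun u => ?_⟩
    rw [hBa, hTT]
    have h1 := hco (Y.pmH u) (Y.pmH_pmH u)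
    have h2 := Y.norm_sq_split u
    have h3 : 0 ≤ ‖u - Y.pmH u‖ ^ 2 := by positivity
    have hKpos : 0 < K := by linarith only [hK3]
    have h4 : ‖u‖ ^ 2 ≤ K * (‖P (Y.pmH u)‖ ^ 2 + ‖u - Y.pmH u‖ ^ 2) := by
      nlinarith only [h1, h2, h3, hK3]
    have h5 : 1 / K * ‖u‖ * ‖u‖ = ‖u‖ ^ 2 / K := by ring
    rw [h5, div_le_iff₀ hKpos]
    linarith only [h4]
  refine ⟨K, by linarith only [hK3], fun v hv => ?_⟩
  obtain ⟨u, hu⟩ := hBc.continuousLinearEquivOfBilin.surjective v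
  have hTu : T u = v := by
    rw [← hu]
    refine ext_inner_right ℝ fun w => ?_
    rw [hBc.continuousLinearEquivOfBilin_apply, hBa]
  have hz : Y.pmH (P (Y.pmH u)) = v := by
    have h := congrArg Y.pmH hTu
    rw [hTa, map_add, Y.pmH_pmH, map_sub, Y.pmH_pmH, sub_self, add_zero, hv] at h
    exact h
  refine ⟨P (Y.pmH u), hPmem _, hz, ?_⟩
  set φ := Y.pmH u with hφ
  have h1 := hco φ (Y.pmH_pmH u)
  have h2 : ‖P φ‖ ^ 2 ≤ ‖v‖ * ‖φ‖ := by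
    rw [← hPP, ← hz]
    have h3 : ⟪P φ, φ⟫_ℝ = ⟪Y.pmH (P φ), φ⟫_ℝ := by
      rw [Y.pmH_symm, hφ, Y.pmH_pmH]
    rw [h3]
    exact real_inner_le_norm _ _
  have hKpos : 0 < K := by linarith only [hK3]
  have h4 : ‖φ‖ ≤ K * ‖v‖ := by
    by_contra hlt
    push Not at hlt
    have h0 : 0 < ‖φ‖ := lt_of_le_of_lt (by positivity) hlt
    have h6 : K * ‖P φ‖ ^ 2 ≤ K * (‖v‖ * ‖φ‖) := by gcongr
    nlinarith only [h1, h6, hlt, h0, mul_pos (sub_pos.2 hlt) h0]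
  have h5 : ‖P φ‖ ≤ ‖φ‖ := by
    have h6 : ‖P φ‖ ^ 2 ≤ ‖P φ‖ * ‖φ‖ := by
      rw [← hPP]; exact real_inner_le_norm _ _
    by_contra hlt
    push Not at hlt
    have h0 : 0 < ‖P φ‖ := (norm_nonneg φ).trans_lt hlt
    nlinarith only [h6, hlt, h0]
  linarith only [h4, h5]

/-- A: solvability by null forms -/
theorem BP.exists_ER (h : Y.BP w0) : ∃ (k : ℕ) (C : ℝ), 0 ≤ C ∧ ∀ v : Om, Y.pm v = v →
    ∃ z ∈ Y.Nul, Y.pm z = v ∧ Y.M 0 z ≤ C * Y.M k v := by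
  classical
  obtain ⟨C₂, hC₂, hL2⟩ := h.exists_L2 Y
  have hex : ∀ w : Om, ∃ z : H, Y.pm w = w →
      z ∈ Y.Nw ∧ Y.pmH z = Y.ι w ∧ ‖z‖ ≤ C₂ * ‖Y.ι w‖ := by
    intro w
    by_cases h : Y.pm w = w
    · obtain ⟨z, h1, h2, h3⟩ := hL2 (Y.ι w) (by rw [Y.pmH_ι, h])
      exact ⟨z, fun _ => ⟨h1, h2, h3⟩⟩
    · exact ⟨0, fun h' => absurd h' h⟩
  choose zf hzf' using hex
  have hzf : ∀ w : Om, Y.pm w = w →
      zf w ∈ Y.Zw ∧ Y.pmH (zf w) = Y.ι w ∧ ‖zf w‖ ≤ C₂ * ‖Y.ι w‖ := fun w hw =>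
    ⟨Y.Nw_le_Zw (hzf' w hw).1, (hzf' w hw).2⟩
  have hK0 : 0 ≤ Y.K 0 := zero_le_one.trans (Y.one_le_K 0)
  -- bounds for the terms
  have hterm : ∀ m : ℕ, ∃ A : ℝ, 0 ≤ A ∧ ∀ v : Om, Y.pm v = v → ∀ k,
      Y.M m (Y.S (dk Y.δ0 k) (zf (vs Y zf v k))) ≤ A * Y.M (m + 3) v * (1 / 2) ^ k := by
    intro m
    obtain ⟨A, hA0, hA⟩ := exists_decay Y hC₂ hzf (m + 2)
    have hKm : 0 ≤ Y.K m := zero_le_one.trans (Y.one_le_K m)
    have hKm3 : 0 ≤ Y.K (m + 3) := zero_le_one.trans (Y.one_le_K (m + 3))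
    refine ⟨Y.K m * (C₂ * (Y.K 0 * (A * Y.K (m + 3)))), by positivity, ?_⟩
    intro v hv k
    have hd := dk_pos Y.δ0_pos k
    have hd0 := dk_le Y.δ0_pos k
    have h1 := Y.SSM m (dk Y.δ0 k) (zf (vs Y zf v k)) hd hd0
    have h2 := (hzf _ (pm_vs (zf := zf) Y hv k)).2.2
    have h3 := Y.norm_le_N 1 (vs Y zf v k) one_pos
    have h4 := hA v hv k
    have h5 := Y.N_le_M (m + 3) 1 v one_pos le_rfl
    have hp : 0 < dk Y.δ0 k ^ (2 + m) := by positivity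
    have hMv := Y.M_nonneg (m + 3) v
    calc Y.M m (Y.S (dk Y.δ0 k) (zf (vs Y zf v k)))
        ≤ Y.K m * (dk Y.δ0 k ^ (2 + m))⁻¹ * ‖zf (vs Y zf v k)‖ := h1
      _ ≤ Y.K m * (dk Y.δ0 k ^ (2 + m))⁻¹ * (C₂ * ‖Y.ι (vs Y zf v k)‖) := by gcongr
      _ ≤ Y.K m * (dk Y.δ0 k ^ (2 + m))⁻¹ * (C₂ * (Y.K 0 * Y.N 0 1 (vs Y zf v k))) := by gcongr
      _ ≤ Y.K m * (dk Y.δ0 k ^ (2 + m))⁻¹ * (C₂ * (Y.K 0 *
          (A * dk Y.δ0 k ^ (m + 2) * (1 / 2) ^ k * Y.N (m + 2 + 1) 1 v))) := by gcongr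
      _ ≤ Y.K m * (dk Y.δ0 k ^ (2 + m))⁻¹ * (C₂ * (Y.K 0 *
          (A * dk Y.δ0 k ^ (m + 2) * (1 / 2) ^ k * (Y.K (m + 3) * Y.M (m + 3) v)))) := by gcongr
      _ = _ := by
        rw [add_comm m 2]
        field_simp
  obtain ⟨A₀, hA₀, hT₀⟩ := hterm 0
  refine ⟨3, 2 * A₀, by positivity, ?_⟩
  intro v hv
  set b : ℕ → Om := fun k => Y.S (dk Y.δ0 k) (zf (vs Y zf v k)) with hb
  have hsum : ∀ m, Summable fun k => Y.M m (b k) := by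
    intro m
    obtain ⟨A, hA0, hA⟩ := hterm m
    refine Summable.of_nonneg_of_le (fun k => Y.M_nonneg _ _) (fun k => hA v hv k) ?_
    exact (summable_geometric_of_lt_one (by norm_num1) (by norm_num1)).mul_left _
  obtain ⟨s, hs⟩ := Y.complete b hsum
  have hbNul : ∀ k, b k ∈ Y.Nul := fun k =>
    Y.S_mem_Nul (dk_pos Y.δ0_pos k) (dk_le Y.δ0_pos k) (hzf' _ (pm_vs (zf := zf) Y hv k)).1
  have hbCl : ∀ k, b k ∈ Y.Cl := fun k => (hbNul k).1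
  -- convergence in `H`
  have hH : Tendsto (fun n => Y.ι (s - ∑ k ∈ range n, b k)) atTop (𝓝 0) := by
    rw [tendsto_zero_iff_norm_tendsto_zero]
    refine squeeze_zero (fun n => norm_nonneg _) (fun n => norm_le_M Y _) ?_
    simpa only [mul_zero] using (hs 0).const_mul (Y.K 0 * Y.K 0)
  have hsN : Y.ι s ∈ Y.Nw := by
    intro c hc
    have h1 : Tendsto (fun n => ⟪Y.ι (s - ∑ k ∈ range n, b k), Y.st (Y.ι c)⟫_ℝ) atTop
        (𝓝 ⟪(0 : H), Y.st (Y.ι c)⟫_ℝ) := hH.inner tendsto_const_nhds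
    have h2 : ∀ n, ⟪Y.ι (s - ∑ k ∈ range n, b k), Y.st (Y.ι c)⟫_ℝ = ⟪Y.ι s, Y.st (Y.ι c)⟫_ℝ := by
      intro n
      rw [map_sub, inner_sub_left]
      have : ⟪Y.ι (∑ k ∈ range n, b k), Y.st (Y.ι c)⟫_ℝ = 0 :=
        (Submodule.sum_mem Y.Nul fun k _ => hbNul k).2 c hc
      rw [this, sub_zero]
    simp only [h2] at h1
    rw [inner_zero_left] at h1
    exact tendsto_nhds_unique tendsto_const_nhds h1
  refine ⟨s, ⟨?_, hsN⟩, ?_, ?_⟩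
  · exact Y.closed_of_weak _ (Y.Nw_le_Zw hsN)
  · apply Y.ι_inj
    have hpsum : ∀ n, Y.pm (∑ k ∈ range n, b k) = v - vs Y zf v n := by
      intro n
      induction n with
      | zero => simp only [range_zero, sum_empty, map_zero, vs, sub_self]
      | succ n ih =>
        rw [sum_range_succ, map_add, ih]
        simp only [vs, hb]
        abel
    have h1 : Tendsto (fun n => Y.pmH (Y.ι (s - ∑ k ∈ range n, b k))) atTop (𝓝 (Y.pmH 0)) :=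
      (Y.pmH.continuous.tendsto 0).comp hH
    have h2 : ∀ n, Y.pmH (Y.ι (s - ∑ k ∈ range n, b k)) =
        Y.ι (Y.pm s) - Y.ι v + Y.ι (vs Y zf v n) := by
      intro n
      rw [Y.pmH_ι, map_sub, hpsum, map_sub, map_sub]
      abel
    obtain ⟨A, hA0, hA⟩ := exists_decay Y hC₂ hzf 0
    have h3 : Tendsto (fun n => Y.ι (vs Y zf v n)) atTop (𝓝 0) := by
      rw [tendsto_zero_iff_norm_tendsto_zero]
      refine squeeze_zero (fun n => norm_nonneg _)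
        (g := fun n => Y.K 0 * (A * Y.N 1 1 v) * (1 / 2) ^ n) (fun n => ?_) ?_
      · have e1 := Y.norm_le_N 1 (vs Y zf v n) one_pos
        have e2 := hA v hv n
        calc ‖Y.ι (vs Y zf v n)‖ ≤ Y.K 0 * Y.N 0 1 (vs Y zf v n) := e1
          _ ≤ Y.K 0 * (A * dk Y.δ0 n ^ 0 * (1 / 2) ^ n * Y.N (0 + 1) 1 v) := by gcongr
          _ = _ := by simp only [pow_zero, mul_one, one_div, inv_pow, zero_add]; ring
      · have := (tendsto_pow_atTop_nhds_zero_of_lt_one (by norm_num : (0:ℝ) ≤ 1/2)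
          (by norm_num)).const_mul (Y.K 0 * (A * Y.N 1 1 v))
        simpa only [one_div, inv_pow, mul_zero] using this
    simp only [h2] at h1
    rw [map_zero] at h1
    have h4 : Tendsto (fun n => Y.ι (Y.pm s) - Y.ι v + Y.ι (vs Y zf v n)) atTop
        (𝓝 (Y.ι (Y.pm s) - Y.ι v + 0)) := tendsto_const_nhds.add h3
    have h5 := tendsto_nhds_unique h4 h1
    rw [add_zero, sub_eq_zero] at h5
    exact h5
  · have hbound : ∀ n, Y.M 0 s ≤ Y.M 0 (s - ∑ k ∈ range n, b k) + 2 * A₀ * Y.M 3 v := by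
      intro n
      have e1 : s = (s - ∑ k ∈ range n, b k) + ∑ k ∈ range n, b k := by abel
      have e2 : Y.M 0 s ≤ Y.M 0 (s - ∑ k ∈ range n, b k) + Y.M 0 (∑ k ∈ range n, b k) := by
        conv_lhs => rw [e1]
        exact Y.M_add 0 _ _
      have e3 : Y.M 0 (∑ k ∈ range n, b k) ≤ 2 * A₀ * Y.M 3 v := by
        calc Y.M 0 (∑ k ∈ range n, b k) ≤ ∑ k ∈ range n, Y.M 0 (b k) := M_sum Y 0 b n
          _ ≤ ∑ k ∈ range n, A₀ * Y.M (0 + 3) v * (1 / 2) ^ k := by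
              apply sum_le_sum
              intro k _
              exact hT₀ v hv k
          _ = A₀ * Y.M 3 v * ∑ k ∈ range n, (1 / 2 : ℝ) ^ k := by
              rw [mul_sum]
          _ ≤ A₀ * Y.M 3 v * 2 := by
              apply mul_le_mul_of_nonneg_left _ (mul_nonneg hA₀ (Y.M_nonneg _ _))
              have := (summable_geometric_of_lt_one (by norm_num1 : (0:ℝ) ≤ 1/2)
                (by norm_num)).sum_le_tsum (range n) (fun i _ => by positivity)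
              refine this.trans ?_
              rw [tsum_geometric_of_lt_one (by norm_num) (by norm_num)]
              norm_num1
          _ = _ := by ring
      linarith
    have h1 : Tendsto (fun n => Y.M 0 (s - ∑ k ∈ range n, b k) + 2 * A₀ * Y.M 3 v) atTop
        (𝓝 (0 + 2 * A₀ * Y.M 3 v)) := (hs 0).add_const _
    rw [zero_add] at h1
    exact ge_of_tendsto' h1 hbound

/-- A: the functional `φ` -/
theorem BP.exists_phi (h : Y.BP w0) (T : Om →ₗ[ℝ] ℝ) (CT : ℝ) (hT : ∀ b, |T b| ≤ CT * Y.M 0 b)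
    (hT' : ∀ b, T (Y.pm b) = 0) (hT'' : ∀ c ∈ Y.Nul, Y.pm c = 0 → T c = 0) :
    ∃ (φ : Om →ₗ[ℝ] ℝ) (k : ℕ) (C : ℝ), 0 ≤ C ∧ (∀ b, φ (Y.pm b) = φ b) ∧
      (∀ b, |φ b| ≤ C * Y.M k b) ∧ ∀ c ∈ Y.Nul, T c + φ c = 0 := by
  obtain ⟨k, C, hC, hER⟩ := h.exists_ER Y
  have hex : ∀ b : Om, ∃ z ∈ Y.Nul, Y.pm z = Y.pm b ∧ Y.M 0 z ≤ C * Y.M k (Y.pm b) :=
    fun b => hER (Y.pm b) (pm_pm Y b)
  choose zf hzf1 hzf2 hzf3 using hex
  have huniq : ∀ z ∈ Y.Nul, ∀ b, Y.pm z = Y.pm b → T z = T (zf b) := by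
    intro z hz b hzb
    have h1 := hT'' (z - zf b) (Submodule.sub_mem _ hz (hzf1 b)) (by
      rw [map_sub, hzb, hzf2, sub_self])
    rw [map_sub] at h1
    linarith only [h1]
  let φ : Om →ₗ[ℝ] ℝ :=
    { toFun := fun b => -T (zf b)
      map_add' := by
        intro a b
        have h1 := huniq (zf a + zf b) (Submodule.add_mem _ (hzf1 a) (hzf1 b)) (a + b) (by
          rw [map_add, map_add, hzf2, hzf2])
        rw [map_add] at h1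
        linarith only [h1]
      map_smul' := by
        intro r b
        have h1 := huniq (r • zf b) (Submodule.smul_mem _ r (hzf1 b)) (r • b) (by
          rw [map_smul, map_smul, hzf2])
        rw [map_smul] at h1
        simp only [smul_eq_mul, RingHom.id_apply] at h1 ⊢
        linarith only [h1] }
  have hK : 0 ≤ Y.K k := zero_le_one.trans (Y.one_le_K k)
  refine ⟨φ, k, |CT| * (C * Y.K k), by positivity, ?_, ?_, ?_⟩
  · intro b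
    have h1 := huniq (zf b) (hzf1 b) (Y.pm b) (by rw [hzf2, pm_pm])
    change -T (zf (Y.pm b)) = -T (zf b)
    rw [h1]
  · intro b
    change |(-T (zf b))| ≤ _
    rw [abs_neg]
    have hM := Y.M_nonneg 0 (zf b)
    have hMk := Y.M_nonneg k b
    calc |T (zf b)| ≤ CT * Y.M 0 (zf b) := hT _
      _ ≤ |CT| * Y.M 0 (zf b) := by gcongr; exact le_abs_self _
      _ ≤ |CT| * (C * Y.M k (Y.pm b)) := by gcongr; exact hzf3 b
      _ ≤ |CT| * (C * (Y.K k * Y.M k b)) := by gcongr; exact Y.M_pm k b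
      _ = _ := by ring
  · intro c hc
    have h1 := huniq c hc c rfl
    change T c + -T (zf c) = 0
    rw [h1]; ring

end P204.GX.SmSys
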