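import Vale.Agent.P204.CV.DefsG

set_option linter.all false

/-! P204 class version: Hahn-Banach part on `CM`. -/

open MeasureTheory Set Filter Topology
open scoped ContDiff InnerProductSpace

namespace Vale.Agent.P204.GX
open Vale.Agent.P204.T4 _root_.P204.GX

namespace CM
variable {X : Type} [MetricSpace X] (M : CM X)

theorem lower_chart (a : M.A) {g : V4 → L2} (hg : Continuous g)
    (hp : ∀ y w, w ≠ 0 → 0 < ev (g y) w (app (M.J a y) w)) :
    ∃ c : ℝ, 0 < c ∧ ∀ y v, ‖y‖ ≤ 1 →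
      c * ev (pull (M.m a y) F0) v (app (M.J a y) v) ≤ ev (g y) v (app (M.J a y) v) := by
  set K : Set (V4 × V4) := Metric.closedBall 0 1 ×ˢ Metric.sphere 0 1 with hK
  have hKc : IsCompact K := (isCompact_closedBall _ _).prod (isCompact_sphere _ _)
  have hJ : Continuous (fun p : V4 × V4 => app (M.J a p.1) p.2) :=
    G7.cont_app ((M.J_cont a).comp continuous_fst) continuous_snd
  have hev : ∀ g : V4 → L2, Continuous g →
      Continuous (fun p : V4 × V4 => ev (g p.1) p.2 (app (M.J a p.1) p.2)) := fun g hg =>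
    G7.cont_ev (hg.comp continuous_fst) continuous_snd hJ
  have hF := hev _ (M.F_smooth a).continuous
  have hG := hev g hg
  obtain ⟨B, hB⟩ := hKc.exists_bound_of_continuousOn hF.continuousOn
  obtain ⟨c, hc0, hc⟩ : ∃ c : ℝ, 0 < c ∧ ∀ p ∈ K,
      c ≤ ev (g p.1) p.2 (app (M.J a p.1) p.2) := by
    rcases K.eq_empty_or_nonempty with hE | hE
    · exact ⟨1, one_pos, fun p hp => by rw [hE] at hp; exact absurd hp (Set.notMem_empty _)⟩
    · obtain ⟨p0, hp0, hmin⟩ := hKc.exists_isMinOn hE hG.continuousOn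
      refine ⟨_, ?_, fun p hp => hmin hp⟩
      apply hp
      intro h0
      have h2 : ‖p0.2‖ = 1 := by
        have := hp0.2
        rwa [mem_sphere_zero_iff_norm] at this
      rw [h0, norm_zero] at h2
      exact zero_ne_one h2
  refine ⟨c / max B 1, by positivity, fun y v hy => ?_⟩
  rcases eq_or_ne v 0 with h0 | h0
  · rw [h0, app_zero, ev_self, ev_self]; simp only [mul_zero, le_refl]
  · have hvn : 0 < ‖v‖ := norm_pos_iff.2 h0
    have hmem : (y, ‖v‖⁻¹ • v) ∈ K := by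
      refine ⟨mem_closedBall_zero_iff.2 hy, ?_⟩
      rw [mem_sphere_zero_iff_norm, norm_smul, norm_inv, norm_norm, inv_mul_cancel₀ hvn.ne']
    have h1 := hc _ hmem
    have h2 := hB _ hmem
    rw [Real.norm_eq_abs] at h2
    have h3 := le_abs_self (ev (pull (M.m a y) F0) (‖v‖⁻¹ • v) (app (M.J a y) (‖v‖⁻¹ • v)))
    have hom : ∀ A : L2, ev A v (app (M.J a y) v)
        = ‖v‖ ^ 2 * ev A (‖v‖⁻¹ • v) (app (M.J a y) (‖v‖⁻¹ • v)) := by
      intro A
      rw [app_smul, ev_smul_left, ev_smul_right]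
      field_simp
    rw [hom, hom (g y)]
    have hB1 : (0 : ℝ) < max B 1 := by positivity
    have h5 : ev (pull (M.m a y) F0) (‖v‖⁻¹ • v) (app (M.J a y) (‖v‖⁻¹ • v)) ≤ max B 1 := by
      have : B ≤ max B 1 := le_max_left _ _
      simp only at h2
      linarith only [h2, h3, this]
    have h4 : c / max B 1 * ev (pull (M.m a y) F0) (‖v‖⁻¹ • v)
        (app (M.J a y) (‖v‖⁻¹ • v)) ≤ c := by
      have := mul_le_mul_of_nonneg_left h5 (by positivity : 0 ≤ c / max B 1)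
      rwa [div_mul_cancel₀ _ hB1.ne'] at this
    have h6 := h4.trans h1
    have h7 := mul_le_mul_of_nonneg_left h6 (sq_nonneg ‖v‖)
    simp only at h7
    linarith only [h7]

/-- a positive form bounds `F0` -/
theorem exists_lower {u : X → L2} (hu : u ∈ M.C0)
    (hp : ∀ x v, v ≠ 0 → 0 < ev (u x) v (app J0 v)) :
    ∃ c : ℝ, 0 < c ∧ ∀ x v, c * ev F0 v (app J0 v) ≤ ev (u x) v (app J0 v) := by
  have h := fun a => M.lower_chart a (hu a) (by
    intro y w hw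
    have h1 := M.ev_frame a u y (app (M.m a y) w)
    rw [M.m'_m] at h1
    rw [← h1]
    apply hp
    intro h0
    apply hw
    have h2 := M.m'_m a y w
    rw [h0, app_zero] at h2
    exact h2.symm)
  choose c hc0 hc using h
  obtain ⟨c0, hc00, hc0le⟩ : ∃ c0 : ℝ, 0 < c0 ∧ ∀ a : M.A, c0 ≤ c a := by
    rcases isEmpty_or_nonempty M.A with he | hne
    · exact ⟨1, one_pos, fun a => (he.false a).elim⟩
    · obtain ⟨a0, ha0⟩ := Finite.exists_min (fun a : M.A => c a)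
      exact ⟨c a0, hc0 a0, ha0⟩
  refine ⟨c0, hc00, fun x v => ?_⟩
  obtain ⟨a, y, hy, rfl⟩ := M.cov x
  have h1 := hc a y (app (M.m' a y) v) hy.le
  have h2 := M.ev_frame a u y v
  have h3 := M.ev_frame a (fun _ => F0) y v
  rw [M.cf_F0] at h3
  rw [← h2, ← h3] at h1
  have h5 : 0 ≤ ev F0 v (app J0 v) := G7.cone_F0'.2 v
  have h6 := mul_le_mul_of_nonneg_right (hc0le a) h5
  linarith only [h1, h6]

theorem isCl_mem {u : X → L2} (h : M.IsCl u) : (⟨u, h.1⟩ : M.Om) ∈ M.Cl := h.2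

theorem isCl_coe {b : M.Om} (h : b ∈ M.Cl) : M.IsCl (b : X → L2) := ⟨b.2, h⟩

theorem isCl_C0 {u : X → L2} (h : M.IsCl u) : u ∈ M.C0 := M.Om_le_C07 h.1

variable [MeasurableSpace X] [BorelSpace X]

/-- the positive current `T` which kills a subspace -/
theorem exists_Tcl [CompactSpace X] (K : Submodule ℝ M.Om)
    (hK : ∀ κ ∈ K, ∀ c : ℝ, 0 < c → (∀ x v, c * ev F0 v (app J0 v) ≤
      ev ((κ : X → L2) x) v (app J0 v)) → False) :
    ∃ (t : Measure X) (D : X → L2), FnSys.Cur t D ∧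
      (∀ κ ∈ K, FnSys.fn t D (κ : X → L2) = 0) ∧ FnSys.fn t D (fun _ => F0) = 1 := by
  obtain ⟨T, h1, h2, h3⟩ := GX.exists_T M.posC (M.toC0 M.FOm) M.unitC (K.map M.toC0) (by
    rintro _ ⟨b, hb, rfl⟩ c hc hpos
    apply hK b hb c hc
    intro x v
    have h4 := hpos x v
    have h4' : 0 ≤ ev ((b : X → L2) x - c • F0) v (app J0 v) := h4
    rw [ev_sub, ev_smul] at h4'
    linarith only [h4'])
  obtain ⟨t, D, hC, hr⟩ := M.rep T (fun u hu => h2 u hu)
  refine ⟨t, D, hC, fun b hb => ?_, ?_⟩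
  · have h4 := h1 (M.toC0 b) ⟨b, hb, rfl⟩
    rw [hr] at h4
    exact h4
  · rw [hr] at h3; exact h3

/-- a positive current in the class of a form which is nonnegative on closed positive forms -/
theorem exists_Pcl [CompactSpace X] {w0 : X → L2} (hw0 : M.IsCl w0)
    (hw0p : ∀ x, PosDef J0 (w0 x)) {e : X → L2} (he : e ∈ M.C0)
    (h : ∀ c, M.IsCl c → (∀ x v, 0 ≤ ev (c x) v (app J0 v)) → 0 ≤ ∫ x, Q (e x) (c x) ∂M.mu) :
    ∃ (p : Measure X) (E : X → L2), FnSys.Cur p E ∧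
      ∀ c, M.IsCl c → FnSys.fn p E c = ∫ x, Q (e x) (c x) ∂M.mu := by
  obtain ⟨c0, hc0, hlow⟩ := M.exists_lower (M.isCl_C0 hw0) (fun x v hv => (hw0p x).2 v hv)
  set f : M.C0 →ₗ.[ℝ] ℝ := ⟨M.Cl.map M.toC0, (M.IC ⟨e, he⟩).comp (Submodule.subtype _)⟩ with hf
  obtain ⟨g, hg1, hg2⟩ := riesz_extension M.posC f (by
    rintro ⟨x, hx⟩ hxC
    obtain ⟨b, hb, rfl⟩ := hx
    exact h (b : X → L2) (M.isCl_coe hb) (fun x v => hxC x v)) (by
    intro y
    obtain ⟨t, ht0, ht⟩ := M.exists_unit y.2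
    refine ⟨⟨M.toC0 ((t / c0) • ⟨w0, hw0.1⟩), ⟨_, M.Cl.smul_mem _ (M.isCl_mem hw0), rfl⟩⟩, ?_⟩
    intro x v
    show 0 ≤ ev ((t / c0) • w0 x + (y : X → L2) x) v (app J0 v)
    rw [ev_add, ev_smul]
    have h1 := ht x v
    have h2 := mul_le_mul_of_nonneg_left (hlow x v) (by positivity : 0 ≤ t / c0)
    have h3 : t / c0 * (c0 * ev F0 v (app J0 v)) = t * ev F0 v (app J0 v) := by
      field_simp
    rw [h3] at h2
    linarith only [h1, h2])
  obtain ⟨p, E, hC, hr⟩ := M.rep g (fun u hu => hg2 u hu)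
  refine ⟨p, E, hC, fun c hc => ?_⟩
  have h4 := hg1 ⟨M.toC0 ⟨c, hc.1⟩, ⟨_, M.isCl_mem hc, rfl⟩⟩
  have h5 := hr (M.toC0 ⟨c, hc.1⟩)
  rw [show g (M.toC0 ⟨c, hc.1⟩) = _ from h4] at h5
  exact h5.symm

end CM
end Vale.Agent.P204.GX
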