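import Vale.Agent.P204.CV.DefsA

set_option linter.all false

/-! P204 class version, package C: the energy estimate when `b⁺ ≤ 1`. -/

open MeasureTheory Set Filter Topology
open scoped ContDiff InnerProductSpace

namespace P204.GX.SmSys

variable {H Om : Type} [NormedAddCommGroup H] [InnerProductSpace ℝ H] [CompleteSpace H]
  [AddCommGroup Om] [Module ℝ Om]

variable (Y : SmSys H Om) {w0 : Om}

/-- reverse Cauchy-Schwarz on closed smooth forms -/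
theorem BP.rcs_cl (h : Y.BP w0) {c : Om} (hc : c ∈ Y.Cl) :
    ⟪Y.ι c, Y.st (Y.ι c)⟫_ℝ * ⟪Y.ι w0, Y.st (Y.ι w0)⟫_ℝ ≤ ⟪Y.ι c, Y.st (Y.ι w0)⟫_ℝ ^ 2 := by
  by_contra hcon
  push Not at hcon
  have hp := h.pos
  refine h.one w0 h.cl c hc ?_
  intro s t hst
  set p := ⟪Y.ι w0, Y.st (Y.ι w0)⟫_ℝ with hpdef
  set q := ⟪Y.ι c, Y.st (Y.ι c)⟫_ℝ with hq
  set r := ⟪Y.ι c, Y.st (Y.ι w0)⟫_ℝ with hr
  have hr' : ⟪Y.ι w0, Y.st (Y.ι c)⟫_ℝ = r := by
    rw [hr, real_inner_comm, Y.st_symm]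
  have hexp : ⟪Y.ι (s • w0 + t • c), Y.st (Y.ι (s • w0 + t • c))⟫_ℝ =
      s ^ 2 * p + 2 * (s * t * r) + t ^ 2 * q := by
    simp only [map_add, map_smul, inner_add_left, inner_add_right, real_inner_smul_left,
      real_inner_smul_right]
    rw [hr', ← hr, ← hpdef, ← hq]
    ring
  rw [hexp]
  have hmul : 0 < p * (s ^ 2 * p + 2 * (s * t * r) + t ^ 2 * q) := by
    have e1 : p * (s ^ 2 * p + 2 * (s * t * r) + t ^ 2 * q) =
        (s * p + t * r) ^ 2 + t ^ 2 * (q * p - r ^ 2) := by ring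
    rw [e1]
    have hd : 0 < q * p - r ^ 2 := by linarith only [hcon]
    by_cases ht : t = 0
    · subst ht
      have hs : s ≠ 0 := by
        rintro rfl
        exact hst rfl
      have : s * p + 0 * r ≠ 0 := by
        rw [zero_mul, add_zero]
        exact mul_ne_zero hs hp.ne'
      have := pow_pos (abs_pos.2 this) 2
      rw [sq_abs] at this
      linarith only [this, mul_nonneg (sq_nonneg (0 : ℝ)) hd.le]
    · have h2 : 0 < t ^ 2 * (q * p - r ^ 2) := mul_pos (by positivity) hd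
      linarith only [h2, sq_nonneg (s * p + t * r)]
  exact (pos_iff_pos_of_mul_pos hmul).1 hp

/-- reverse Cauchy-Schwarz on weakly closed forms -/
theorem BP.rcs_w (h : Y.BP w0) {z : H} (hz : z ∈ Y.Zw) :
    ⟪z, Y.st z⟫_ℝ * ⟪Y.ι w0, Y.st (Y.ι w0)⟫_ℝ ≤ ⟪z, Y.st (Y.ι w0)⟫_ℝ ^ 2 := by
  have hc : IsClosed {u : H | ⟪u, Y.st u⟫_ℝ * ⟪Y.ι w0, Y.st (Y.ι w0)⟫_ℝ ≤
      ⟪u, Y.st (Y.ι w0)⟫_ℝ ^ 2} :=
    isClosed_le ((continuous_id.inner Y.st.continuous).mul continuous_const)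
      ((continuous_id.inner continuous_const).pow 2)
  have hsub : Y.ι '' (Y.Cl : Set Om) ⊆ {u : H | ⟪u, Y.st u⟫_ℝ * ⟪Y.ι w0, Y.st (Y.ι w0)⟫_ℝ ≤
      ⟪u, Y.st (Y.ι w0)⟫_ℝ ^ 2} := by
    rintro _ ⟨c, hc, rfl⟩
    exact BP.rcs_cl Y h hc
  exact closure_minimal hsub hc (Y.Zw_le_closure hz)

/-- The energy inequality at one scale. -/
theorem BP.energy_step (h : Y.BP w0) {T φ : Om →ₗ[ℝ] ℝ} (B : TBoundE Y T φ) {δ : ℝ} (h0 : 0 < δ)
    (h1 : δ ≤ Y.δ0) {fr : H} (hfr : ∀ u, ⟪fr, Y.st u⟫_ℝ = φ (Y.S δ u)) {g : ℝ} (hg : 0 ≤ g)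
    (hpl : ∀ u, |φ (Y.S δ (u - Y.pmH u))| ≤ g * δ * ‖u‖) :
    ‖fr‖ ^ 2 ≤ B.C * B.NT δ + 2 * (B.C * Real.sqrt (B.NT δ)) * (‖fr‖ + g) + 2 * g ^ 2 * δ ^ 2 +
      (B.C * (Y.K 0 * Y.M 0 w0) + g * δ * ‖Y.ι w0‖) ^ 2 / ⟪Y.ι w0, Y.st (Y.ι w0)⟫_ℝ := by
  have hC := B.C_nonneg
  have hs := Real.sqrt_nonneg (B.NT δ)
  have hp := h.pos
  -- representing vector of `T ∘ S δ`
  obtain ⟨tr, htr⟩ := Y.exists_rep (T ∘ₗ Y.S δ) (B.C * Real.sqrt (B.NT δ) / δ) (fun u => by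
    have := B.t1 δ u h0 h1
    rw [LinearMap.comp_apply, div_mul_eq_mul_div, le_div_iff₀ h0]
    linarith)
  have htr' : ∀ u, ⟪tr, Y.st u⟫_ℝ = T (Y.S δ u) := htr
  -- the invariant part of `fr`
  set fp := fr - Y.pmH fr with hfp
  have hfprep : ∀ u, ⟪fp, Y.st u⟫_ℝ = φ (Y.S δ (u - Y.pmH u)) := by
    intro u
    rw [hfp, inner_sub_left, hfr, Y.pmH_symm, Y.pmH_st, map_sub, map_sub, ← hfr (Y.pmH u),
      Y.st_pmH]
  have hfpn : ‖fp‖ ≤ g * δ := Y.norm_le_of_rep (by positivity) (fun u => by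
    rw [hfprep]; exact hpl u)
  -- the sum is weakly closed
  have hkill : ∀ c ∈ Y.Ex, ⟪tr + fr, Y.st (Y.ι c)⟫_ℝ = 0 := by
    intro c hc
    rw [inner_add_left, htr', hfr]
    exact B.kill _ (Y.S_Ex δ c h0 h1 hc)
  have hZ : tr + fr ∈ Y.Zw := Y.mem_Zw_of_kill hkill
  -- the pairing with `w0`
  have hw0 : |⟪tr + fr, Y.st (Y.ι w0)⟫_ℝ| ≤
      B.C * (Y.K 0 * Y.M 0 w0) + g * δ * ‖Y.ι w0‖ := by
    rw [inner_add_left, htr', hfr]
    have e1 : |T (Y.S δ (Y.ι w0))| ≤ B.C * (Y.K 0 * Y.M 0 w0) :=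
      (B.T_bd _).trans (mul_le_mul_of_nonneg_left (Y.O1M 0 δ w0 h0 h1) hC)
    have e2 : Y.ι w0 - Y.pmH (Y.ι w0) = Y.ι w0 := by
      rw [Y.pmH_ι, h.pm, map_zero, sub_zero]
    have e3 : |φ (Y.S δ (Y.ι w0))| ≤ g * δ * ‖Y.ι w0‖ := by
      have := hpl (Y.ι w0)
      rwa [e2] at this
    exact (abs_add_le _ _).trans (add_le_add e1 e3)
  have hpair : ⟪tr + fr, Y.st (tr + fr)⟫_ℝ ≤
      (B.C * (Y.K 0 * Y.M 0 w0) + g * δ * ‖Y.ι w0‖) ^ 2 / ⟪Y.ι w0, Y.st (Y.ι w0)⟫_ℝ := by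
    rw [le_div_iff₀ hp]
    refine (BP.rcs_w Y h hZ).trans ?_
    rw [← sq_abs ⟪tr + fr, Y.st (Y.ι w0)⟫_ℝ]
    exact pow_le_pow_left₀ (abs_nonneg _) hw0 2
  have hexp : ⟪tr + fr, Y.st (tr + fr)⟫_ℝ =
      ⟪tr, Y.st tr⟫_ℝ + 2 * ⟪tr, Y.st fr⟫_ℝ + ⟪fr, Y.st fr⟫_ℝ := by
    rw [map_add, inner_add_left, inner_add_right, inner_add_right]
    have : ⟪fr, Y.st tr⟫_ℝ = ⟪tr, Y.st fr⟫_ℝ := by rw [real_inner_comm, Y.st_symm]
    rw [this]; ring
  rw [hexp] at hpair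
  -- `pr φ φ`
  have hff : ‖fr‖ ^ 2 - 2 * ‖fp‖ ^ 2 ≤ ⟪fr, Y.st fr⟫_ℝ := by
    have e1 : fr = Y.pmH fr + fp := by rw [hfp]; abel
    have e2 : Y.st fr = Y.pmH fr + Y.st fp := by
      conv_lhs => rw [e1]
      rw [map_add, Y.st_pmH]
    have e3 : ⟪fr, Y.pmH fr⟫_ℝ = ‖Y.pmH fr‖ ^ 2 := by
      rw [← real_inner_self_eq_norm_sq, Y.pmH_symm, Y.pmH_pmH]
    have e4 : ⟪fr, Y.st fp⟫_ℝ = ⟪fp, Y.st fp⟫_ℝ := by
      conv_lhs => rw [e1]
      rw [inner_add_left]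
      have : ⟪Y.pmH fr, Y.st fp⟫_ℝ = 0 := by
        rw [← Y.st_symm, Y.st_pmH, hfp]; exact Y.inner_pm_compl fr fr
      rw [this, zero_add]
    have e5 : -‖fp‖ ^ 2 ≤ ⟪fp, Y.st fp⟫_ℝ := by
      have := neg_le_of_abs_le (Y.abs_rep_le fp fp)
      linarith only [this]
    have e6 := Y.norm_sq_split fr
    rw [e2, inner_add_right, e3, e4]
    rw [← hfp] at e6
    linarith
  -- `pr T T`
  have htt := B.t3 δ tr h0 h1 htr'
  -- `pr T φ`
  have htf : |⟪tr, Y.st fr⟫_ℝ| ≤ B.C * Real.sqrt (B.NT δ) * (‖fr‖ + g) := by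
    have e1 : ⟪tr, Y.st fr⟫_ℝ = T (Y.S δ (Y.pmH fr)) + T (Y.S δ fp) := by
      rw [htr', ← map_add, ← map_add, hfp, add_sub_cancel]
    have e2 := B.t2 δ fr h0 h1
    have e3 := B.t1 δ fp h0 h1
    have e4 : |T (Y.S δ fp)| ≤ B.C * Real.sqrt (B.NT δ) * g := by
      have h5 : δ * |T (Y.S δ fp)| ≤ δ * (B.C * Real.sqrt (B.NT δ) * g) := by
        calc _ ≤ B.C * Real.sqrt (B.NT δ) * ‖fp‖ := e3
          _ ≤ B.C * Real.sqrt (B.NT δ) * (g * δ) := by gcongr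
          _ = _ := by ring
      exact le_of_mul_le_mul_left h5 h0
    rw [e1]
    calc _ ≤ |T (Y.S δ (Y.pmH fr))| + |T (Y.S δ fp)| := abs_add_le _ _
      _ ≤ B.C * Real.sqrt (B.NT δ) * ‖fr‖ + B.C * Real.sqrt (B.NT δ) * g := add_le_add e2 e4
      _ = _ := by ring
  have htf' := neg_le_of_abs_le htf
  have hfp2 : ‖fp‖ ^ 2 ≤ (g * δ) ^ 2 := pow_le_pow_left₀ (norm_nonneg _) hfpn 2
  linarith only [hfp2, htf', htt, hff, hpair]

/-- The energy estimate when `b⁺ ≤ 1`. -/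
theorem BP.energy (h : Y.BP w0) {T φ : Om →ₗ[ℝ] ℝ} (B : TBoundE Y T φ) :
    ∃ C δ1 : ℝ, 0 ≤ C ∧ 0 < δ1 ∧ δ1 ≤ Y.δ0 ∧ ∀ δ, 0 < δ → δ ≤ δ1 → B.NT δ ≤ C ∧
      (∀ u, |φ (Y.S δ u)| ≤ C * ‖u‖) ∧ (∀ u, |φ (Y.S δ (u - Y.pmH u))| ≤ C * δ * ‖u‖) := by
  classical
  set k := B.k with hk
  have hC := B.C_nonneg
  have hp := h.pos
  set p : ℝ := ⟪Y.ι w0, Y.st (Y.ι w0)⟫_ℝ with hpdef
  set W : ℝ := B.C * (Y.K 0 * Y.M 0 w0) with hW
  have hK0 := Y.one_le_K 0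
  have hM0 := Y.M_nonneg 0 w0
  have hW0 : 0 ≤ W := by (clear * - hC hK0 hM0; positivity)
  set V : ℝ := ‖Y.ι w0‖ with hV
  have hV0 : 0 ≤ V := norm_nonneg _
  -- the decomposition
  obtain ⟨lam, hlam, CD, hCD, hD⟩ := Y.exists_D (k + 3) k
  have hlam0 : 0 < lam := by linarith only [hlam]
  set x : ℝ := lam⁻¹ with hx
  have hx0 : 0 < x := inv_pos.2 hlam0
  have hx2 : x ≤ 1 / 2 := by
    rw [hx, inv_le_comm₀ hlam0 (by norm_num)]; linarith only [hlam]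
  -- representing vectors
  have hrep : ∀ δ : ℝ, ∃ fr : H, 0 < δ → δ ≤ Y.δ0 → ∀ u, ⟪fr, Y.st u⟫_ℝ = φ (Y.S δ u) := by
    intro δ
    by_cases h : 0 < δ ∧ δ ≤ Y.δ0
    · obtain ⟨fr, hfr⟩ := Y.exists_rep (φ ∘ₗ Y.S δ) _
        (fun u => Y.abs_comp_S_le hC B.φ_bd h.1 h.2 u)
      exact ⟨fr, fun _ _ => hfr⟩
    · exact ⟨0, fun h1 h2 => absurd ⟨h1, h2⟩ h⟩
  choose fr hfr using hrep
  have hfrn : ∀ δ, 0 < δ → δ ≤ Y.δ0 → ‖fr δ‖ ≤ B.C * (Y.K k * (δ ^ (2 + k))⁻¹) := by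
    intro δ h0 h1
    have hK := Y.one_le_K k
    refine Y.norm_le_of_rep (by positivity) fun u => ?_
    rw [hfr δ h0 h1]
    exact Y.abs_comp_S_le hC B.φ_bd h0 h1 u
  have hphi : ∀ δ, 0 < δ → δ ≤ Y.δ0 → ∀ u, |φ (Y.S δ u)| ≤ ‖fr δ‖ * ‖u‖ := by
    intro δ h0 h1 u
    rw [← hfr δ h0 h1]
    exact Y.abs_rep_le _ _
  set q := k + 4 with hq
  set G : ℝ := CD * Y.K q with hG
  have hKq := Y.one_le_K q
  have hG0 : 0 ≤ G := by positivity
  set Dq : ℝ := max (B.D q) 0 with hDq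
  have hDq0 : 0 ≤ Dq := le_max_right _ _
  -- the constant of the sequence lemma
  set R : ℝ := 2 * W ^ 2 / p with hR
  have hR0 : 0 ≤ R := by (clear * - hp; positivity)
  set R' : ℝ := 2 * G ^ 2 * (V ^ 2 / p) with hR'
  have hR'0 : 0 ≤ R' := by (clear * - hp; positivity)
  set C1 : ℝ := B.C * (1 + CD * Dq) + 2 * B.C * (1 + G) + 2 * G ^ 2 + (1 + R + R') with hC1
  have hC10 : 0 ≤ C1 := by (clear * - hC hCD hKq hR0 hR'0; positivity)
  obtain ⟨C', ε0, hε0, hC', hseq⟩ := Vale.Agent.P204.GX.seq_energy hC10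
  refine ⟨C' + G * C', min ε0 Y.δ0, by positivity, lt_min hε0 Y.δ0_pos, min_le_right _ _, ?_⟩
  intro δ hδ hδ1
  have hδε : δ ≤ ε0 := hδ1.trans (min_le_left _ _)
  have hδ0 : δ ≤ Y.δ0 := hδ1.trans (min_le_right _ _)
  have hsc : ∀ j, 0 < δ * x ^ j ∧ δ * x ^ j ≤ δ := fun j => scale_ok hδ (by linarith only [hlam]) j
  have hsc0 : ∀ j, δ * x ^ j ≤ Y.δ0 := fun j => (hsc j).2.trans hδ0
  set a : ℕ → ℝ := fun j => ‖fr (δ * x ^ j)‖ with ha
  set n : ℕ → ℝ := fun j => B.NT (δ * x ^ j) + 1 with hn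
  have ha0 : ∀ j, 0 ≤ a j := fun j => norm_nonneg _
  have hnn0 : ∀ j, 0 ≤ B.NT (δ * x ^ j) := fun j => B.NT_nonneg _
  have hn0 : ∀ j, 0 ≤ n j := fun j => by
    have := hnn0 j
    change 0 ≤ B.NT (δ * x ^ j) + 1
    linarith only [this]
  set Kb : ℝ := B.C * (Y.K k * (δ ^ (2 + k))⁻¹) with hKb
  have hgrow : ∀ j, x ^ ((k + 2) * j) * a j ≤ Kb := by
    intro j
    have h1 := hfrn _ (hsc j).1 (hsc0 j)
    have hxp : 0 < x ^ ((k + 2) * j) := by positivity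
    calc x ^ ((k + 2) * j) * a j ≤ x ^ ((k + 2) * j) *
          (B.C * (Y.K k * ((δ * x ^ j) ^ (2 + k))⁻¹)) := by gcongr
      _ = Kb * (x ^ ((k + 2) * j) * (x ^ ((k + 2) * j))⁻¹) := by
          rw [mul_pow, ← pow_mul, Nat.mul_comm j (2 + k), Nat.add_comm 2 k, mul_inv, hKb,
            Nat.add_comm 2 k]
          ring
      _ = Kb := by rw [mul_inv_cancel₀ hxp.ne', mul_one]
  have hsum : ∀ j, Summable fun l => x ^ ((k + 2 + 1) * l) * a (j + l) := by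
    intro j
    have hxj : 0 < x ^ ((k + 2) * j) := by positivity
    refine Summable.of_nonneg_of_le (fun l => mul_nonneg (by positivity) (ha0 _)) (fun l => ?_)
      ((summable_geometric_of_lt_one hx0.le (by linarith only [hx2])).mul_left
        ((x ^ ((k + 2) * j))⁻¹ * Kb))
    have h1 := hgrow (j + l)
    have e1 : x ^ ((k + 2 + 1) * l) * a (j + l) =
        (x ^ ((k + 2) * j))⁻¹ * (x ^ l * (x ^ ((k + 2) * (j + l)) * a (j + l))) := by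
      have : x ^ ((k + 2 + 1) * l) = (x ^ ((k + 2) * j))⁻¹ * (x ^ l * x ^ ((k + 2) * (j + l))) := by
        rw [mul_add, pow_add, add_mul, one_mul, pow_add]
        field_simp
      rw [this]; ring
    rw [e1]
    calc _ ≤ (x ^ ((k + 2) * j))⁻¹ * (x ^ l * Kb) := by gcongr
      _ = _ := by ring
  choose A hA using fun j => (hsum j)
  have hA0 : ∀ j, 0 ≤ A j := fun j =>
    (hA j).nonneg (fun l => mul_nonneg (by positivity) (ha0 _))
  -- `φ` at scale `j`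
  have hphiN : ∀ j v, |φ v| ≤ CD * A j * Y.N q (δ * x ^ j) v := by
    intro j v
    obtain ⟨h1, h2⟩ := hD (δ * x ^ j) (hsc j).1 (hsc0 j) v
    refine Y.abs_le_of_D B.φ_bd (hsc j).1 (hsc0 j) (by linarith only [hlam]) hCD h1 (h2 k le_rfl)
      (a := fun l => a (j + l)) (fun l => ha0 _) (fun l u => ?_) (hA j)
    have e1 : δ * x ^ j * lam⁻¹ ^ l = δ * x ^ (j + l) := by rw [pow_add, ← hx]; ring
    rw [e1]
    exact hphi _ (hsc _).1 (hsc0 _) u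
  have hpl : ∀ j u, |φ (Y.S (δ * x ^ j) (u - Y.pmH u))| ≤ G * A j * (δ * x ^ j) * ‖u‖ := by
    intro j u
    have := Y.abs_comp_S_compl_le B.φ_pm (hsc j).1 (hsc0 j) (by have := hA0 j; positivity)
      (hphiN j) u
    calc _ ≤ CD * A j * (Y.K q * (δ * x ^ j)) * ‖u‖ := this
      _ = _ := by rw [hG]; ring
  have hgr : ∀ j, n j ≤ C1 * (1 + A j) := by
    intro j
    obtain ⟨v, hv1, hv2⟩ := B.t4 (δ * x ^ j) (hsc j).1 (hsc0 j)
    have h1 : |φ v| ≤ CD * A j * Dq := (hphiN j v).trans (by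
      have := hA0 j
      have h3 := hv1 q
      have h4 : Y.N q (δ * x ^ j) v ≤ Dq := h3.trans (le_max_left _ _)
      gcongr)
    have hAj := hA0 j
    have hmain : B.NT (δ * x ^ j) ≤ B.C * (1 + CD * Dq) * (1 + A j) := by
      calc B.NT (δ * x ^ j) ≤ B.C * (1 + |φ v|) := hv2
        _ ≤ B.C * (1 + CD * A j * Dq) := by gcongr
        _ ≤ B.C * (1 + CD * Dq) * (1 + A j) := by
          have h5 : 1 + CD * A j * Dq ≤ (1 + CD * Dq) * (1 + A j) := by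
            have : 0 ≤ CD * Dq := by (clear * - hCD; positivity)
            linarith only [hAj, this]
          calc _ ≤ B.C * ((1 + CD * Dq) * (1 + A j)) := by gcongr
            _ = _ := by ring
    have h6 : B.C * (1 + CD * Dq) + 1 ≤ C1 := by
      rw [hC1]
      have : 0 ≤ 2 * B.C * (1 + G) + 2 * G ^ 2 + (R + R') := by
        (clear * - hC hCD hKq hR0 hR'0; positivity)
      linarith only [this]
    calc n j = B.NT (δ * x ^ j) + 1 := rfl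
      _ ≤ B.C * (1 + CD * Dq) * (1 + A j) + 1 * (1 + A j) := by linarith only [hmain, hAj]
      _ = (B.C * (1 + CD * Dq) + 1) * (1 + A j) := by ring
      _ ≤ C1 * (1 + A j) := by gcongr
  have hen : ∀ j, a j ^ 2 ≤ C1 * n j + C1 * Real.sqrt (n j) * (a j + A j) +
      C1 * δ ^ 2 * A j ^ 2 := by
    intro j
    have hAj := hA0 j
    have h1 := BP.energy_step Y h B (hsc j).1 (hsc0 j) (hfr _ (hsc j).1 (hsc0 j))
      (g := G * A j) (by (clear * - hCD hKq hAj; positivity)) (hpl j)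
    rw [← hpdef, ← hW, ← hV] at h1
    have hs := Real.sqrt_nonneg (n j)
    have haj := ha0 j
    have hnj := hnn0 j
    have hsle : Real.sqrt (B.NT (δ * x ^ j)) ≤ Real.sqrt (n j) := by
      apply Real.sqrt_le_sqrt
      change B.NT (δ * x ^ j) ≤ B.NT (δ * x ^ j) + 1
      linarith only
    have hδx2 : (δ * x ^ j) ^ 2 ≤ δ ^ 2 := pow_le_pow_left₀ (hsc j).1.le (hsc j).2 2
    -- the last term
    have t4 : (W + G * A j * (δ * x ^ j) * V) ^ 2 / p ≤ R + R' * δ ^ 2 * A j ^ 2 := by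
      rw [div_le_iff₀ hp]
      have e1 : (W + G * A j * (δ * x ^ j) * V) ^ 2 ≤
          2 * W ^ 2 + 2 * (G * A j * (δ * x ^ j) * V) ^ 2 := by
        nlinarith only [sq_nonneg (W - G * A j * (δ * x ^ j) * V)]
      have e2 : 2 * (G * A j * (δ * x ^ j) * V) ^ 2 ≤ 2 * G ^ 2 * V ^ 2 * δ ^ 2 * A j ^ 2 := by
        calc _ = 2 * G ^ 2 * V ^ 2 * (δ * x ^ j) ^ 2 * A j ^ 2 := by ring
          _ ≤ _ := by gcongr
      have e3 : (R + R' * δ ^ 2 * A j ^ 2) * p =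
          2 * W ^ 2 + 2 * G ^ 2 * V ^ 2 * δ ^ 2 * A j ^ 2 := by
        rw [hR, hR']
        field_simp
      rw [e3]
      linarith only [e1, e2]
    have t1 : B.C * B.NT (δ * x ^ j) + R ≤ C1 * n j := by
      have e1 : B.C ≤ C1 := by
        rw [hC1]
        have e1 : 0 ≤ B.C * (CD * Dq) + 2 * B.C * (1 + G) + 2 * G ^ 2 + (1 + R + R') := by
          (clear * - hC hCD hKq hR0 hR'0; positivity)
        linarith only [e1]
      have e2 : R ≤ C1 := by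
        rw [hC1]
        have e1 : 0 ≤ B.C * (1 + CD * Dq) + 2 * B.C * (1 + G) + 2 * G ^ 2 + (1 + R') := by
          (clear * - hC hCD hKq hR0 hR'0; positivity)
        linarith only [e1]
      calc _ ≤ C1 * B.NT (δ * x ^ j) + C1 * 1 := by
            rw [mul_one]
            gcongr
        _ = C1 * n j := by rw [← mul_add]
    have t2 : 2 * (B.C * Real.sqrt (B.NT (δ * x ^ j))) * (a j + G * A j) ≤
        C1 * Real.sqrt (n j) * (a j + A j) := by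
      have e1 : 2 * (a j + G * A j) ≤ 2 * (1 + G) * (a j + A j) := by
        have : 0 ≤ G * a j := by (clear * - hCD hKq haj; positivity)
        linarith only [this, hAj]
      have e2 : 2 * B.C * (1 + G) ≤ C1 := by
        rw [hC1]
        have : 0 ≤ B.C * (1 + CD * Dq) + 2 * G ^ 2 + (1 + R + R') := by
          (clear * - hC hCD hR0 hR'0; positivity)
        linarith only [this]
      have e3 : 0 ≤ 2 * (1 + G) * (a j + A j) := by
        (clear * - hG0 haj hAj; positivity)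
      calc _ = B.C * Real.sqrt (B.NT (δ * x ^ j)) * (2 * (a j + G * A j)) := by ring
        _ ≤ B.C * Real.sqrt (B.NT (δ * x ^ j)) * (2 * (1 + G) * (a j + A j)) := by gcongr
        _ ≤ B.C * Real.sqrt (n j) * (2 * (1 + G) * (a j + A j)) := by gcongr
        _ = 2 * B.C * (1 + G) * Real.sqrt (n j) * (a j + A j) := by ring
        _ ≤ _ := by gcongr
    have t3 : 2 * (G * A j) ^ 2 * (δ * x ^ j) ^ 2 + R' * δ ^ 2 * A j ^ 2 ≤
        C1 * δ ^ 2 * A j ^ 2 := by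
      have e2 : 2 * G ^ 2 + R' ≤ C1 := by
        rw [hC1]
        have : 0 ≤ B.C * (1 + CD * Dq) + 2 * B.C * (1 + G) + (1 + R) := by
          (clear * - hC hCD hKq hR0; positivity)
        linarith only [this]
      calc _ = 2 * G ^ 2 * (δ * x ^ j) ^ 2 * A j ^ 2 + R' * δ ^ 2 * A j ^ 2 := by ring
        _ ≤ 2 * G ^ 2 * δ ^ 2 * A j ^ 2 + R' * δ ^ 2 * A j ^ 2 := by gcongr
        _ = (2 * G ^ 2 + R') * δ ^ 2 * A j ^ 2 := by ring
        _ ≤ _ := by gcongr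
    change ‖fr (δ * x ^ j)‖ ^ 2 ≤ _
    calc _ ≤ _ := h1
      _ ≤ _ := by
        change B.C * B.NT (δ * x ^ j) + 2 * (B.C * Real.sqrt (B.NT (δ * x ^ j))) * (a j + G * A j) +
          2 * (G * A j) ^ 2 * (δ * x ^ j) ^ 2 + (W + G * A j * (δ * x ^ j) * V) ^ 2 / p ≤ _
        linarith only [t4, t3, t2, t1]
  obtain ⟨r1, r2, r3⟩ := hseq x Kb δ (k + 2) a A n hx0 hx2 hδ hδε ha0 hn0 hgrow hA hgr hen
  have e0 : δ * x ^ 0 = δ := by rw [pow_zero, mul_one]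
  have hGC : 0 ≤ G * C' := by (clear * - hCD hKq hC'; positivity)
  refine ⟨?_, fun u => ?_, fun u => ?_⟩
  · have : n 0 = B.NT δ + 1 := by simp only [hn, e0]
    linarith only [hGC, r3, this]
  · have h1 := hphi δ hδ hδ0 u
    have h2 : a 0 = ‖fr δ‖ := by simp only [ha, e0]
    rw [← h2] at h1
    refine h1.trans ?_
    gcongr
    linarith only [hGC, r1]
  · have h1 := hpl 0 u
    rw [e0] at h1
    refine h1.trans ?_
    have h2 : G * A 0 ≤ C' + G * C' := by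
      have := mul_le_mul_of_nonneg_left r2 hG0
      linarith only [this, hC']
    gcongr

end P204.GX.SmSys
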