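import Vale.Agent.P204.Bdl.B7

/-!
# P204: two-forms on the manifold and in the unitary frame (after helper583's `KC/K13`)
-/

set_option linter.all false

open scoped Manifold ContDiff Topology ENNReal NNReal
open Set MeasureTheory

namespace Vale.Agent.P204.Mfd

open Vale.Agent.P204.T4

variable {X : Type} [TopologicalSpace X] [ChartedSpace E4 X] [IsManifold (𝓡 4) ∞ X]
  {J : EndField X} [CompactSpace X] [T2Space X]

theorem twoForm_ext {a b : TwoForm X} (h : ∀ x u v, omv a x u v = omv b x u v) : a = b := by
  funext x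
  have hE : ∀ {A B : E4 [⋀^Fin 2]→L[ℝ] ℝ}, (∀ v w, A ![v, w] = B ![v, w]) → A = B := by
    intro A B h
    ext m
    have : m = ![m 0, m 1] := by funext i; fin_cases i <;> rfl
    rw [this]; exact h _ _
  exact hE (A := a x) (B := b x) (fun v w => h x v w)

namespace FinAtlas

variable (A : FinAtlas X J) (om : TwoForm X)

/-- the components of a two-form in the unitary frame -/
noncomputable def cmp (et : TwoForm X) (x : X) : L2 :=
  compL ((et x).compContinuousLinearMap (A.FrI om x))

theorem ev_cmp (et : TwoForm X) (x : X) (v w : V4) :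
    ev (A.cmp om et x) v w = omv et x (A.FrI om x v) (A.FrI om x w) := by
  unfold cmp omv
  rw [ev_compL]
  exact comp_apply2 (E := V4) (F := E4) (et x) (A.FrI om x) v w

theorem cmp_add (et et' : TwoForm X) : A.cmp om (et + et') = A.cmp om et + A.cmp om et' := by
  funext x
  apply ext_ev
  intro v w
  rw [Pi.add_apply, ev_add, ev_cmp, ev_cmp, ev_cmp]
  rfl

theorem cmp_smul (c : ℝ) (et : TwoForm X) : A.cmp om (c • et) = c • A.cmp om et := by
  funext x
  apply ext_ev
  intro v w
  rw [Pi.smul_apply, ev_smul, ev_cmp, ev_cmp]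
  rfl

theorem back_add (w w' : X → L2) : A.back om (w + w') = A.back om w + A.back om w' := by
  apply twoForm_ext
  intro x u v
  have e : omv (A.back om w + A.back om w') x u v =
      omv (A.back om w) x u v + omv (A.back om w') x u v := rfl
  rw [e, omv_back, omv_back, omv_back, Pi.add_apply, ev_add]

theorem back_smul (c : ℝ) (w : X → L2) : A.back om (c • w) = c • A.back om w := by
  apply twoForm_ext
  intro x u v
  have e : omv (c • A.back om w) x u v = c * omv (A.back om w) x u v := rfl
  rw [e, omv_back, omv_back, Pi.smul_apply, ev_smul]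

variable (hJ : AlmostComplex J) (hT : Tames om J)

include hJ hT

theorem pull_mc_cmp (et : TwoForm X) (a : Fin A.n) (y : V4) :
    pull (A.mc om a y) (A.cmp om et ((A.P a).psi y)) = compL ((A.P a).form et y) := by
  apply ext_ev
  intro v w
  rw [ev_pull, app_mc, app_mc, ev_cmp, FrI_Fr A om hJ hT, FrI_Fr A om hJ hT, ev_compL,
    Par.form_apply]
  rfl

theorem back_cmp (et : TwoForm X) : A.back om (A.cmp om et) = et := by
  apply twoForm_ext
  intro x u v
  rw [omv_back, ev_cmp, FrI_Fr A om hJ hT, FrI_Fr A om hJ hT]

theorem cmp_back (w : X → L2) : A.cmp om (A.back om w) = w := by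
  funext x
  apply ext_ev
  intro u v
  rw [ev_cmp, omv_back, Fr_FrI A om hJ hT, Fr_FrI A om hJ hT]

variable (hS : SmoothForm om) (hC : ClosedForm om)
include hS hC

theorem cf_cmp (et : TwoForm X) (a : Fin A.n) :
    @GX.CM.cf X A.metric (A.toCM om hJ hS hC hT) a (A.cmp om et) =
      fun y => compL ((A.P a).form et y) := by
  funext y
  exact A.pull_mc_cmp om hJ hT et a y

theorem smooth_iff (et : TwoForm X) : SmoothForm et ↔
    A.cmp om et ∈ @GX.CM.Om X A.metric (A.toCM om hJ hS hC hT) := by
  have key : ∀ a, @GX.CM.cf X A.metric (A.toCM om hJ hS hC hT) a (A.cmp om et) =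
      fun y => cV ((A.P a).form et y) := fun a => A.cf_cmp om hJ hT hS hC et a
  constructor
  · intro h a
    rw [key a]
    exact cV.contDiff.comp ((A.P a).form_smooth h)
  · intro h
    refine smoothForm_of_pars A.P (fun x => by
      obtain ⟨a, y, _, h⟩ := A.cov x
      exact ⟨a, y, h⟩) fun a => ?_
    have h1 := h a
    rw [key a] at h1
    exact (cV.comp_contDiff_iff (f := (A.P a).form et)).1 h1

/-- closedness in the frame -/
theorem closed_iff' {et : TwoForm X} (hs : SmoothForm et) : ClosedForm et ↔
    ∀ a, Closed (@GX.CM.cf X A.metric (A.toCM om hJ hS hC hT) a (A.cmp om et)) := by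
  have hd : ∀ a, Differentiable ℝ ((A.P a).form et) := fun a =>
    ((A.P a).form_smooth hs).differentiable (by simp)
  constructor
  · intro h a
    have e := A.cf_cmp om hJ hT hS hC et a
    exact e ▸ (closed_iff (hd a)).2 ((A.P a).form_closed hs h)
  · intro h
    refine closedForm_of_pars A.P (fun x => by
      obtain ⟨a, y, _, h⟩ := A.cov x
      exact ⟨a, y, h⟩) (fun a => (A.P a).form_smooth hs) fun a => ?_
    have e := A.cf_cmp om hJ hT hS hC et a
    have h1 := h a
    rw [e] at h1
    exact (closed_iff (hd a)).1 h1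

end FinAtlas

end Vale.Agent.P204.Mfd
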