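import Vale.Agent.P204.DC.Stmt

/-!
# P204: Donaldson's question in a given cohomology class when `b₂⁺ = 1`

The two-forms, almost complex structures, symplectic, taming and compatible forms are those of the
statement `Vale.Agent.P204.DC.Donaldson` (file `Vale/Agent/P204/DC/Stmt.lean`).
-/

open scoped Manifold ContDiff Topology
open MeasureTheory

namespace Vale.Agent.P204.SC

open Vale.Agent.P204.DC

section General

variable {E : Type*} [NormedAddCommGroup E] [NormedSpace ℝ E]
variable {X : Type*} [TopologicalSpace X] [ChartedSpace E X]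

variable (E X) in
/-- A (not necessarily smooth) real one-form on `X`: a linear form (an alternating form of
degree one) on every tangent space. -/
abbrev OneForm := ∀ x : X, TangentSpace 𝓘(ℝ, E) x [⋀^Fin 1]→L[ℝ] ℝ

/-- The pullback of the one-form `al` by a map `f : E → X`. For `f = e.symm`, the inverse of a
chart `e`, it is the coordinate expression of `al` in the chart `e`. -/
noncomputable def pullOne (f : E → X) (al : OneForm E X) : E → E [⋀^Fin 1]→L[ℝ] ℝ :=
  fun y => (al (f y)).compContinuousLinearMap (mfderiv 𝓘(ℝ, E) 𝓘(ℝ, E) f y)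

/-- `th` is the exterior derivative of a smooth one-form. -/
def IsExact (th : TwoForm E X) : Prop :=
  ∃ al : OneForm E X, (∀ e ∈ atlas E X, ContDiffOn ℝ ∞ (pullOne e.symm al) e.target) ∧
    ∀ e ∈ atlas E X, ∀ y ∈ e.target, pullForm e.symm th y = extDeriv (pullOne e.symm al) y

end General

section Four

/-- `ℝ⁴` -/
abbrev E4 := EuclideanSpace ℝ (Fin 4)

/-- The vectors of the standard basis of `ℝ⁴`. -/
noncomputable def ei (i : Fin 4) : E4 := EuclideanSpace.single i 1

/-- `(A ∧ B)(e₀, e₁, e₂, e₃)` for alternating bilinear forms `A`, `B` on `ℝ⁴`, with the standard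
basis `eᵢ`. -/
noncomputable def wedge (A B : E4 [⋀^Fin 2]→L[ℝ] ℝ) : ℝ :=
  A ![ei 0, ei 1] * B ![ei 2, ei 3] - A ![ei 0, ei 2] * B ![ei 1, ei 3]
    + A ![ei 0, ei 3] * B ![ei 1, ei 2] + A ![ei 1, ei 2] * B ![ei 0, ei 3]
    - A ![ei 1, ei 3] * B ![ei 0, ei 2] + A ![ei 2, ei 3] * B ![ei 0, ei 1]

open Classical in
/-- The orientation of `ℝ⁴` defined by a complex structure `j`: it is `1` if there are `v`, `w`
for which the basis `v, j v, w, j w` is positively oriented, and `-1` otherwise. -/
noncomputable def orient (j : E4 →L[ℝ] E4) : ℝ :=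
  if ∃ v w : E4, 0 < (Matrix.of ![⇑v, ⇑(j v), ⇑w, ⇑(j w)]).det then 1 else -1

variable {X : Type*} [TopologicalSpace X] [ChartedSpace E4 X]

/-- `I α β` is the integral of `α ∧ β` over `X`, for the orientation defined by `J`: it is additive
in `α`, and if `α` is supported in a compact subset of the domain of a chart `e`, then it is the
integral of the coefficient of `α ∧ β` in the coordinates of `e` (with the sign of the orientation
defined by `J` in these coordinates). -/
structure IsIntegral (J : EndField E4 X) (I : TwoForm E4 X → TwoForm E4 X → ℝ) : Prop where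
  add : ∀ α α' β, SmoothForm α → SmoothForm α' → SmoothForm β → I (α + α') β = I α β + I α' β
  chart : ∀ e ∈ atlas E4 X, ∀ K ⊆ e.source, IsCompact K → ∀ α β, SmoothForm α → SmoothForm β →
    (∀ x ∉ K, α x = 0) →
    I α β = ∫ y in e.target, orient (endRep e J y) * wedge (pullForm e.symm α y) (pullForm e.symm β y)

/-- `b₂⁺(X) ≤ 1`: there is no plane of closed two-forms on which `α ↦ ∫ α ∧ α` is positive
definite. -/
def BPlusLeOne (I : TwoForm E4 X → TwoForm E4 X → ℝ) : Prop :=
  ∀ α β : TwoForm E4 X, SmoothForm α → ClosedForm α → SmoothForm β → ClosedForm β →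
    ¬ ∀ s t : ℝ, (s, t) ≠ (0, 0) → 0 < I (s • α + t • β) (s • α + t • β)

end Four

/-- Let `om` be a symplectic form on a closed connected four-manifold `X` which tames the almost
complex structure `J`. The integral of the products `α ∧ β` of two-forms exists, and if
`b₂⁺(X) ≤ 1`, then there is a symplectic form which is compatible with `J` and which differs from
`om` by the exterior derivative of a one-form. -/
def SameClass.{u} : Prop :=
  ∀ (X : Type u) [TopologicalSpace X] [ChartedSpace E4 X]
    [IsManifold (𝓡 4) ∞ X] [CompactSpace X] [T2Space X] [ConnectedSpace X]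
    (J : EndField E4 X), AlmostComplex J →
    ∀ om : TwoForm E4 X, Symplectic om → Tames om J →
    (∃ I, IsIntegral J I) ∧
    ∀ I, IsIntegral J I → BPlusLeOne I →
      ∃ om' : TwoForm E4 X, Symplectic om' ∧ Compatible om' J ∧ IsExact (om' - om)

end Vale.Agent.P204.SC
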