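import Vale.Agent.P204.Bdl.B3
import Vale.Agent.P204.CV.HCmp
import Vale.Agent.P204.CV.Stmt

/-!
# P204: the integral of `α ∧ β` over the manifold satisfies the chart formula in every chart
-/

set_option linter.all false

open scoped Manifold ContDiff Topology ENNReal NNReal
open Set MeasureTheory

namespace Vale.Agent.P204.Mfd

open Vale.Agent.P204.T4

namespace H1

theorem mp_toE : MeasurePreserving (fun z : V4 => (toE z : E4)) volume volume :=
  PiLp.volume_preserving_toLp (Fin 4)

theorem emb_toE : MeasurableEmbedding (fun z : V4 => (toE z : E4)) :=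
  toE.toHomeomorph.measurableEmbedding

/-! ### linear algebra -/

theorem det_eq (L : V4 →L[ℝ] V4) : L.det = det4 (matL L) := by
  rw [GX.det4_eq_det]
  have h : (L : V4 →ₗ[ℝ] V4) = Matrix.toLin' (Matrix.of (matL L)) := by
    apply LinearMap.ext; intro v
    rw [Matrix.toLin'_apply]
    have h1 := app_matL L v
    funext i
    have h2 := congrFun h1 i
    simp only [app] at h2
    simp only [Matrix.mulVec, dotProduct, Matrix.of_apply]
    exact h2.symm
  rw [ContinuousLinearMap.det, h, LinearMap.det_toLin']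

theorem det_rows (N : M4) (a : Fin 4 → V4) :
    (Matrix.of fun i => app N (a i)).det = det4 N * (Matrix.of a).det := by
  have h : (Matrix.of fun i => app N (a i)) = Matrix.of a * (Matrix.of N).transpose := by
    ext i j
    simp only [Matrix.of_apply, app, Matrix.mul_apply, Matrix.transpose_apply]
    exact Finset.sum_congr rfl fun k _ => mul_comm _ _
  rw [h, Matrix.det_mul, Matrix.det_transpose, GX.det4_eq_det, mul_comm]

theorem det_J0 (x u : V4) : 0 ≤ (Matrix.of ![x, app J0 x, u, app J0 u]).det := by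
  have h : (Matrix.of ![x, app J0 x, u, app J0 u]).det = det4 ![x, app J0 x, u, app J0 u] := by
    rw [GX.det4_eq_det]
  have h2 : det4 ![x, app J0 x, u, app J0 u] =
      (x 0 * u 2 - x 1 * u 3 - x 2 * u 0 + x 3 * u 1) ^ 2 +
        (x 0 * u 3 + x 1 * u 2 - x 2 * u 1 - x 3 * u 0) ^ 2 := by
    rw [app_J0, app_J0]
    simp only [det4, mn, Matrix.cons_val, Matrix.cons_val_zero, Matrix.cons_val_one]
    ring
  rw [h, h2]
  positivity

theorem det_J0_one : (Matrix.of ![eb 0, app J0 (eb 0), eb 2, app J0 (eb 2)]).det = 1 := by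
  have h : (Matrix.of ![eb 0, app J0 (eb 0), eb 2, app J0 (eb 2)]).det =
      det4 ![eb 0, app J0 (eb 0), eb 2, app J0 (eb 2)] := by
    rw [GX.det4_eq_det]
  rw [h, app_J0, app_J0]
  simp [det4, mn, eb]

/-- the coefficient of the wedge product -/
theorem wedge_eq (A B : E4 [⋀^Fin 2]→L[ℝ] ℝ) : SC.wedge A B = Q (cE A) (cE B) := by
  have h : ∀ (A : E4 [⋀^Fin 2]→L[ℝ] ℝ) (i j : Fin 4),
      A ![SC.ei i, SC.ei j] = ev (cE A) (eb i) (eb j) := by
    intro A i j
    have e : ∀ i : Fin 4, (toE (eb i) : E4) = SC.ei i := by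
      intro i
      ext j
      simp [toE, eb, EuclideanSpace.equiv, SC.ei]
    rw [cE_apply, ev_compL, comp_apply2]
    simp only [ContinuousLinearEquiv.coe_coe, e]
  have h2 : ∀ C : L2, ev C (eb 0) (eb 1) = C 0 ∧ ev C (eb 0) (eb 2) = C 1 ∧
      ev C (eb 0) (eb 3) = C 2 ∧ ev C (eb 1) (eb 2) = C 3 ∧ ev C (eb 1) (eb 3) = C 4 ∧
      ev C (eb 2) (eb 3) = C 5 := by
    intro C
    refine ⟨?_, ?_, ?_, ?_, ?_, ?_⟩ <;> (rw [ev_eq]; simp [eb])
  obtain ⟨a0, a1, a2, a3, a4, a5⟩ := h2 (cE A)
  obtain ⟨b0, b1, b2, b3, b4, b5⟩ := h2 (cE B)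
  unfold SC.wedge Q
  simp only [h, a0, a1, a2, a3, a4, a5, b0, b1, b2, b3, b4, b5]

/-- the orientation sign from a complex linear coframe -/
theorem orient_eq {j : E4 →L[ℝ] E4} {N : M4}
    (hN : ∀ v : E4, app N (toE.symm (j v)) = app J0 (app N (toE.symm v))) :
    (0 < det4 N → SC.orient j = 1) ∧ (det4 N < 0 → SC.orient j = -1) := by
  have key : ∀ v w : E4, det4 N * (Matrix.of ![⇑v, ⇑(j v), ⇑w, ⇑(j w)]).det =
      (Matrix.of ![app N (toE.symm v), app J0 (app N (toE.symm v)), app N (toE.symm w),
        app J0 (app N (toE.symm w))]).det := by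
    intro v w
    rw [← hN, ← hN]
    have h1 : ![app N (toE.symm v), app N (toE.symm (j v)), app N (toE.symm w),
        app N (toE.symm (j w))] = fun i => app N ((![⇑v, ⇑(j v), ⇑w, ⇑(j w)] : Fin 4 → V4) i) := by
      funext i
      fin_cases i <;> rfl
    rw [h1, det_rows]
  constructor
  · intro hd
    unfold SC.orient
    have hs : Function.Surjective (app N) := by
      have hu : IsUnit (Matrix.of N : Matrix (Fin 4) (Fin 4) ℝ) := by
        rw [Matrix.isUnit_iff_isUnit_det, ← GX.det4_eq_det]
        exact isUnit_iff_ne_zero.2 hd.ne'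
      have := Matrix.mulVec_surjective_iff_isUnit.2 hu
      exact this
    obtain ⟨v, hv⟩ := hs (eb 0)
    obtain ⟨w, hw⟩ := hs (eb 2)
    have h1 := key (toE v) (toE w)
    simp only [ContinuousLinearEquiv.symm_apply_apply, hv, hw] at h1
    rw [det_J0_one] at h1
    rw [if_pos]
    refine ⟨toE v, toE w, ?_⟩
    by_contra hneg
    have := mul_nonpos_of_nonneg_of_nonpos hd.le (not_lt.1 hneg)
    linarith
  · intro hd
    unfold SC.orient
    rw [if_neg]
    rintro ⟨v, w, hvw⟩
    have h1 := key v w
    have h2 := det_J0 (app N (toE.symm v)) (app N (toE.symm w))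
    have := mul_neg_of_neg_of_pos hd hvw
    linarith

section

variable {X : Type} [TopologicalSpace X] [ChartedSpace E4 X] [IsManifold (𝓡 4) ∞ X]

theorem dsym_dch {e : OpenPartialHomeomorph X E4} (he : e ∈ atlas E4 X) {y : E4}
    (hy : y ∈ e.target) (v : E4) : dsym e y (dch e (e.symm y) v) = v := by
  have h1 := mfderiv_comp_of_eq (I := 𝓡 4) (I' := 𝓡 4) (I'' := 𝓡 4) (x := e.symm y) (y := y)
    (g := e.symm) (f := e) (mdiff_symm he hy) (mdiff_chart he (e.map_target hy)) (e.right_inv hy)
  have h2 : e.symm ∘ e =ᶠ[𝓝 (e.symm y)] id := by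
    filter_upwards [e.open_source.mem_nhds (e.map_target hy)] with z hz
    exact e.left_inv hz
  rw [h2.mfderiv_eq, mfderiv_id] at h1
  have h3 : dsym e (e (e.symm y)) = dsym e y := by rw [e.right_inv hy]
  have h4 : (dsym e (e (e.symm y))).comp (dch e (e.symm y)) =
    ContinuousLinearMap.id ℝ E4 := h1.symm
  rw [← h3]
  exact DFunLike.congr_fun h4 v

theorem dsym_endRep {e : OpenPartialHomeomorph X E4} (he : e ∈ atlas E4 X) {y : E4}
    (hy : y ∈ e.target) (J : EndField X) (v : E4) :
    dsym e y (endRep e J y v) = Jat J (e.symm y) (dsym e y v) :=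
  dsym_dch he hy _

/-- the change of coordinates in coordinate space -/
noncomputable def TT (p : Par X) (e : OpenPartialHomeomorph X E4) (w : V4) : V4 := p.cc e (toE w)

/-- its derivative -/
noncomputable def TT' (p : Par X) (e : OpenPartialHomeomorph X E4) (w : V4) : V4 →L[ℝ] V4 :=
  (fderiv ℝ (p.cc e) (toE w)).comp (toE : V4 →L[ℝ] E4)

/-- its domain -/
def DD (p : Par X) (e : OpenPartialHomeomorph X E4) : Set V4 :=
  (fun w : V4 => (toE w : E4)) ⁻¹' p.cdom e

theorem measurableSet_DD (p : Par X) (e : OpenPartialHomeomorph X E4) : MeasurableSet (DD p e) :=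
  ((p.isOpen_cdom e).preimage toE.continuous).measurableSet

theorem hasFDerivAt_TT (p : Par X) {e : OpenPartialHomeomorph X E4} (he : e ∈ atlas E4 X)
    {w : V4} (hw : w ∈ DD p e) : HasFDerivAt (TT p e) (TT' p e w) w := by
  have h1 : HasFDerivAt (p.cc e) (fderiv ℝ (p.cc e) (toE w)) (toE w) :=
    ((p.cc_smoothAt he hw).differentiableAt (by simp)).hasFDerivAt
  exact h1.comp w (toE : V4 →L[ℝ] E4).hasFDerivAt

theorem psi_TT (p : Par X) (e : OpenPartialHomeomorph X E4) {w : V4} (hw : w ∈ DD p e) :
    p.psi (TT p e w) = e.symm (toE w) := p.psi_cc e hw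

theorem injOn_TT (p : Par X) (e : OpenPartialHomeomorph X E4) : InjOn (TT p e) (DD p e) := by
  intro w hw w' hw' h
  have h1 : e.symm (toE w) = e.symm (toE w') := by
    rw [← psi_TT p e hw, ← psi_TT p e hw', h]
  have h2 : (toE w : E4) = toE w' := e.symm.injOn hw.1 hw'.1 h1
  exact toE.injective h2

theorem image_TT (p : Par X) (e : OpenPartialHomeomorph X E4) :
    TT p e '' DD p e = p.psi ⁻¹' e.source := by
  ext y
  constructor
  · rintro ⟨w, hw, rfl⟩
    show p.psi (TT p e w) ∈ e.source
    rw [psi_TT p e hw]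
    exact e.map_target hw.1
  · intro hy
    have hy' : p.psi y ∈ e.source := hy
    refine ⟨toE.symm (e (p.psi y)), ⟨?_, ?_⟩, ?_⟩
    · simpa using e.map_source hy'
    · simp only [mem_preimage, ContinuousLinearEquiv.apply_symm_apply, e.left_inv hy']
      exact mem_range_self y
    · unfold TT Par.cc
      simp only [ContinuousLinearEquiv.apply_symm_apply, e.left_inv hy', p.inv_psi]

/-- change of variables -/
theorem integral_TT (p : Par X) {e : OpenPartialHomeomorph X E4} (he : e ∈ atlas E4 X)
    {g : V4 → ℝ} (hg : Integrable g) (hg0 : ∀ y, p.psi y ∉ e.source → g y = 0)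
    {G : E4 → ℝ} (hG0 : ∀ z ∈ e.target, z ∉ p.cdom e → G z = 0)
    (hG : ∀ w ∈ DD p e, |(TT' p e w).det| * g (TT p e w) = G (toE w)) :
    IntegrableOn G e.target ∧ ∫ y, g y = ∫ z in e.target, G z := by
  have hD := measurableSet_DD p e
  have hcd : MeasurableSet (p.cdom e) := (p.isOpen_cdom e).measurableSet
  have hsub : p.cdom e ⊆ e.target := inter_subset_left
  have hder : ∀ w ∈ DD p e, HasFDerivWithinAt (TT p e) (TT' p e w) (DD p e) w := fun w hw =>
    (hasFDerivAt_TT p he hw).hasFDerivWithinAt
  have i1 : IntegrableOn (fun w => |(TT' p e w).det| • g (TT p e w)) (DD p e) :=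
    (integrableOn_image_iff_integrableOn_abs_det_fderiv_smul volume hD hder (injOn_TT p e) g).1
      hg.integrableOn
  have i2 : IntegrableOn (fun w : V4 => G (toE w)) (DD p e) := by
    refine i1.congr_fun (fun w hw => ?_) hD
    exact hG w hw
  have i3 : IntegrableOn G (p.cdom e) :=
    (mp_toE.integrableOn_comp_preimage emb_toE).1 i2
  have i4 : IntegrableOn G e.target := by
    have : IntegrableOn G (e.target \ p.cdom e) := by
      refine (integrableOn_zero).congr_fun (fun z hz => ?_)
        (e.open_target.measurableSet.diff hcd)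
      exact (hG0 z hz.1 hz.2).symm
    have h2 := i3.union this
    rwa [union_diff_cancel hsub] at h2
  refine ⟨i4, ?_⟩
  have e1 : ∫ y, g y = ∫ y in TT p e '' DD p e, g y := by
    rw [setIntegral_eq_integral_of_forall_compl_eq_zero]
    intro y hy
    rw [image_TT] at hy
    exact hg0 y hy
  rw [e1, integral_image_eq_integral_abs_det_fderiv_smul volume hD hder (injOn_TT p e) g]
  have e2 : ∫ w in DD p e, |(TT' p e w).det| • g (TT p e w) =
      ∫ w in DD p e, G (toE w) :=
    setIntegral_congr_fun hD fun w hw => by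
      show |(TT' p e w).det| • g (TT p e w) = G (toE w)
      rw [← hG w hw, smul_eq_mul]
  have e3 : ∫ w in DD p e, G (toE w) = ∫ z in p.cdom e, G z :=
    mp_toE.setIntegral_preimage_emb emb_toE G (p.cdom e)
  rw [e2, e3]
  exact (setIntegral_eq_of_subset_of_forall_diff_eq_zero e.open_target.measurableSet hsub
    fun z hz => hG0 z hz.1 hz.2).symm

end

end H1

variable {X : Type} [TopologicalSpace X] [ChartedSpace E4 X] [IsManifold (𝓡 4) ∞ X]
  {J : EndField X} [CompactSpace X] [T2Space X]

namespace FinAtlas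

open H1

variable (A : FinAtlas X J) (om : TwoForm X)
variable (hJ : AlmostComplex J) (hT : Tames om J)

include hJ hT

/-- the coefficient of the wedge product in an atlas chart -/
theorem wedge_chart (a : Fin A.n) {e : OpenPartialHomeomorph X E4} (he : e ∈ atlas E4 X)
    {w : V4} (hw : w ∈ DD (A.P a) e) (α β : TwoForm X) :
    SC.wedge (pullForm e.symm α (toE w)) (pullForm e.symm β (toE w)) =
      det4 (matL (TT' (A.P a) e w)) *
        Q (pull (A.mc om a (TT (A.P a) e w)) (A.cmp om α (e.symm (toE w))))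
          (pull (A.mc om a (TT (A.P a) e w)) (A.cmp om β (e.symm (toE w)))) := by
  have h : ∀ et : TwoForm X, cE (pullForm e.symm et (toE w)) =
      pull (matL (TT' (A.P a) e w))
        (pull (A.mc om a (TT (A.P a) e w)) (A.cmp om et (e.symm (toE w)))) := by
    intro et
    rw [(A.P a).pullForm_eq et he hw, cE_comp_V, cV_apply, ← psi_TT (A.P a) e hw,
      A.pull_mc_cmp om hJ hT]
    rfl
  rw [wedge_eq, h, h, Q_pull]

/-- the orientation sign in an atlas chart -/
theorem orient_chart (a : Fin A.n) {e : OpenPartialHomeomorph X E4} (he : e ∈ atlas E4 X)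
    {w : V4} (hw : w ∈ DD (A.P a) e) :
    (0 < det4 (matL (TT' (A.P a) e w)) → SC.orient (endRep e J (toE w)) = 1) ∧
    (det4 (matL (TT' (A.P a) e w)) < 0 → SC.orient (endRep e J (toE w)) = -1) := by
  set N : M4 := GX.mm (A.mc om a (TT (A.P a) e w)) (matL (TT' (A.P a) e w)) with hN
  have happ : ∀ v : E4, app N (toE.symm v) = A.Fr om (e.symm (toE w)) (dsym e (toE w) v) := by
    intro v
    rw [hN, app_mm, app_matL, app_mc, psi_TT (A.P a) e hw, (A.P a).dsym_eq he hw]
    simp [TT', TT]
  have hNJ : ∀ v : E4, app N (toE.symm (endRep e J (toE w) v)) =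
      app J0 (app N (toE.symm v)) := by
    intro v
    rw [happ, happ, dsym_endRep he hw.1, A.Fr_J om hJ hT]
  have hdet : det4 N = det4 (A.mc om a (TT (A.P a) e w)) * det4 (matL (TT' (A.P a) e w)) :=
    GX.det4_mm _ _
  have hm := A.mc_det om hJ hT a (TT (A.P a) e w)
  obtain ⟨h1, h2⟩ := orient_eq hNJ
  constructor
  · intro h
    exact h1 (by rw [hdet]; exact mul_pos hm h)
  · intro h
    exact h2 (by rw [hdet]; exact mul_neg_of_pos_of_neg hm h)

omit hJ hT

theorem cmp_eq_zero {et : TwoForm X} {x : X} (h : et x = 0) : A.cmp om et x = 0 := by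
  apply ext_ev
  intro v w
  rw [ev_cmp, omv, h, ev_eq]
  simp

end FinAtlas

namespace FinAtlas

open H1

variable [MeasurableSpace X] [BorelSpace X] (A : FinAtlas X J) (om : TwoForm X)
  (hJ : AlmostComplex J) (hS : SmoothForm om) (hC : ClosedForm om) (hT : Tames om J)

/-- the integral of the wedge product -/
noncomputable def II (α β : TwoForm X) : ℝ :=
  letI := A.metric
  ∫ x, Q (A.cmp om α x) (A.cmp om β x) ∂(A.toCM om hJ hS hC hT).mu

/-- the integral of the wedge product satisfies the chart formula in every chart -/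
theorem isIntegral_II : SC.IsIntegral J (A.II om hJ hS hC hT) := by
  letI := A.metric
  obtain ⟨M, hM⟩ : ∃ M, M = A.toCM om hJ hS hC hT := ⟨_, rfl⟩
  have hO : ∀ {et : TwoForm X}, SmoothForm et → ∀ a, ContDiff ℝ ∞ (M.cf a (A.cmp om et)) := by
    intro et h
    rw [hM]
    exact (A.smooth_iff om hJ hT hS hC et).1 h
  have hc : ∀ {et : TwoForm X}, SmoothForm et → ∀ a, Continuous (M.cf a (A.cmp om et)) :=
    fun h a => (hO h a).continuous
  constructor
  · intro α α' β hα hα' hβ
    unfold II
    rw [← hM, A.cmp_add, ← integral_add (M.integrable_Q (hc hα) (hc hβ))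
      (M.integrable_Q (hc hα') (hc hβ))]
    refine integral_congr_ae (Filter.Eventually.of_forall fun x => ?_)
    exact Q_add_left _ _ _
  · intro e he K hK hKc α β hα hβ h0
    have hI : A.II om hJ hS hC hT α β = M.pr (A.cmp om α) (A.cmp om β) := by
      unfold II
      rw [← hM]; rfl
    rw [hI, M.pr_eq_sum (hc hα) (hc hβ)]
    have key : ∀ a : M.A,
        IntegrableOn (fun z => SC.orient (endRep e J z) * (M.zeta a (e.symm z) *
          SC.wedge (pullForm e.symm α z) (pullForm e.symm β z))) e.target ∧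
        ∫ y, Q (M.cut (A.cmp om α) a y) (M.cf a (A.cmp om β) y) =
          ∫ z in e.target, SC.orient (endRep e J z) * (M.zeta a (e.symm z) *
          SC.wedge (pullForm e.symm α z) (pullForm e.symm β z)) := by
      subst hM
      intro (a : Fin A.n)
      refine integral_TT (A.P a) he ?_ ?_ ?_ ?_
      · have h1 : Continuous fun y =>
            Q ((A.toCM om hJ hS hC hT).cut (A.cmp om α) a y)
              ((A.toCM om hJ hS hC hT).cf a (A.cmp om β) y) :=
          continuous_Q.comp (((A.toCM om hJ hS hC hT).contDiff_cut (hO hα) a).continuous.prodMk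
            (hc hβ a))
        refine h1.integrable_of_hasCompactSupport ?_
        refine ((A.toCM om hJ hS hC hT).hasCompactSupport_cut (A.cmp om α) a).mono ?_
        intro y hy hy'
        apply hy
        show Q ((A.toCM om hJ hS hC hT).cut (A.cmp om α) a y)
              ((A.toCM om hJ hS hC hT).cf a (A.cmp om β) y) = 0
        rw [hy']
        simp [Q]
      · intro y hy
        have h1 : A.cmp om α ((A.P a).psi y) = 0 :=
          A.cmp_eq_zero om (h0 _ fun h => hy (hK h))
        have h2 : (A.toCM om hJ hS hC hT).cut (A.cmp om α) a y = 0 := by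
          show (A.toCM om hJ hS hC hT).zl a y • pull (A.mc om a y)
            (A.cmp om α ((A.P a).psi y)) = 0
          rw [h1, GX.pull_zero, smul_zero]
        rw [h2]
        simp [Q]
      · intro z hz hz'
        have h1 : (A.toCM om hJ hS hC hT).zeta a (e.symm z) = 0 := by
          apply GX.CM.zeta_eq_zero
          rintro ⟨y, -, hy⟩
          exact hz' ⟨hz, ⟨y, hy⟩⟩
        rw [h1]
        ring
      · intro w hw
        have e1 : (A.toCM om hJ hS hC hT).cut (A.cmp om α) a (TT (A.P a) e w) =
            (A.toCM om hJ hS hC hT).zeta a (e.symm (toE w)) •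
              pull (A.mc om a (TT (A.P a) e w)) (A.cmp om α (e.symm (toE w))) := by
          show (A.toCM om hJ hS hC hT).zeta a ((A.P a).psi (TT (A.P a) e w)) •
            pull (A.mc om a (TT (A.P a) e w)) (A.cmp om α ((A.P a).psi (TT (A.P a) e w))) = _
          rw [psi_TT (A.P a) e hw]
        have e2 : (A.toCM om hJ hS hC hT).cf a (A.cmp om β) (TT (A.P a) e w) =
            pull (A.mc om a (TT (A.P a) e w)) (A.cmp om β (e.symm (toE w))) := by
          show pull (A.mc om a (TT (A.P a) e w))
            (A.cmp om β ((A.P a).psi (TT (A.P a) e w))) = _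
          rw [psi_TT (A.P a) e hw]
        rw [e1, e2, Q_smul_left, A.wedge_chart om hJ hT a he hw, det_eq]
        obtain ⟨o1, o2⟩ := A.orient_chart om hJ hT a he hw
        rcases lt_trichotomy (det4 (matL (TT' (A.P a) e w))) 0 with h | h | h
        · rw [o2 h, abs_of_neg h]
          ring
        · rw [h]
          simp
        · rw [o1 h, abs_of_pos h]
          ring
    rw [Finset.sum_congr rfl fun a _ => (key a).2, ← integral_finset_sum _ fun a _ => (key a).1]
    refine integral_congr_ae (Filter.Eventually.of_forall fun z => ?_)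
    show ∑ a, SC.orient (endRep e J z) * (M.zeta a (e.symm z) *
          SC.wedge (pullForm e.symm α z) (pullForm e.symm β z)) = _
    rw [← Finset.mul_sum, ← Finset.sum_mul, M.sum_zeta, one_mul]
    rfl

end FinAtlas

end Vale.Agent.P204.Mfd
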