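import Vale.Agent.P204.CV.Stmt
import Mathlib.Geometry.Manifold.PartitionOfUnity

/-!
# P204 class version, package H2 (first part): the integral `I α β` of `α ∧ β` is unique
-/

set_option linter.all false

open scoped Manifold ContDiff Topology
open MeasureTheory Set

namespace Vale.Agent.P204.SC

open Vale.Agent.P204.DC

universe u

variable {X : Type u} [TopologicalSpace X] [ChartedSpace E4 X]

/-- the product of a function and a two-form -/
noncomputable def mulForm (ζ : X → ℝ) (α : TwoForm E4 X) : TwoForm E4 X := fun x => ζ x • α x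

theorem pullForm_mul (ζ : X → ℝ) (α : TwoForm E4 X) (f : E4 → X) (y : E4) :
    pullForm f (mulForm ζ α) y = ζ (f y) • pullForm f α y := by
  unfold pullForm mulForm
  ext v
  rfl

theorem pullForm_add (α β : TwoForm E4 X) (f : E4 → X) (y : E4) :
    pullForm f (α + β) y = pullForm f α y + pullForm f β y := by
  unfold pullForm
  ext v
  rfl

theorem pullForm_zero (f : E4 → X) (y : E4) :
    pullForm f (0 : TwoForm E4 X) y = 0 := by
  unfold pullForm
  ext v
  rfl

theorem smooth_zero : SmoothForm (0 : TwoForm E4 X) := by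
  intro e he
  have : pullForm e.symm (0 : TwoForm E4 X) = fun _ => 0 := by
    funext y; exact pullForm_zero _ y
  rw [this]
  exact contDiffOn_const

theorem smooth_add {α β : TwoForm E4 X} (hα : SmoothForm α) (hβ : SmoothForm β) :
    SmoothForm (α + β) := by
  intro e he
  have : pullForm e.symm (α + β) = fun y => pullForm e.symm α y + pullForm e.symm β y := by
    funext y; exact pullForm_add α β _ y
  rw [this]
  exact (hα e he).add (hβ e he)

theorem smooth_sum {ι : Type*} (s : Finset ι) {α : ι → TwoForm E4 X}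
    (h : ∀ i, SmoothForm (α i)) : SmoothForm (∑ i ∈ s, α i) := by
  classical
  induction s using Finset.induction_on with
  | empty => rw [Finset.sum_empty]; exact smooth_zero
  | insert i s hi ih => rw [Finset.sum_insert hi]; exact smooth_add (h i) ih

theorem smooth_mul [IsManifold (𝓡 4) ∞ X] {α : TwoForm E4 X} (hα : SmoothForm α)
    {ζ : X → ℝ} (hζ : ContMDiff (𝓡 4) 𝓘(ℝ, ℝ) ∞ ζ) : SmoothForm (mulForm ζ α) := by
  intro e he
  have h1 : pullForm e.symm (mulForm ζ α) = fun y => ζ (e.symm y) • pullForm e.symm α y := by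
    funext y; exact pullForm_mul ζ α _ y
  rw [h1]
  have h2 : ContDiffOn ℝ ∞ (fun y => ζ (e.symm y)) e.target := by
    rw [← contMDiffOn_iff_contDiffOn]
    exact hζ.comp_contMDiffOn
      (contMDiffOn_symm_of_mem_maximalAtlas (IsManifold.subset_maximalAtlas he))
  exact h2.smul (hα e he)

variable {J : EndField E4 X} {I I' : TwoForm E4 X → TwoForm E4 X → ℝ}

theorem IsIntegral.zero_left (h : IsIntegral J I) {β : TwoForm E4 X} (hβ : SmoothForm β) :
    I 0 β = 0 := by
  have h1 := h.add 0 0 β smooth_zero smooth_zero hβ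
  rw [add_zero] at h1
  linarith

theorem IsIntegral.sum (h : IsIntegral J I) {ι : Type*} (s : Finset ι) {α : ι → TwoForm E4 X}
    (hα : ∀ i, SmoothForm (α i)) {β : TwoForm E4 X} (hβ : SmoothForm β) :
    I (∑ i ∈ s, α i) β = ∑ i ∈ s, I (α i) β := by
  classical
  induction s using Finset.induction_on with
  | empty => rw [Finset.sum_empty, Finset.sum_empty]; exact h.zero_left hβ
  | insert i s hi ih =>
    rw [Finset.sum_insert hi, Finset.sum_insert hi, ← ih]
    exact h.add _ _ _ (hα i) (smooth_sum s hα) hβ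

/-- A finite smooth partition of unity subordinate to charts. -/
theorem exists_partition [IsManifold (𝓡 4) ∞ X] [CompactSpace X] [T2Space X] :
    ∃ (t : Finset X) (ζ : t → X → ℝ), (∀ i, ContMDiff (𝓡 4) 𝓘(ℝ, ℝ) ∞ (ζ i)) ∧
      (∀ i, IsCompact (tsupport (ζ i))) ∧ (∀ i, tsupport (ζ i) ⊆ (chartAt E4 (i : X)).source) ∧
      ∀ x, ∑ i, ζ i x = 1 := by
  obtain ⟨t, ht⟩ := (isCompact_univ (X := X)).elim_nhds_subcover
    (fun x => (chartAt E4 x).source) (fun x _ => chart_source_mem_nhds E4 x)
  obtain ⟨f, hf⟩ := SmoothPartitionOfUnity.exists_isSubordinate (𝓡 4) (isClosed_univ (X := X))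
    (fun i : t => (chartAt E4 (i : X)).source) (fun i => (chartAt E4 (i : X)).open_source) (by
      intro x hx
      obtain ⟨z, hz, hxz⟩ := mem_iUnion₂.1 (ht.2 hx)
      exact mem_iUnion.2 ⟨⟨z, hz⟩, hxz⟩)
  refine ⟨t, fun i => f i, fun i => (f i).contMDiff, fun i => (isClosed_tsupport _).isCompact,
    fun i => hf i, fun x => ?_⟩
  have h1 := f.sum_eq_one (mem_univ x)
  rw [finsum_eq_sum_of_fintype] at h1
  exact h1

/-- The integral of `α ∧ β` is unique. -/
theorem IsIntegral.unique [IsManifold (𝓡 4) ∞ X] [CompactSpace X] [T2Space X]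
    (h : IsIntegral J I) (h' : IsIntegral J I') {α β : TwoForm E4 X} (hα : SmoothForm α)
    (hβ : SmoothForm β) : I α β = I' α β := by
  obtain ⟨t, ζ, h1, h2, h3, h4⟩ := exists_partition (X := X)
  have h5 : α = ∑ i, mulForm (ζ i) α := by
    funext x
    rw [Finset.sum_apply]
    show α x = ∑ i, ζ i x • α x
    rw [← Finset.sum_smul, h4, one_smul]
  have h6 : ∀ i, SmoothForm (mulForm (ζ i) α) := fun i => smooth_mul hα (h1 i)
  rw [h5, h.sum _ h6 hβ, h'.sum _ h6 hβ]
  refine Finset.sum_congr rfl fun i _ => ?_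
  have h7 : ∀ x ∉ tsupport (ζ i), mulForm (ζ i) α x = 0 := by
    intro x hx
    have : ζ i x = 0 := image_eq_zero_of_notMem_tsupport hx
    show ζ i x • α x = 0
    rw [this, zero_smul]
  rw [h.chart _ (chart_mem_atlas E4 (i : X)) _ (h3 i) (h2 i) _ _ (h6 i) hβ h7,
    h'.chart _ (chart_mem_atlas E4 (i : X)) _ (h3 i) (h2 i) _ _ (h6 i) hβ h7]

end Vale.Agent.P204.SC
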