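import Vale.Agent.P204.CV.HMain
import Vale.Agent.P204.CV.H1
import Vale.Agent.P204.CV.H2a

set_option linter.all false

/-! P204 class version: existence and uniqueness of the integral, `BPlusLeOne → BOne`. -/

open scoped Manifold ContDiff Topology
open Set MeasureTheory

namespace Vale.Agent.P204.Mfd

open Vale.Agent.P204.T4

theorem hasIntegral : HasIntegral := by
  intro X _ _ _ _ _ _ J hJ om hT hS hC A _ _
  have hII := A.isIntegral_II om hJ hS hC hT
  refine ⟨⟨A.II om hJ hS hC hT, hII⟩, fun I hI hb => ?_⟩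
  letI := A.metric
  intro a b ha hb' hpos
  have hs : ∀ {u : X → L2}, (A.toCM om hJ hS hC hT).IsCl u → SmoothForm (A.back om u) ∧
      ClosedForm (A.back om u) := by
    intro u hu
    have h1 : SmoothForm (A.back om u) := by
      rw [A.smooth_iff om hJ hT hS hC, A.cmp_back om hJ hT]
      exact hu.1
    refine ⟨h1, ?_⟩
    rw [A.closed_iff' om hJ hT hS hC h1, A.cmp_back om hJ hT]
    exact hu.2
  obtain ⟨a1, a2⟩ := hs ha
  obtain ⟨b1, b2⟩ := hs hb'
  have hsm : ∀ (c : ℝ) {th : TwoForm X}, SmoothForm th → SmoothForm (c • th) := by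
    intro c th h
    rw [A.smooth_iff om hJ hT hS hC, A.cmp_smul]
    exact Submodule.smul_mem _ _ ((A.smooth_iff om hJ hT hS hC th).1 h)
  refine hb (A.back om a) (A.back om b) a1 a2 b1 b2 fun s t hst => ?_
  have h3 : SmoothForm (s • A.back om a + t • A.back om b) :=
    SC.smooth_add (hsm s a1) (hsm t b1)
  have h4 := hpos s t hst
  have h5 : I (s • A.back om a + t • A.back om b) (s • A.back om a + t • A.back om b) =
      A.II om hJ hS hC hT (s • A.back om a + t • A.back om b)
        (s • A.back om a + t • A.back om b) := hI.unique hII h3 h3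
  rw [h5]
  unfold FinAtlas.II
  rw [A.cmp_add, A.cmp_smul, A.cmp_smul, A.cmp_back om hJ hT, A.cmp_back om hJ hT]
  exact h4

end Vale.Agent.P204.Mfd
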