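import Vale.Agent.P204.Bdl.B8

set_option linter.all false

/-! P204 class version, package X2: sets of smooth forms bounded in `C¹` are totally bounded in
`L²`. -/

open MeasureTheory Set Filter Topology Metric
open scoped ContDiff InnerProductSpace

namespace Vale.Agent.P204.GX
open Vale.Agent.P204.T4 _root_.P204.GX

namespace CM
variable {X : Type} [MetricSpace X] [CompactSpace X] [MeasurableSpace X] [BorelSpace X]

/-- a form bounded by `C` in `C¹` is `C`-Lipschitz in the charts -/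
theorem lip_of_MM (M : CM X) {C : ℝ} {b : M.Om} (hb : M.MM 1 (b : X → L2) ≤ C) (a : M.A)
    {y z : V4} (hy : y ∈ ball (0 : V4) 1) (hz : z ∈ ball (0 : V4) 1) :
    ‖M.cf a (b : X → L2) y - M.cf a (b : X → L2) z‖ ≤ C * ‖y - z‖ := by
  have hsm : ContDiff ℝ ∞ (M.cf a (b : X → L2)) := b.2 a
  have h1 : ∀ w ∈ ball (0 : V4) 1, ‖fderiv ℝ (M.cf a (b : X → L2)) w‖ ≤ C := fun w hw =>
    ((norm_fderiv_le_rsupn (m := 1) Metric.isBounded_ball hsm hw).trans (M.rsupn_le_MM 1 _ a)).trans hb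
  exact (convex_ball (0 : V4) 1).norm_image_sub_le_of_norm_fderiv_le
    (fun w _ => (hsm.differentiable (by simp)).differentiableAt) h1 hz hy

theorem totallyBounded_MM (M : CM X) (C : ℝ) :
    TotallyBounded (Hil.io M '' {b : M.Om | M.MM 1 (b : X → L2) ≤ C}) := by
  classical
  rw [Metric.totallyBounded_iff]
  intro ε hε
  -- comparison of the `L²` norm with the chart norms
  choose K hK1 hK using fun a => M.exists_cf_bound a 1
  set KK : ℝ := ∑ a, K a with hKK
  have hKK0 : 0 ≤ KK := Finset.sum_nonneg fun a _ => by linarith [hK1 a]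
  set T : ℝ := ‖(toE : L2 →L[ℝ] E6)‖ with hT
  have hT0 : 0 ≤ T := norm_nonneg _
  set m0 : ℝ := (measureUnivNNReal M.mu : ℝ) ^ (ENNReal.toReal 2)⁻¹ with hm0
  have hm00 : 0 ≤ m0 := by positivity
  have hcmp : ∀ (b b' : M.Om) (η : ℝ), 0 ≤ η →
      (∀ a, ∀ y ∈ ball (0 : V4) 1, ‖M.cf a (b : X → L2) y - M.cf a (b' : X → L2) y‖ ≤ η) →
      ‖Hil.io M b - Hil.io M b'‖ ≤ m0 * (T * (KK * η)) := by
    intro b b' η hη h
    have h1 : ∀ x, ‖(b : X → L2) x - (b' : X → L2) x‖ ≤ KK * η := by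
      intro x
      obtain ⟨a, y, hy, rfl⟩ := M.cov x
      have h2 := (hK a y hy.le ((b - b' : M.Om) : X → L2)).2
      have h3 : M.cf a ((b - b' : M.Om) : X → L2) y =
          M.cf a (b : X → L2) y - M.cf a (b' : X → L2) y := by
        simp only [cf, Submodule.coe_sub, Pi.sub_apply]
        rw [sub_eq_add_neg, pull_add, ← neg_one_smul ℝ ((b' : X → L2) (M.ψ a y)), pull_smul,
          neg_one_smul, ← sub_eq_add_neg]
      rw [h3] at h2
      have h4 := h a y (by simpa only [mem_ball, dist_zero_right] using hy)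
      have h5 : K a ≤ KK := Finset.single_le_sum (f := K)
        (fun a _ => by linarith [hK1 a]) (Finset.mem_univ a)
      have h6 : 0 ≤ K a := by linarith [hK1 a]
      calc ‖(b : X → L2) (M.ψ a y) - (b' : X → L2) (M.ψ a y)‖
          ≤ K a * ‖M.cf a (b : X → L2) y - M.cf a (b' : X → L2) y‖ := h2
        _ ≤ K a * η := by gcongr
        _ ≤ KK * η := by gcongr
    rw [← map_sub]
    have h7 : ∀ᵐ x ∂M.mu, ‖(Hil.io M (b - b') : X → E6) x‖ ≤ T * (KK * η) := by
      filter_upwards [Hil.io_ae (M := M) (b - b')] with x hx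
      rw [hx]
      calc ‖toE (((b - b' : M.Om) : X → L2) x)‖ ≤ T * ‖((b - b' : M.Om) : X → L2) x‖ :=
            (toE : L2 →L[ℝ] E6).le_opNorm _
        _ ≤ T * (KK * η) := by
            have := h1 x
            gcongr
            exact this
    exact Lp.norm_le_of_ae_bound (p := 2) (μ := M.mu) (f := Hil.io M (b - b'))
      (by positivity) h7
  -- the size of the net
  obtain ⟨η, hη0, hη⟩ : ∃ η : ℝ, 0 < η ∧ m0 * (T * (KK * η)) < ε := by
    refine ⟨ε / (2 * (m0 * T * KK + 1)), by positivity, ?_⟩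
    have h0 : 0 ≤ m0 * T * KK := by positivity
    have h1 : m0 * (T * (KK * (ε / (2 * (m0 * T * KK + 1))))) =
        ε * (m0 * T * KK / (2 * (m0 * T * KK + 1))) := by ring
    rw [h1]
    have h2 : m0 * T * KK / (2 * (m0 * T * KK + 1)) < 1 := by
      rw [div_lt_one (by positivity)]
      linarith only [h0]
    calc ε * (m0 * T * KK / (2 * (m0 * T * KK + 1))) < ε * 1 := by gcongr
      _ = ε := mul_one _
  set C' : ℝ := max C 0 with hC'
  have hC'0 : 0 ≤ C' := le_max_right _ _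
  set δ : ℝ := η / (4 * (C' + 1)) with hδ
  have hδ0 : 0 < δ := by positivity
  have hCδ : C' * δ ≤ η / 4 := by
    rw [hδ, mul_div_assoc', div_le_div_iff₀ (by positivity) (by norm_num)]
    nlinarith only [hη0.le, hC'0, mul_nonneg hC'0 hη0.le]
  -- a finite net of the ball
  have htb : TotallyBounded (ball (0 : V4) 1) :=
    (isCompact_closedBall (0 : V4) 1).totallyBounded.subset ball_subset_closedBall
  obtain ⟨F, hFsub, hFfin, hF⟩ := htb.exists_subset (Metric.dist_mem_uniformity hδ0)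
  haveI : Fintype F := hFfin.fintype
  -- values on the net
  let Φ : M.Om → (M.A × F → L2) := fun b p => M.cf p.1 (b : X → L2) (p.2 : V4)
  set S : Set M.Om := {b : M.Om | M.MM 1 (b : X → L2) ≤ C} with hS
  have hval : ∀ b ∈ S, ∀ a, ∀ y ∈ ball (0 : V4) 1, ‖M.cf a (b : X → L2) y‖ ≤ C := by
    intro b hb a y hy
    exact ((norm_le_rsupn zero_le_one 1 Metric.isBounded_ball (b.2 a).continuous hy).trans
      (M.rsupn_le_MM 1 _ a)).trans hb
  have hΦ : TotallyBounded (Φ '' S) := by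
    refine (isCompact_closedBall (0 : M.A × F → L2) C').totallyBounded.subset ?_
    rintro _ ⟨b, hb, rfl⟩
    rw [mem_closedBall, dist_zero_right, pi_norm_le_iff_of_nonneg hC'0]
    rintro ⟨a, y⟩
    exact (hval b hb a y (hFsub y.2)).trans (le_max_left _ _)
  obtain ⟨t, htsub, htfin, ht⟩ := hΦ.exists_subset
    (Metric.dist_mem_uniformity (show 0 < η / 4 by positivity))
  -- preimages of the net
  have hch : ∀ w : t, ∃ b ∈ S, Φ b = w := fun w => htsub w.2
  choose g hgS hg using hch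
  haveI : Finite t := htfin
  refine ⟨range fun w : t => Hil.io M (g w), finite_range _, ?_⟩
  rintro _ ⟨b, hb, rfl⟩
  obtain ⟨w, hw, hbw⟩ := mem_iUnion₂.1 (ht (mem_image_of_mem Φ hb))
  rw [mem_iUnion₂]
  refine ⟨Hil.io M (g ⟨w, hw⟩), mem_range_self (⟨w, hw⟩ : t), ?_⟩
  rw [mem_ball, dist_eq_norm]
  refine lt_of_le_of_lt (hcmp b (g ⟨w, hw⟩) η hη0.le fun a y hy => ?_) hη
  obtain ⟨z, hz, hyz⟩ := mem_iUnion₂.1 (hF hy)
  have hyz' : ‖y - z‖ ≤ δ := by
    have : dist y z < δ := hyz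
    rw [dist_eq_norm] at this
    exact this.le
  have hd : ‖M.cf a (b : X → L2) z - M.cf a (g ⟨w, hw⟩ : X → L2) z‖ ≤ η / 4 := by
    have h1 : dist (Φ b) w < η / 4 := hbw
    have h2 := dist_le_pi_dist (Φ b) w (a, ⟨z, hz⟩)
    have h3 : w (a, ⟨z, hz⟩) = M.cf a (g ⟨w, hw⟩ : X → L2) z := by
      have := congrFun (hg ⟨w, hw⟩) (a, ⟨z, hz⟩)
      exact this.symm
    rw [h3, dist_eq_norm] at h2
    exact h2.trans h1.le
  have hC1 : C ≤ C' := le_max_left _ _
  have l1 := lip_of_MM M (C := C') (hb.trans hC1) a hy (hFsub hz)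
  have l2 := lip_of_MM M (C := C') ((hgS ⟨w, hw⟩).trans hC1) a (hFsub hz) hy
  have l3 : C' * ‖y - z‖ ≤ η / 4 := le_trans (by gcongr) hCδ
  have l4 : C' * ‖z - y‖ ≤ η / 4 := by rw [norm_sub_rev]; exact l3
  calc ‖M.cf a (b : X → L2) y - M.cf a (g ⟨w, hw⟩ : X → L2) y‖
      = ‖(M.cf a (b : X → L2) y - M.cf a (b : X → L2) z) +
          (M.cf a (b : X → L2) z - M.cf a (g ⟨w, hw⟩ : X → L2) z) +
          (M.cf a (g ⟨w, hw⟩ : X → L2) z - M.cf a (g ⟨w, hw⟩ : X → L2) y)‖ := by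
        congr 1; abel
    _ ≤ ‖M.cf a (b : X → L2) y - M.cf a (b : X → L2) z‖ +
          ‖M.cf a (b : X → L2) z - M.cf a (g ⟨w, hw⟩ : X → L2) z‖ +
          ‖M.cf a (g ⟨w, hw⟩ : X → L2) z - M.cf a (g ⟨w, hw⟩ : X → L2) y‖ := norm_add₃_le
    _ ≤ η / 4 + η / 4 + η / 4 := by
        have := l1.trans l3
        have := l2.trans l4
        gcongr
    _ ≤ η := by linarith only [hη0]

end CM
end Vale.Agent.P204.GX
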