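import Vale.Agent.P204.Bdl.B3

set_option linter.all false

/-! P204 class version, package X3j: joint smoothness in parameters. -/

open MeasureTheory Set Filter Topology
open scoped ContDiff BigOperators

namespace Vale.Agent.P204.GX
open Vale.Agent.P204.T4 _root_.P204.GX

namespace CM
variable {X : Type} [MetricSpace X] (M : CM X)
variable {Z : Type} [NormedAddCommGroup Z] [NormedSpace ℝ Z] [FiniteDimensional ℝ Z]

omit [FiniteDimensional ℝ Z] in
/-- smooth dependence on parameters for functions extended by zero -/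
theorem contDiff_of_ext_family {E : Type*} [NormedAddCommGroup E] [NormedSpace ℝ E]
    (a c : M.A) {K : Set V4} (hK : IsCompact K) {F : Z × V4 → E}
    (h1 : ∀ z, ∀ y ∈ M.O a c, ContDiffAt ℝ ∞ F (z, y))
    (h0 : ∀ z y, M.ψ a y ∉ M.ψ c '' K → F (z, y) = 0) : ContDiff ℝ ∞ F := by
  rw [contDiff_iff_contDiffAt]
  rintro ⟨z, y⟩
  by_cases hy : y ∈ M.O a c
  · exact h1 z y hy
  · have hcl : IsClosed (M.ψ c '' K) := (hK.image (M.continuous_ψ c)).isClosed
    have hopen : IsOpen {p : Z × V4 | M.ψ a p.2 ∉ M.ψ c '' K} :=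
      (hcl.isOpen_compl).preimage ((M.continuous_ψ a).comp continuous_snd)
    have hmem : (z, y) ∈ {p : Z × V4 | M.ψ a p.2 ∉ M.ψ c '' K} := by
      intro hz
      obtain ⟨w, -, hw⟩ := hz
      exact hy ⟨w, hw⟩
    have h2 : ContDiffAt ℝ ∞ (fun _ : Z × V4 => (0 : E)) (z, y) := contDiffAt_const
    refine h2.congr_of_eventuallyEq ?_
    filter_upwards [hopen.mem_nhds hmem] with p hp
    exact h0 p.1 p.2 hp

omit [FiniteDimensional ℝ Z] in
theorem contDiff_cf_ext {c a : M.A} {g : Z → V4 → L2} (hg : ContDiff ℝ ∞ (Function.uncurry g))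
    (h5 : ∀ z y, 5 < ‖y‖ → g z y = 0) :
    ContDiff ℝ ∞ (Function.uncurry fun z => M.cf a (M.ext c (g z))) := by
  refine M.contDiff_of_ext_family a c (isCompact_closedBall (0 : V4) 5) ?_ ?_
  · intro z y hy
    have h1 : ContDiffAt ℝ ∞ (fun p : Z × V4 => M.Dt a c p.2) (z, y) :=
      ContDiffAt.comp (g := M.Dt a c) (f := fun p : Z × V4 => p.2) (z, y) (M.contDiffAt_Dt hy)
        contDiffAt_snd
    have h2 : ContDiffAt ℝ ∞ (fun p : Z × V4 => M.τ a c p.2) (z, y) :=
      ContDiffAt.comp (g := M.τ a c) (f := fun p : Z × V4 => p.2) (z, y) (M.contDiffAt_τ hy)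
        contDiffAt_snd
    have h3 : ContDiffAt ℝ ∞ (fun p : Z × V4 => g p.1 (M.τ a c p.2)) (z, y) :=
      ContDiffAt.comp (g := Function.uncurry g) (f := fun p : Z × V4 => (p.1, M.τ a c p.2)) (z, y)
        hg.contDiffAt (contDiffAt_fst.prodMk h2)
    have h4 : ContDiffAt ℝ ∞ (fun p : Z × V4 => pull (M.Dt a c p.2) (g p.1 (M.τ a c p.2))) (z, y) :=
      ContDiffAt.comp (g := fun p : M4 × L2 => pull p.1 p.2)
        (f := fun p : Z × V4 => (M.Dt a c p.2, g p.1 (M.τ a c p.2))) (z, y)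
        contDiff_pull.contDiffAt (h1.prodMk h3)
    refine h4.congr_of_eventuallyEq ?_
    have hopen : IsOpen {p : Z × V4 | p.2 ∈ M.O a c} := (M.isOpen_O a c).preimage continuous_snd
    filter_upwards [hopen.mem_nhds (show (z, y) ∈ {p : Z × V4 | p.2 ∈ M.O a c} from hy)] with p hp
    change M.cf a (M.ext c (g p.1)) p.2 = _
    rw [cf_ext, if_pos hp]
  · intro z y hy
    change M.cf a (M.ext c (g z)) y = 0
    rw [cf_ext]
    split_ifs with h
    · have : g z (M.τ a c y) = 0 := by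
        apply h5
        by_contra hn
        push Not at hn
        exact hy ⟨M.τ a c y, mem_closedBall_zero_iff.2 hn, M.ψ_τ h⟩
      rw [this, pull_zero]
    · rfl

omit [FiniteDimensional ℝ Z] in
theorem contDiff_cf1_ext1 {c a : M.A} {g : Z → V4 → V4} (hg : ContDiff ℝ ∞ (Function.uncurry g))
    (h5 : ∀ z y, 5 < ‖y‖ → g z y = 0) :
    ContDiff ℝ ∞ (Function.uncurry fun z => M.cf1 a (M.ext1 c (g z))) := by
  refine M.contDiff_of_ext_family a c (isCompact_closedBall (0 : V4) 5) ?_ ?_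
  · intro z y hy
    have h1 : ContDiffAt ℝ ∞ (fun p : Z × V4 => M.Dt a c p.2) (z, y) :=
      ContDiffAt.comp (g := M.Dt a c) (f := fun p : Z × V4 => p.2) (z, y) (M.contDiffAt_Dt hy)
        contDiffAt_snd
    have h2 : ContDiffAt ℝ ∞ (fun p : Z × V4 => M.τ a c p.2) (z, y) :=
      ContDiffAt.comp (g := M.τ a c) (f := fun p : Z × V4 => p.2) (z, y) (M.contDiffAt_τ hy)
        contDiffAt_snd
    have h3 : ContDiffAt ℝ ∞ (fun p : Z × V4 => g p.1 (M.τ a c p.2)) (z, y) :=
      ContDiffAt.comp (g := Function.uncurry g) (f := fun p : Z × V4 => (p.1, M.τ a c p.2)) (z, y)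
        hg.contDiffAt (contDiffAt_fst.prodMk h2)
    have h4 : ContDiffAt ℝ ∞ (fun p : Z × V4 => copp (g p.1 (M.τ a c p.2)) (M.Dt a c p.2)) (z, y) :=
      ContDiffAt.comp (g := fun p : V4 × M4 => copp p.1 p.2)
        (f := fun p : Z × V4 => (g p.1 (M.τ a c p.2), M.Dt a c p.2)) (z, y)
        contDiff_copp.contDiffAt (h3.prodMk h1)
    refine h4.congr_of_eventuallyEq ?_
    have hopen : IsOpen {p : Z × V4 | p.2 ∈ M.O a c} := (M.isOpen_O a c).preimage continuous_snd
    filter_upwards [hopen.mem_nhds (show (z, y) ∈ {p : Z × V4 | p.2 ∈ M.O a c} from hy)] with p hp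
    change M.cf1 a (M.ext1 c (g p.1)) p.2 = _
    rw [cf1_ext1, if_pos hp]
  · intro z y hy
    change M.cf1 a (M.ext1 c (g z)) y = 0
    rw [cf1_ext1]
    split_ifs with h
    · have : g z (M.τ a c y) = 0 := by
        apply h5
        by_contra hn
        push Not at hn
        exact hy ⟨M.τ a c y, mem_closedBall_zero_iff.2 hn, M.ψ_τ h⟩
      rw [this, copp_zero]
    · rfl

/-- joint smoothness of the pullback of a family by the moves -/
theorem contDiff_pf_family {v : Z → V4} (hv : ContDiff ℝ ∞ v) {γ : Z → V4 → L2}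
    (hγ : ContDiff ℝ ∞ (Function.uncurry γ)) :
    ContDiff ℝ ∞ (Function.uncurry fun z => pf (hz (v z)) (γ z)) := by
  have h1 : ContDiff ℝ ∞ (fun p : Z × V4 => hz (v p.1) p.2) :=
    ContDiff.comp (g := fun q : V4 × V4 => hz q.1 q.2) (f := fun p : Z × V4 => (v p.1, p.2))
      contDiff_hz2 ((hv.comp contDiff_fst).prodMk contDiff_snd)
  have h2 : ContDiff ℝ ∞ (fun p : Z × V4 => Dm (hz (v p.1)) p.2) :=
    contDiff_Dm_family (H := fun z => hz (v z)) h1
  have h3 : ContDiff ℝ ∞ (fun p : Z × V4 => γ p.1 (hz (v p.1) p.2)) :=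
    ContDiff.comp (g := Function.uncurry γ) (f := fun p : Z × V4 => (p.1, hz (v p.1) p.2))
      hγ (contDiff_fst.prodMk h1)
  exact ContDiff.comp (g := fun p : M4 × L2 => pull p.1 p.2)
    (f := fun p : Z × V4 => (Dm (hz (v p.1)) p.2, γ p.1 (hz (v p.1) p.2))) contDiff_pull
    (h2.prodMk h3)

theorem contDiff_cf_UL (L : List M.A) {b : X → L2} (hb : b ∈ M.Om) (a : M.A) :
    ContDiff ℝ ∞ (Function.uncurry fun z : M.A → V4 => M.cf a (M.UL L z b)) := by
  induction L generalizing a with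
  | nil => exact (hb a).comp contDiff_snd
  | cons c L ih =>
    have hv : ContDiff ℝ ∞ (fun z : M.A → V4 => z c) := contDiff_apply ℝ V4 c
    have h1 := contDiff_pf_family hv (ih c)
    have h2 : ContDiff ℝ ∞ (Function.uncurry fun z : M.A → V4 =>
        M.cf a (M.ext c (pf (hz (z c)) (M.cf c (M.UL L z b)) - M.cf c (M.UL L z b)))) := by
      refine M.contDiff_cf_ext (h1.sub (ih c)) ?_
      intro z y hy
      have hf : ∀ y', 5 ≤ ‖y'‖ → hz (z c) y' = y' := fun y' hy' => hz_of_ge hy' _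
      change pf (hz (z c)) (M.cf c (M.UL L z b)) y - M.cf c (M.UL L z b) y = 0
      unfold pf
      rw [Dm_id_far hf hy, hf y hy.le, pull_one, sub_self]
    have h3 : (Function.uncurry fun z : M.A → V4 => M.cf a (M.UL (c :: L) z b)) =
        fun p : (M.A → V4) × V4 => Function.uncurry (fun z : M.A → V4 => M.cf a (M.UL L z b)) p +
          Function.uncurry (fun z : M.A → V4 => M.cf a
            (M.ext c (pf (hz (z c)) (M.cf c (M.UL L z b)) - M.cf c (M.UL L z b)))) p := by
      funext p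
      change M.cf a (M.UL L p.1 b + M.ext c _) p.2 = _
      rw [M.cf_add]
      rfl
    rw [h3]
    exact (ih a).add h2

end CM
end Vale.Agent.P204.GX
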