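import Vale.Agent.P204.CV.X3a
import Vale.Agent.P204.CV.X3j

/-!
The averaging operator is homotopic to the identity: for closed smooth `b` the form `b - S0L δ b` is
exact.
-/

open scoped BigOperators ContDiff Topology
open MeasureTheory Set

namespace Vale.Agent.P204.GX
open T4

theorem hasCompactSupport_kap (v : V4) (β : V4 → L2) : HasCompactSupport (kap v β) :=
  HasCompactSupport.intro (isCompact_closedBall (0 : V4) 5) fun y hy => by
    rw [mem_closedBall_zero_iff, not_le] at hy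
    exact kap_zero hy

theorem contDiff_kap1 (v : V4) {β : V4 → L2} (hβ : ContDiff ℝ ∞ β) : ContDiff ℝ ∞ (kap v β) := by
  have hb : ContDiff ℝ ∞ (Function.uncurry fun _ : ℝ => β) :=
    ContDiff.comp (g := β) (f := fun p : ℝ × V4 => p.2) hβ contDiff_snd
  have h1 : ContDiff ℝ ∞ (Function.uncurry fun _ : ℝ => kap v β) :=
    contDiff_kap (Z := ℝ) (v := fun _ => v) (β := fun _ => β) contDiff_const hb
  generalize kap v β = k at h1 ⊢
  exact ContDiff.comp (g := Function.uncurry fun _ : ℝ => k) (f := fun y : V4 => ((0 : ℝ), y)) h1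
    (contDiff_const.prodMk contDiff_id)

namespace CM
variable {X : Type} [MetricSpace X] (M : CM X)

/-- a primitive of `UL L z b - b` -/
noncomputable def eta (b : X → L2) : List M.A → (M.A → V4) → X → V4
  | [], _ => 0
  | c :: L, z => eta b L z + M.ext1 c (kap (z c) (M.cf c (M.UL L z b)))

theorem sm1_zero : M.Sm1 (0 : X → V4) := fun a => by rw [M.cf1_zero]; exact contDiff_const

theorem dX_zero : M.dX (0 : X → V4) = 0 := by
  have := M.dX_smul 0 M.sm1_zero
  simpa only [smul_zero, zero_smul] using this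

theorem UL_eq_add_dX {b : X → L2} (hb : b ∈ M.Om) (hc : ∀ a, Closed (M.cf a b)) (L : List M.A)
    (z : M.A → V4) : M.Sm1 (M.eta b L z) ∧ M.UL L z b = b + M.dX (M.eta b L z) := by
  induction L with
  | nil =>
    refine ⟨M.sm1_zero, ?_⟩
    show b = b + M.dX 0
    rw [M.dX_zero, add_zero]
  | cons c L ih =>
    obtain ⟨h1, h2⟩ := ih
    have hu := M.UL_mem_Om L z hb
    have hcl : Closed (M.cf c (M.UL L z b)) := by
      rw [h2, M.cf_add, M.cf_dX h1]
      exact Closed_add (hc c) (closed_d1 (h1 c)) ((hb c).differentiable (by simp))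
        ((contDiff_d1 (h1 c)).differentiable (by simp))
    have hk : ContDiff ℝ ∞ (kap (z c) (M.cf c (M.UL L z b))) := contDiff_kap1 _ (hu c)
    have hks := hasCompactSupport_kap (z c) (M.cf c (M.UL L z b))
    have hs := M.sm1_ext1 c hk hks
    refine ⟨Sm1.add M h1 hs, ?_⟩
    show M.UL L z b + M.ext c (pf (hz (z c)) (M.cf c (M.UL L z b)) - M.cf c (M.UL L z b)) =
      b + M.dX (M.eta b L z + M.ext1 c (kap (z c) (M.cf c (M.UL L z b))))
    rw [← d1_kap (hu c) hcl (z c), ← M.dX_ext1 c hk hks, M.dX_add h1 hs, ← add_assoc, ← h2]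

theorem contDiff_cf1_eta {b : X → L2} (hb : b ∈ M.Om) (a : M.A) (L : List M.A) :
    ContDiff ℝ ∞ (Function.uncurry fun z : M.A → V4 => M.cf1 a (M.eta b L z)) := by
  induction L with
  | nil =>
    have : (Function.uncurry fun z : M.A → V4 => M.cf1 a (M.eta b [] z)) = fun _ => 0 := by
      funext p
      show M.cf1 a 0 p.2 = 0
      rw [M.cf1_zero]; rfl
    rw [this]
    exact contDiff_const
  | cons c L ih =>
    have h1 : ContDiff ℝ ∞ (Function.uncurry fun z : M.A → V4 =>
        M.cf1 a (M.ext1 c (kap (z c) (M.cf c (M.UL L z b))))) :=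
      M.contDiff_cf1_ext1 (contDiff_kap (v := fun z : M.A → V4 => z c)
        (contDiff_apply ℝ V4 c) (M.contDiff_cf_UL L hb c)) fun z y hy => kap_zero hy
    have h2 : (Function.uncurry fun z : M.A → V4 => M.cf1 a (M.eta b (c :: L) z)) =
        fun p => (Function.uncurry fun z : M.A → V4 => M.cf1 a (M.eta b L z)) p +
          (Function.uncurry fun z : M.A → V4 =>
            M.cf1 a (M.ext1 c (kap (z c) (M.cf c (M.UL L z b))))) p := by
      funext p
      show M.cf1 a (M.eta b L p.1 + M.ext1 c (kap (p.1 c) (M.cf c (M.UL L p.1 b)))) p.2 = _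
      rw [M.cf1_add]; rfl
    rw [h2]
    exact ih.add h1

/-- the averaged primitive -/
noncomputable def Et (δ : ℝ) (b : X → L2) (x : X) : V4 := ∫ z, M.rr z • M.eta b M.AL (δ • z) x

theorem integrable_Et (δ : ℝ) {b : X → L2} (hb : b ∈ M.Om) (x : X) :
    Integrable (fun z => M.rr z • M.eta b M.AL (δ • z) x) := by
  have h2 : Continuous fun z => copp (M.cf1 (M.ch x) (M.eta b M.AL (δ • z)) (M.cy x))
      (M.m' (M.ch x) (M.cy x)) := by
    have h3 : Continuous fun z => M.cf1 (M.ch x) (M.eta b M.AL (δ • z)) (M.cy x) :=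
      Continuous.comp (g := Function.uncurry fun z : M.A → V4 => M.cf1 (M.ch x) (M.eta b M.AL z))
        (f := fun z => (δ • z, M.cy x)) (M.contDiff_cf1_eta hb (M.ch x) M.AL).continuous
        ((M.continuous_smul_param δ).prodMk continuous_const)
    exact cont_copp continuous_const h3
  refine M.integrable_rr_smul (f := fun z => M.eta b M.AL (δ • z) x) h2 fun z hz => ?_
  have h4 := M.eq_copp_m' (M.eta b M.AL (δ • z)) (M.ch x) (M.cy x)
  rw [M.ψ_cy] at h4
  exact h4

theorem cf1_Et (a : M.A) (δ : ℝ) {b : X → L2} (hb : b ∈ M.Om) (y : V4) :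
    M.cf1 a (M.Et δ b) y = ∫ z, M.rr z • M.cf1 a (M.eta b M.AL (δ • z)) y := by
  have h3 := (coppL (M.m a y)).integral_comp_comm (M.integrable_Et δ hb (M.ψ a y))
  have h4 : M.cf1 a (M.Et δ b) y
      = coppL (M.m a y) (∫ z, M.rr z • M.eta b M.AL (δ • z) (M.ψ a y)) := rfl
  rw [h4, ← h3]
  refine integral_congr_ae (Filter.Eventually.of_forall fun z => ?_)
  show coppL (M.m a y) (M.rr z • M.eta b M.AL (δ • z) (M.ψ a y)) = _
  rw [map_smul]; rfl

theorem contDiff_rr_eta (a : M.A) (δ : ℝ) {b : X → L2} (hb : b ∈ M.Om) :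
    ContDiff ℝ ∞ (Function.uncurry fun (z : M.A → V4) (y : V4) =>
      M.rr z • M.cf1 a (M.eta b M.AL (δ • z)) y) := by
  have h1 : ContDiff ℝ ∞ fun p : (M.A → V4) × V4 => M.cf1 a (M.eta b M.AL (δ • p.1)) p.2 :=
    ContDiff.comp (g := Function.uncurry fun z : M.A → V4 => M.cf1 a (M.eta b M.AL z))
      (f := fun p : (M.A → V4) × V4 => (δ • p.1, p.2)) (M.contDiff_cf1_eta hb a M.AL)
      ((contDiff_fst.const_smul δ).prodMk contDiff_snd)
  exact (M.bump_rr.smooth.comp contDiff_fst).smul h1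

theorem sm1_Et (δ : ℝ) {b : X → L2} (hb : b ∈ M.Om) : M.Sm1 (M.Et δ b) := by
  intro a
  have h1 : M.cf1 a (M.Et δ b) = fun y => ∫ z in Metric.closedBall (0 : M.A → V4) 1,
      M.rr z • M.cf1 a (M.eta b M.AL (δ • z)) y := by
    funext y
    rw [M.cf1_Et a δ hb y, M.integral_rr]
  rw [h1]
  exact contDiff_integral_param (volume.restrict (Metric.closedBall (0 : M.A → V4) 1))
    (isCompact_closedBall (0 : M.A → V4) 1) M.compl_null (M.contDiff_rr_eta a δ hb)

/-- the averaging operator changes closed forms by exact forms -/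
theorem S0_eq_add_dX {δ : ℝ} (h0 : 0 ≤ δ) (h1 : δ ≤ M.z1) {b : X → L2} (hb : b ∈ M.Om)
    (hc : ∀ a, Closed (M.cf a b)) : M.S0 δ b = b + M.dX (M.Et δ b) := by
  apply M.ext_cf; intro a y hy
  rw [M.cf_add, Pi.add_apply, M.cf_dX (M.sm1_Et δ hb)]
  have e1 : M.cf a (M.S0 δ b) y = ∫ z, M.rr z • M.cf a (M.U (δ • z) b) y := by
    have h3 := (pullL (M.m a y)).integral_comp_comm
      (M.integrable_S0 h0 h1 (fun a => (hb a).continuous) (M.ψ a y))
    have h4 : M.cf a (M.S0 δ b) y
        = pullL (M.m a y) (∫ z, M.rr z • M.U (δ • z) b (M.ψ a y)) := rfl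
    rw [h4, ← h3]
    refine integral_congr_ae (Filter.Eventually.of_forall fun z => ?_)
    show pullL (M.m a y) (M.rr z • M.U (δ • z) b (M.ψ a y)) = _
    rw [map_smul]; rfl
  have e2 : ∀ z : M.A → V4, M.rr z • M.cf a (M.U (δ • z) b) y =
      M.rr z • M.cf a b y + M.rr z • d1 (M.cf1 a (M.eta b M.AL (δ • z))) y := by
    intro z
    obtain ⟨h2, h3⟩ := M.UL_eq_add_dX hb hc M.AL (δ • z)
    have h4 : M.U (δ • z) b = b + M.dX (M.eta b M.AL (δ • z)) := h3
    rw [h4, M.cf_add, Pi.add_apply, M.cf_dX h2, smul_add]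
  rw [e1]
  simp only [e2]
  have hd : ∀ z : M.A → V4, M.rr z • d1 (M.cf1 a (M.eta b M.AL (δ • z))) y =
      d1 (fun y => M.rr z • M.cf1 a (M.eta b M.AL (δ • z)) y) y := by
    intro z
    have h4 : ContDiff ℝ ∞ (M.cf1 a (M.eta b M.AL (δ • z))) :=
      (M.UL_eq_add_dX hb hc M.AL (δ • z)).1 a
    exact (d1_smul _ (h4.differentiable (by simp)) y).symm
  have hcont : Continuous fun z : M.A → V4 => d1 (M.cf1 a (M.eta b M.AL (δ • z))) y := by
    have hjs : ContDiff ℝ ∞ (Function.uncurry fun (z : M.A → V4) (y : V4) =>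
        M.cf1 a (M.eta b M.AL (δ • z)) y) :=
      ContDiff.comp (g := Function.uncurry fun z : M.A → V4 => M.cf1 a (M.eta b M.AL z))
        (f := fun p : (M.A → V4) × V4 => (δ • p.1, p.2)) (M.contDiff_cf1_eta hb a M.AL)
        ((contDiff_fst.const_smul δ).prodMk contDiff_snd)
    have h5 : ∀ i j : Fin 4, Continuous fun z : M.A → V4 =>
        pd i (fun y => M.cf1 a (M.eta b M.AL (δ • z)) y j) y := by
      intro i j
      have h4 : Continuous fun z : M.A → V4 =>
          fderiv ℝ (fun y => M.cf1 a (M.eta b M.AL (δ • z)) y j) y :=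
        (contDiff_fderiv_snd (f := fun (z : M.A → V4) (y : V4) =>
          M.cf1 a (M.eta b M.AL (δ • z)) y j) ((contDiff_pi.1 hjs) j)).continuous.comp
          (continuous_id.prodMk continuous_const)
      exact h4.clm_apply continuous_const
    have h6 : Continuous fun z : M.A → V4 =>
        ((fun i j => pd i (fun y => M.cf1 a (M.eta b M.AL (δ • z)) y j) y
        - pd j (fun y => M.cf1 a (M.eta b M.AL (δ • z)) y i) y) : M4) :=
      continuous_pi fun i => continuous_pi fun j => (h5 i j).sub (h5 j i)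
    exact contDiff_ofEnt.continuous.comp h6
  have hi1 : Integrable fun z : M.A → V4 => M.rr z • M.cf a b y :=
    M.integrable_rr_smul (f := fun _ => M.cf a b y) (g := fun _ => M.cf a b y)
      continuous_const fun _ _ => rfl
  have hi2 : Integrable fun z : M.A → V4 => M.rr z • d1 (M.cf1 a (M.eta b M.AL (δ • z))) y :=
    M.integrable_rr_smul hcont fun _ _ => rfl
  rw [integral_add hi1 hi2, integral_smul_const, M.bump_rr.int, one_smul]
  congr 1
  have e3 : M.cf1 a (M.Et δ b) = fun y => ∫ z in Metric.closedBall (0 : M.A → V4) 1,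
      M.rr z • M.cf1 a (M.eta b M.AL (δ • z)) y := by
    funext y
    rw [M.cf1_Et a δ hb y, M.integral_rr]
  rw [e3, M.d1_integral (M.contDiff_rr_eta a δ hb) y, M.integral_rr]
  simp only [hd]

/-- for closed `b`, the form `b - S0L δ b` is exact -/
theorem sub_S0L_mem_Ex {δ : ℝ} (h0 : 0 ≤ δ) (h1 : δ ≤ M.z1) {b : M.Om} (hb : b ∈ M.Cl) :
    b - M.S0L δ b ∈ M.Ex := by
  have hs := M.sm1_Et δ b.2
  have h2 : b - M.S0L δ b = -(⟨M.dX (M.Et δ b), M.dX_mem_Om hs⟩ : M.Om) := by
    apply Subtype.ext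
    show (b : X → L2) - (M.S0L δ b : X → L2) = -(M.dX (M.Et δ b))
    rw [M.S0L_coe h0 h1, M.S0_eq_add_dX h0 h1 b.2 hb]
    abel
  rw [h2]
  exact M.Ex.neg_mem (M.dX_mem_Ex hs)

end CM
end Vale.Agent.P204.GX
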