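import Vale.Agent.P204.CV.F1
attribute [-instance] ProperSMul.toContinuousSMul IsTopologicalTorsor.toContinuousSMul IdemSemiring.toCanonicallyOrderedAdd IdemSemiring.toMulLeftMono IdemSemiring.toMulRightMono AddQuantale.instAddLeftMono AddQuantale.instAddRightMono Quantale.instMulLeftMono Quantale.instMulRightMono FiniteDimensional.rclike_to_real IsScalarTower.complexToReal FiniteDimensional.complexToReal

set_option linter.all false

/-!
# P204, class version, package X4 (helper941): `sysStatementC` with the homotopy clause and the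
compactness clause.
-/

section
set_option linter.all false

/-!
The smoothing system of a closed manifold at the level of functions.
-/

open MeasureTheory Set Metric
open scoped ContDiff ENNReal NNReal BigOperators InnerProductSpace Topology

namespace Vale.Agent.P204.GX
open T4 _root_.P204.GX

/-- Compactness of the smoothing, from `totallyBounded_MM`. -/
theorem totallyBounded_S {X : Type} [MetricSpace X] [CompactSpace X] [MeasurableSpace X]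
    [BorelSpace X] [Nonempty X] (M : CM X)
    (X2 : ∀ C : ℝ, TotallyBounded (Hil.io M '' {b : M.Om | M.MM 1 (b : X → L2) ≤ C}))
    {δ1 : ℝ} (hs : M.Scale δ1) (Z : Sys0 (Lp E6 2 M.mu) M.Om) (hι : Z.ι = Hil.io M)
    (hδ : Z.δ0 = δ1) (hS : ∀ δ b, Z.S0 δ b = M.S0L δ b) {δ : ℝ} (h0 : 0 < δ) (h1 : δ ≤ δ1) :
    TotallyBounded ((fun u => Z.toSmSys.ι (Z.toSmSys.S δ u)) ''
      Metric.closedBall (0 : Lp E6 2 M.mu) 1) := by
  obtain ⟨C, hC, hb⟩ := hs.ssm 1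
  have hι' : ∀ b : M.Om, Z.toSmSys.ι b = Hil.io M b := fun b => by
    show Z.ι b = _
    rw [hι]
  have h1' : δ ≤ Z.toSmSys.δ0 := h1.trans hδ.ge
  set B : ℝ := C * (δ ^ (2 + 1))⁻¹ * 2 with hB
  refine (X2 B).closure.subset ?_
  rintro _ ⟨u, hu, rfl⟩
  rw [mem_closedBall_zero_iff] at hu
  rw [Metric.mem_closure_iff]
  intro ε hε
  set K : ℝ := |Z.toSmSys.K 0| + 1 with hK
  have hK0 : 0 < K := by positivity
  obtain ⟨b, hb'⟩ := (Hil.denseRange_io M).exists_dist_lt u (ε := min 1 (ε / K))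
    (lt_min one_pos (by positivity))
  have hb1 : ‖u - Hil.io M b‖ < 1 := by
    rw [← dist_eq_norm]; exact hb'.trans_le (min_le_left _ _)
  have hb2 : ‖u - Hil.io M b‖ < ε / K := by
    rw [← dist_eq_norm]; exact hb'.trans_le (min_le_right _ _)
  have hn : ‖Hil.io M b‖ ≤ 2 := by
    have := norm_sub_norm_le (Hil.io M b) u
    rw [norm_sub_rev] at this
    linarith
  refine ⟨Hil.io M (M.S0L δ b), ⟨M.S0L δ b, ?_, rfl⟩, ?_⟩
  · refine (hb δ h0 h1 b).trans ?_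
    rw [hB]
    have : 0 ≤ C * (δ ^ (2 + 1))⁻¹ := by positivity
    gcongr
  · have e1 : M.S0L δ b = Z.toSmSys.S δ (Z.toSmSys.ι b) := by
      rw [← hS]; exact (Z.S_ι h0 h1' b).symm
    have e2 : Z.toSmSys.ι (Z.toSmSys.S δ u) - Hil.io M (M.S0L δ b) =
        Z.toSmSys.ι (Z.toSmSys.S δ (u - Hil.io M b)) := by
      rw [← hι' (M.S0L δ b), e1, ← map_sub, ← map_sub, hι' b]
    show dist (Z.toSmSys.ι (Z.toSmSys.S δ u)) _ < ε
    rw [dist_eq_norm, e2]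
    calc ‖Z.toSmSys.ι (Z.toSmSys.S δ (u - Hil.io M b))‖
        ≤ Z.toSmSys.K 0 * ‖u - Hil.io M b‖ := Z.toSmSys.S_norm δ _ h0 h1'
      _ ≤ K * ‖u - Hil.io M b‖ := by
          gcongr
          rw [hK]
          linarith [le_abs_self (Z.toSmSys.K 0)]
      _ < K * (ε / K) := by gcongr
      _ = ε := by field_simp

theorem sysStatementD_of {X : Type} [MetricSpace X] [CompactSpace X] [MeasurableSpace X]
    [BorelSpace X] [Nonempty X] (M : CM X)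
    (X2 : ∀ C : ℝ, TotallyBounded (Hil.io M '' {b : M.Om | M.MM 1 (b : X → L2) ≤ C}))
    (X3 : ∀ δ : ℝ, 0 ≤ δ → δ ≤ M.z1 → ∀ b : M.Om, b ∈ M.Cl → b - M.S0L δ b ∈ M.Ex) : ∃ Z : FnSys X, Z.μ = M.mu ∧ (∀ u : X → L2, u ∈ Z.Om ↔ u ∈ M.Om) ∧
      (∀ b : Z.Om, b ∈ Z.Y.Cl ↔ ∀ a, Closed (M.cf a (b : X → L2))) ∧
      (∀ b : Z.Om, b ∈ Z.Y.Ex ↔ ∃ e ∈ M.Ex, (e : X → L2) = (b : X → L2)) ∧
      (∀ m, ∃ K : ℝ, 0 ≤ K ∧ ∀ δ (b : Z.Om), 0 < δ → δ ≤ 1 →
        Z.Y.N m δ b ≤ K * M.NN m δ (b : X → L2)) ∧ HasPG Z ∧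
      (∀ δ, 0 < δ → δ ≤ Z.Y.δ0 → ∀ b ∈ Z.Y.Cl, b - Z.Y.S δ (Z.Y.ι b) ∈ Z.Y.Ex) ∧
      (∀ δ, 0 < δ → δ ≤ Z.Y.δ0 → TotallyBounded ((fun u => Z.Y.ι (Z.Y.S δ u)) ''
        Metric.closedBall (0 : Lp E6 2 Z.μ) 1)) := by
  obtain ⟨d0, hd0, hsc⟩ := M.exists_scale
  obtain ⟨e0, c0, he0, hc0, hz0, P0⟩ := M.exists_P0
  obtain ⟨e1, c1, he1, hc1, hz1, P1⟩ := M.exists_P1
  obtain ⟨e3, c3, he3, hc3, P3⟩ := M.exists_P3
  obtain ⟨eF, cF, heF, hcF, PF⟩ := M.exists_PF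
  obtain ⟨cv, hcv, hv⟩ := CM.exists_vol (M := M)
  obtain ⟨δ1, h1pos, h1d, h1e0, h1e1, h1e3, h1eF⟩ : ∃ δ1 : ℝ, 0 < δ1 ∧ δ1 ≤ d0 ∧ δ1 ≤ e0 ∧ δ1 ≤ e1 ∧
      δ1 ≤ e3 ∧ δ1 ≤ eF :=
    ⟨min d0 (min e0 (min e1 (min e3 eF))), by positivity, min_le_left _ _,
      (min_le_right _ _).trans (min_le_left _ _),
      (min_le_right _ _).trans ((min_le_right _ _).trans (min_le_left _ _)),
      (min_le_right _ _).trans ((min_le_right _ _).trans ((min_le_right _ _).trans (min_le_left _ _))),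
      (min_le_right _ _).trans ((min_le_right _ _).trans ((min_le_right _ _).trans (min_le_right _ _)))⟩
  have hs := hsc δ1 h1pos h1d
  obtain ⟨Z, hι, hst, hpm, hpmH, hCl, hEx, hδ, hS, hM0, hN⟩ := CM.exists_Sys0 M hs
  obtain ⟨c, hc1', lc0, lc1, lc3, lcF, lcv⟩ : ∃ c : ℝ, 1 ≤ c ∧ c0 ≤ c ∧ c1 ≤ c ∧ c3 ≤ c ∧ cF ≤ c ∧ cv ≤ c :=
    ⟨c0 + c1 + c3 + cF + cv, by linarith only [hc0, hc1, hc3, hcF, hcv], by linarith only [hc1, hc3, hcF, hcv], by linarith only [hc0, hc3, hcF, hcv], by linarith only [hc0, hc1, hcF, hcv], by linarith only [hc0, hc1, hc3, hcv], by linarith only [hc0, hc1, hc3, hcF]⟩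
  have hSS : ∀ (δ : ℝ) (b : M.Om), 0 < δ → δ ≤ δ1 →
      ((Z.toSmSys.S δ (Z.toSmSys.ι b) : M.Om) : X → L2) = M.S0 δ b := by
    intro δ b h0 h1
    have e1 : Z.toSmSys.S δ (Z.toSmSys.ι b) = Z.S0 δ b := Z.S_ι h0 (h1.trans hδ.ge) b
    rw [e1, hS]
    exact M.S0L_coe h0.le (h1.trans hs.le_z1) b
  have hint : ∀ (b : M.Om) x {s t : ℝ}, s ≤ t →
      ∫ y in ball x s, ‖(b : X → L2) y‖ ∂M.mu ≤ ∫ y in ball x t, ‖(b : X → L2) y‖ ∂M.mu :=
    fun b x s t h => M.mono_ball b.2 x h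
  have hint0 : ∀ (b : M.Om) x (s : ℝ), 0 ≤ ∫ y in ball x s, ‖(b : X → L2) y‖ ∂M.mu :=
    fun b x s => integral_nonneg fun y => norm_nonneg _
  have hcont : ∀ (b : M.Om) a, Continuous (M.cf a (b : X → L2)) := fun b a => (b.2 a).continuous
  have hG : ∀ g : M.Om, ∃ C δg : ℝ, 0 ≤ C ∧ 0 < δg ∧ ∀ δ (b : M.Om), 0 < δ → δ ≤ δg →
      |∫ x, Q ((g : X → L2) x) (((Z.toSmSys.S δ (Z.toSmSys.ι b) : M.Om) : X → L2) x) ∂M.mu -
        ∫ x, Q ((g : X → L2) x) ((b : X → L2) x) ∂M.mu| ≤ C * δ * ∫ x, ‖(b : X → L2) x‖ ∂M.mu := by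
    intro g
    obtain ⟨eG, cG, heG, hcG, PG⟩ := M.exists_PG g.2
    refine ⟨cG, min δ1 eG, by linarith only [hcG], lt_min h1pos heG, fun δ b h0 h1 => ?_⟩
    rw [hSS δ b h0 (h1.trans (min_le_left _ _))]
    exact PG δ b h0 (h1.trans (min_le_right _ _))
  have hX3 : ∀ δ, 0 < δ → δ ≤ Z.toSmSys.δ0 → ∀ b ∈ Z.toSmSys.Cl,
      b - Z.toSmSys.S δ (Z.toSmSys.ι b) ∈ Z.toSmSys.Ex := by
    intro δ h0 h1 b hb
    have h2 : δ ≤ δ1 := h1.trans hδ.le
    have hb' : b ∈ M.Cl := by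
      have : b ∈ Z.Cl := hb
      rwa [hCl] at this
    have e1 : Z.toSmSys.S δ (Z.toSmSys.ι b) = M.S0L δ b := by
      rw [← hS]; exact Z.S_ι h0 h1 b
    show _ ∈ Z.Ex
    rw [e1, hEx]
    exact X3 δ h0.le (h2.trans hs.le_z1) b hb'
  have hX2 : ∀ δ, 0 < δ → δ ≤ Z.toSmSys.δ0 → TotallyBounded
      ((fun u => Z.toSmSys.ι (Z.toSmSys.S δ u)) '' Metric.closedBall (0 : Lp E6 2 M.mu) 1) :=
    fun δ h0 h1 => totallyBounded_S M X2 hs Z hι hδ hS h0 (h1.trans hδ.le)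
  refine ⟨{
    μ := M.mu
    μfin := inferInstance
    Om := M.Om
    Y := Z.toSmSys
    meas := fun b hb => Hil.measurable_Om M hb
    ι_eq := fun b => by
      show (Z.ι b : X → E6) =ᵐ[M.mu] _
      rw [hι]; exact Hil.io_ae M b
    st_eq := fun u => by
      show (Z.st u : X → E6) =ᵐ[M.mu] _
      rw [hst]; exact Hil.stH_ae M u
    pm_eq := fun b x => by
      show (Z.pm b : X → L2) x = _
      rw [hpm]; rfl
    pmH_eq := fun u => by
      show (Z.pmH u : X → E6) =ᵐ[M.mu] _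
      rw [hpmH]; exact Hil.pmH_ae M u
    M0 := hM0
    F := M.FOm
    F_eq := fun x => rfl
    c := c
    one_le_c := hc1'
    vol := fun x r hr => (hv x r hr).trans (by gcongr)
    P0 := ?_
    P1 := ?_
    P3 := ?_
    PF := ?_
    pos_dense := fun v h => Hil.pos_detect M v (fun b hb => by
      have := h b hb
      rwa [show Z.toSmSys.ι b = Hil.io M b by rw [← hι]; rfl] at this) }, rfl, fun _ => Iff.rfl, ?_, ?_, ?_, ?_, hX3, hX2⟩
  · intro δ b x h0 h1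
    have h1' : δ ≤ δ1 := h1.trans hδ.le
    rw [hSS δ b h0 h1']
    refine (P0 δ b (hcont b) x h0 (h1'.trans h1e0)).trans ?_
    have := hint b x (mul_le_mul_of_nonneg_right lc0 h0.le)
    have := hint0 b x (c0 * δ)
    gcongr
  · intro δ b x h0 h1
    have h1' : δ ≤ δ1 := h1.trans hδ.le
    rw [hSS δ _ h0 h1']
    have e : ((Z.toSmSys.pm b : M.Om) : X → L2) = fun x => pM J0 ((b : X → L2) x) := by
      show ((Z.pm b : M.Om) : X → L2) = _
      rw [hpm]; rfl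
    rw [e]
    refine (P1 δ b (hcont b) x h0 (h1'.trans h1e1)).trans ?_
    have := hint b x (mul_le_mul_of_nonneg_right lc1 h0.le)
    have := hint0 b x (c1 * δ)
    gcongr
  · intro δ b x h0 h1 hb
    have h1' : δ ≤ δ1 := h1.trans hδ.le
    rw [hSS δ b h0 h1']
    have h2 := P3 δ b x h0 (h1'.trans h1e3) hb
    have h3 : c3 * δ ^ 2 * (δ ^ 4)⁻¹ * ∫ y in ball x (c3 * δ), ‖(b : X → L2) y‖ ∂M.mu ≤
        c * δ ^ 2 * (δ ^ 4)⁻¹ * ∫ y in ball x (c * δ), ‖(b : X → L2) y‖ ∂M.mu := by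
      have := hint b x (mul_le_mul_of_nonneg_right lc3 h0.le)
      have := hint0 b x (c3 * δ)
      gcongr
    have h4 := G7.cone_add h2 (G7.cone_smul (sub_nonneg.2 h3) G7.cone_F0')
    convert h4 using 1
    module
  · intro δ b h0 h1
    have h1' : δ ≤ δ1 := h1.trans hδ.le
    rw [hSS δ b h0 h1']
    refine (PF δ b h0 (h1'.trans h1eF)).trans ?_
    have : 0 ≤ ∫ x, ‖(b : X → L2) x‖ ∂M.mu := integral_nonneg fun y => norm_nonneg _
    gcongr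
  · intro b
    show b ∈ Z.Cl ↔ _
    rw [hCl]; exact Iff.rfl
  · intro b
    show b ∈ Z.Ex ↔ _
    rw [hEx]
    constructor
    · intro h; exact ⟨b, h, rfl⟩
    · rintro ⟨e, he, h⟩
      have : e = b := Subtype.ext h
      rwa [← this]
  · intro m
    refine ⟨1, zero_le_one, fun δ b h0 _ => ?_⟩
    show Z.N m δ b ≤ _
    rw [hN m δ b h0, one_mul]
  · exact hG

end Vale.Agent.P204.GX
end
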