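import Vale.Agent.P204.CV.G5
import Vale.Agent.P204.CV.HInt
import Vale.Agent.P204.CV.X2
import Vale.Agent.P204.CV.X3
import Vale.Agent.P204.CV.X4

set_option linter.all false

/-! P204 class version: the final theorem. -/

open MeasureTheory Set Filter Topology
open scoped ContDiff InnerProductSpace

namespace Vale.Agent.P204.GX
open Vale.Agent.P204.T4 _root_.P204.GX

theorem sysD : SysD := by
  intro X _ _ _ _ _ M
  obtain ⟨Z, h⟩ := sysStatementD_of M (fun C => M.totallyBounded_MM C)
    (fun δ h0 h1 b hb => M.sub_S0L_mem_Ex h0 h1 hb)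
  exact ⟨Z, h⟩

/-- the core statement on `CM` -/
theorem coreExact : CoreExact := coreExact_of sysD

/-- every symplectic form taming `J` is cohomologous to one compatible with `J` if `b₂⁺ = 1` -/
theorem sameClass.{u} : SC.SameClass.{u} := Mfd.sameClass_of coreExact Mfd.hasIntegral

end Vale.Agent.P204.GX
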