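import Vale.Agent.P204.CV.ClsStmt
import Vale.Agent.P204.CV.Final

set_option linter.all false

/-! P204 class version: the statement over a general model space. -/

open scoped Manifold ContDiff Topology
open MeasureTheory

namespace Vale.Agent.P204.Cls

open Vale.Agent.P204.DC

theorem basis_apply (i : Fin 4) :
    (EuclideanSpace.basisFun (Fin 4) ℝ).toBasis i = SC.ei i := by
  rw [OrthonormalBasis.coe_toBasis, EuclideanSpace.basisFun_apply]
  rfl

theorem wedge_eq (A B : SC.E4 [⋀^Fin 2]→L[ℝ] ℝ) :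
    wedge (EuclideanSpace.basisFun (Fin 4) ℝ).toBasis A B = SC.wedge A B := by
  unfold wedge SC.wedge
  simp only [basis_apply]

theorem orient_eq (j : SC.E4 →L[ℝ] SC.E4) :
    orient (EuclideanSpace.basisFun (Fin 4) ℝ).toBasis j = SC.orient j := by
  unfold orient SC.orient
  have h : ∀ v w : SC.E4, (EuclideanSpace.basisFun (Fin 4) ℝ).toBasis.det ![v, j v, w, j w] =
      (Matrix.of ![⇑v, ⇑(j v), ⇑w, ⇑(j w)]).det := by
    intro v w
    rw [Module.Basis.det_apply, ← Matrix.det_transpose]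
    congr 1
    ext i k
    rw [Matrix.transpose_apply, Module.Basis.toMatrix_apply]
    fin_cases i <;> simp
  by_cases H : ∃ v w : SC.E4, 0 < (Matrix.of ![⇑v, ⇑(j v), ⇑w, ⇑(j w)]).det
  · rw [if_pos H, if_pos]
    obtain ⟨v, w, h'⟩ := H
    exact ⟨v, w, by rw [h]; exact h'⟩
  · rw [if_neg H, if_neg]
    rintro ⟨v, w, h'⟩
    exact H ⟨v, w, by rw [← h]; exact h'⟩

theorem sameClass.{u} : SameClass.{u} := by
  intro X _ _ _ _ _ _ J hJ om hom hT
  obtain ⟨h1, h2⟩ := GX.sameClass X J hJ om hom hT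
  have hb : ∀ I, IsIntegral volume (EuclideanSpace.basisFun (Fin 4) ℝ).toBasis J I ↔
      SC.IsIntegral J I := by
    intro I
    constructor
    · intro h
      refine ⟨h.add, fun e he K hK hKc α β hα hβ hs => ?_⟩
      rw [h.chart e he K hK hKc α β hα hβ hs]
      simp only [orient_eq, wedge_eq]
    · intro h
      refine ⟨h.add, fun e he K hK hKc α β hα hβ hs => ?_⟩
      rw [h.chart e he K hK hKc α β hα hβ hs]
      simp only [orient_eq, wedge_eq]
  refine ⟨?_, fun I hI hB => ?_⟩
  · obtain ⟨I, hI⟩ := h1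
    exact ⟨I, (hb I).2 hI⟩
  · exact h2 I ((hb I).1 hI) hB

end Vale.Agent.P204.Cls
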