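import Vale.Agent.P204.CV.DefsG

set_option linter.all false

/-! P204 class version: the core statement on `CM`. -/

open MeasureTheory Set Filter Topology
open scoped ContDiff

namespace Vale.Agent.P204.GX
open Vale.Agent.P204.T4

/-- the class theorem on `CM`, with exactness -/
def CoreExact : Prop := ∀ (X : Type) [MetricSpace X] [CompactSpace X] [MeasurableSpace X]
    [BorelSpace X] [Nonempty X] (M : CM X), M.BOne → ∀ τ : X → L2, M.IsCl τ →
    (∀ x, PosDef J0 (pP J0 (τ x))) →
    ∃ w : X → L2, M.IsCl w ∧ (∀ x, PosDef J0 (w x)) ∧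
      ∃ h : w - τ ∈ M.Om, (⟨w - τ, h⟩ : M.Om) ∈ M.Ex

end Vale.Agent.P204.GX
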