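import Vale.Agent.P204.CV.DefsD

set_option linter.all false

/-! P204 class version, package D1: `exists_EMData3`. -/

open MeasureTheory Set Filter Topology
open scoped ContDiff ENNReal

namespace Vale.Agent.P204.T4.D1

/-- tail integral of a negative power -/
theorem tail {p : ℝ} (hp : p < -1) {a s : ℝ} (ha : 0 ≤ a) (hs : 0 < s) :
    ∫⁻ u in Ioi a, ENNReal.ofReal ((u + s) ^ p) = ENNReal.ofReal ((a + s) ^ (p + 1) / (-(p + 1))) := by
  have hi : IntegrableOn (fun u : ℝ => (u + s) ^ p) (Ioi a) :=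
    integrableOn_add_rpow_Ioi_of_lt hp (by linarith)
  rw [← ofReal_integral_eq_lintegral_ofReal hi]
  · congr 1
    have hd : ∀ x ∈ Ici a, HasDerivAt (fun u : ℝ => (u + s) ^ (p + 1) / (p + 1)) ((x + s) ^ p) x := by
      intro x hx
      have hx' : 0 < x + s := by have : a ≤ x := hx; linarith
      have h1 : HasDerivAt (fun u : ℝ => u + s) 1 x := (hasDerivAt_id x).add_const s
      have h2 := (h1.rpow_const (p := p + 1) (Or.inl hx'.ne')).div_const (p + 1)
      have h3 : p + 1 ≠ 0 := by linarith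
      refine h2.congr_deriv ?_
      rw [add_sub_cancel_right]
      field_simp
    have ht : Tendsto (fun u : ℝ => (u + s) ^ (p + 1) / (p + 1)) atTop (𝓝 (0 / (p + 1))) := by
      apply Tendsto.div_const
      have h4 : Tendsto (fun u : ℝ => u ^ (-(-(p + 1)))) atTop (𝓝 0) :=
        tendsto_rpow_neg_atTop (by linarith)
      rw [neg_neg] at h4
      exact h4.comp (tendsto_atTop_add_const_right _ _ tendsto_id)
    rw [integral_Ioi_of_hasDerivAt_of_tendsto' hd hi ht, zero_div, zero_sub, div_neg]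
  · refine (ae_restrict_iff' measurableSet_Ioi).2 (Eventually.of_forall fun u hu => ?_)
    have : a < u := hu
    exact Real.rpow_nonneg (by linarith) _

/-- layer cake -/
theorem lay {μ : Measure V4} [SFinite μ] (x : V4) {c : ℝ} (hc : 0 ≤ c) (m : ℕ) (hm : (m : ℝ) ≤ 2)
    (h : ∀ u : ℝ, 0 < u → μ {y | ‖y - x‖ ^ 2 < u} ≤ ENNReal.ofReal (c * u ^ m)) {s : ℝ} (hs : 0 < s) :
    ∫⁻ y, ENNReal.ofReal ((‖y - x‖ ^ 2 + s) ^ (-(5 / 2) : ℝ)) ∂μ ≤
      ENNReal.ofReal (5 * c * s ^ ((m : ℝ) - 5 / 2)) := by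
  set g : ℝ → ℝ≥0∞ := fun u => ENNReal.ofReal (5 / 2) * ENNReal.ofReal ((u + s) ^ (-(7 / 2) : ℝ)) with hg
  have hgm : Measurable g := by
    apply Measurable.const_mul
    apply ENNReal.measurable_ofReal.comp
    exact (measurable_id.add_const s).pow_const _
  have e1 : ∀ y : V4, ENNReal.ofReal ((‖y - x‖ ^ 2 + s) ^ (-(5 / 2) : ℝ)) =
      ∫⁻ u in Ioi (0 : ℝ), (Ioi (‖y - x‖ ^ 2)).indicator g u := by
    intro y
    have h0 : 0 ≤ ‖y - x‖ ^ 2 := by positivity
    rw [lintegral_indicator measurableSet_Ioi, Measure.restrict_restrict measurableSet_Ioi]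
    have : Ioi (‖y - x‖ ^ 2) ∩ Ioi 0 = Ioi (‖y - x‖ ^ 2) :=
      inter_eq_left.2 (Ioi_subset_Ioi h0)
    rw [this, hg, lintegral_const_mul' _ _ ENNReal.ofReal_ne_top, tail (by norm_num) h0 hs,
      ← ENNReal.ofReal_mul (by norm_num)]
    congr 1
    norm_num
    ring
  simp only [e1]
  have hmeas : Measurable (Function.uncurry fun (y : V4) (u : ℝ) => (Ioi (‖y - x‖ ^ 2)).indicator g u) := by
    have e2 : (Function.uncurry fun (y : V4) (u : ℝ) => (Ioi (‖y - x‖ ^ 2)).indicator g u) =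
        ({p : V4 × ℝ | ‖p.1 - x‖ ^ 2 < p.2}).indicator (fun p => g p.2) := by
      funext p
      obtain ⟨y, u⟩ := p
      simp only [Function.uncurry_apply_pair, indicator, mem_Ioi, mem_setOf_eq]
    rw [e2]
    refine (hgm.comp measurable_snd).indicator ?_
    exact measurableSet_lt (by fun_prop) measurable_snd
  rw [lintegral_lintegral_swap hmeas.aemeasurable]
  have e3 : ∀ u : ℝ, ∫⁻ y, (Ioi (‖y - x‖ ^ 2)).indicator g u ∂μ = g u * μ {y | ‖y - x‖ ^ 2 < u} := by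
    intro u
    have e4 : (fun y : V4 => (Ioi (‖y - x‖ ^ 2)).indicator g u) =
        ({y : V4 | ‖y - x‖ ^ 2 < u}).indicator (fun _ => g u) := by
      funext y
      simp only [indicator, mem_Ioi, mem_setOf_eq]
    rw [e4, lintegral_indicator_const]
    exact measurableSet_lt (by fun_prop) measurable_const
  simp only [e3]
  have hp : (m : ℝ) - 7 / 2 < -1 := by linarith
  calc ∫⁻ u in Ioi (0 : ℝ), g u * μ {y | ‖y - x‖ ^ 2 < u}
      ≤ ∫⁻ u in Ioi (0 : ℝ), ENNReal.ofReal (5 / 2 * c) * ENNReal.ofReal ((u + s) ^ ((m : ℝ) - 7 / 2)) := by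
        apply setLIntegral_mono' measurableSet_Ioi
        intro u hu
        have hu' : 0 < u := hu
        refine (mul_le_mul_right (h u hu') _).trans ?_
        rw [hg]
        simp only []
        rw [← ENNReal.ofReal_mul (by norm_num), ← ENNReal.ofReal_mul (by positivity),
          ← ENNReal.ofReal_mul (by positivity)]
        apply ENNReal.ofReal_le_ofReal
        have h5 : (u + s) ^ ((m : ℝ) - 7 / 2) = (u + s) ^ (-(7 / 2) : ℝ) * (u + s) ^ m := by
          rw [← Real.rpow_natCast, ← Real.rpow_add (by linarith)]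
          congr 1; ring
        rw [h5]
        have h6 : u ^ m ≤ (u + s) ^ m := pow_le_pow_left₀ hu'.le (by linarith) m
        have h7 : 0 ≤ (u + s) ^ (-(7 / 2) : ℝ) := Real.rpow_nonneg (by linarith) _
        calc 5 / 2 * (u + s) ^ (-(7 / 2) : ℝ) * (c * u ^ m) =
            5 / 2 * c * ((u + s) ^ (-(7 / 2) : ℝ) * u ^ m) := by ring
          _ ≤ 5 / 2 * c * ((u + s) ^ (-(7 / 2) : ℝ) * (u + s) ^ m) := by gcongr
    _ = ENNReal.ofReal (5 / 2 * c) * ENNReal.ofReal ((0 + s) ^ ((m : ℝ) - 7 / 2 + 1) / (-((m : ℝ) - 7 / 2 + 1))) := by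
        rw [lintegral_const_mul' _ _ ENNReal.ofReal_ne_top, tail hp le_rfl hs]
    _ ≤ ENNReal.ofReal (5 * c * s ^ ((m : ℝ) - 5 / 2)) := by
        rw [← ENNReal.ofReal_mul (by positivity)]
        apply ENNReal.ofReal_le_ofReal
        have h8 : (0 + s) ^ ((m : ℝ) - 7 / 2 + 1) = s ^ ((m : ℝ) - 5 / 2) := by
          rw [zero_add]; congr 1; ring
        rw [h8]
        have h9 : 0 ≤ s ^ ((m : ℝ) - 5 / 2) := Real.rpow_nonneg hs.le _
        have h10 : s ^ ((m : ℝ) - 5 / 2) / (-((m : ℝ) - 7 / 2 + 1)) ≤ 2 * s ^ ((m : ℝ) - 5 / 2) := by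
          rw [div_le_iff₀ (by linarith)]
          nlinarith
        calc 5 / 2 * c * (s ^ ((m : ℝ) - 5 / 2) / (-((m : ℝ) - 7 / 2 + 1))) ≤
            5 / 2 * c * (2 * s ^ ((m : ℝ) - 5 / 2)) := by gcongr
          _ = 5 * c * s ^ ((m : ℝ) - 5 / 2) := by ring

/-- the kernel -/
noncomputable def kn (J : V4 → M4) (s : ℝ) (x y : V4) : ℝ :=
  8 * s * EM.th (EM.qd J x y) / (EM.qd J x y + s) ^ 3 * ‖y - x‖

variable {J : V4 → M4} {r : Measure V4} {D : V4 → L2} {s : ℝ}

theorem kn_nonneg (hs : 0 < s) (x y : V4) : 0 ≤ kn J s x y := by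
  have h1 := EM.th_nonneg (EM.qd J x y)
  have h2 := EM.qd_nonneg J x y
  unfold kn
  positivity

theorem kn_far (x y : V4) (h : 1 / 2 < ‖x - y‖) : kn J s x y = 0 := by
  rw [kn, EM.th_zero (EM.qd_far h).le]; simp

theorem cont_kn (hJ : ContDiff ℝ ∞ J) (hs : 0 < s) : Continuous (Function.uncurry (kn J s)) := by
  have h1 : Continuous (fun p : V4 × V4 => EM.qd J p.1 p.2) := (EM.cd_qd hJ).continuous
  have h2 : Continuous (fun p : V4 × V4 => EM.th (EM.qd J p.1 p.2)) := EM.cd_th.continuous.comp h1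
  have h3 : Continuous (fun p : V4 × V4 => 8 * s * EM.th (EM.qd J p.1 p.2) / (EM.qd J p.1 p.2 + s) ^ 3 *
      ‖p.2 - p.1‖) := by
    refine ((continuous_const.mul h2).div ((h1.add continuous_const).pow 3) ?_).mul
      (continuous_snd.sub continuous_fst).norm
    intro p
    exact pow_ne_zero 3 (EM.qd_add_ne J hs p.1 p.2)
  exact h3

theorem kn_le (hs : 0 < s) (x y : V4) :
    kn J s x y ≤ 64 * s * (‖y - x‖ ^ 2 + s) ^ (-(5 / 2) : ℝ) := by
  have h1 := EM.th_nonneg (EM.qd J x y)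
  have h1' := EM.th_le_one (EM.qd J x y)
  have h2 := EM.qd_nonneg J x y
  have h3 := EM.qd_ge J x y
  set w := ‖y - x‖ with hw
  have hw0 : 0 ≤ w := norm_nonneg _
  have hv : 0 < w ^ 2 + s := by positivity
  have h4 : (w ^ 2 + s) / 2 ≤ EM.qd J x y + s := by linarith
  have h5 : ((w ^ 2 + s) / 2) ^ 3 ≤ (EM.qd J x y + s) ^ 3 := pow_le_pow_left₀ (by positivity) h4 3
  have h6 : w ≤ (w ^ 2 + s) ^ ((1 : ℝ) / 2) := by
    rw [← Real.sqrt_eq_rpow]
    apply Real.le_sqrt_of_sq_le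
    linarith
  have h7 : (w ^ 2 + s) ^ (-(5 / 2) : ℝ) = (w ^ 2 + s) ^ ((1 : ℝ) / 2) / (w ^ 2 + s) ^ 3 := by
    rw [← Real.rpow_natCast (w ^ 2 + s) 3, ← Real.rpow_sub hv]
    congr 1; norm_num
  rw [h7]
  have h8 : 0 ≤ (w ^ 2 + s) ^ ((1 : ℝ) / 2) := Real.rpow_nonneg hv.le _
  calc kn J s x y = 8 * s * EM.th (EM.qd J x y) / (EM.qd J x y + s) ^ 3 * w := rfl
    _ ≤ 8 * s * 1 / ((w ^ 2 + s) / 2) ^ 3 * (w ^ 2 + s) ^ ((1 : ℝ) / 2) := by gcongr
    _ = 64 * s * ((w ^ 2 + s) ^ ((1 : ℝ) / 2) / (w ^ 2 + s) ^ 3) := by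
        field_simp
        ring

/-- first bound: integral with respect to `r` -/
theorem int1 [IsLocallyFiniteMeasure r] (hd : Dens2 r) {K : Set V4} (hK : IsCompact K) :
    ∃ C : ℝ, 0 ≤ C ∧ ∀ (J : V4 → M4) (s : ℝ), 0 < s → ∀ x ∈ K,
      ∫⁻ y, ENNReal.ofReal (kn J s x y) ∂r ≤ ENNReal.ofReal (C * s ^ (-(1 / 2) : ℝ)) := by
  obtain ⟨C0, hC0⟩ := hd K hK
  set c := max C0 0 with hc
  have hc0 : 0 ≤ c := le_max_right _ _
  refine ⟨64 * (5 * c), by positivity, fun J s hs x hx => ?_⟩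
  set μ := r.restrict (Metric.closedBall x (1 / 2)) with hμ
  have hball : ∀ ρ : ℝ, 0 < ρ → ρ ≤ 1 → r (Metric.ball x ρ) ≤ ENNReal.ofReal (c * ρ ^ 2) := by
    intro ρ h1 h2
    have h3 : r (Metric.ball x ρ) ≠ ⊤ := by
      have : r (Metric.ball x ρ) ≤ r (Metric.closedBall x ρ) := measure_mono Metric.ball_subset_closedBall
      exact (this.trans_lt (isCompact_closedBall x ρ).measure_lt_top).ne
    rw [← ENNReal.ofReal_toReal h3]
    apply ENNReal.ofReal_le_ofReal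
    refine (hC0 x hx ρ h1 h2).trans ?_
    have := le_max_left C0 0
    gcongr
  have hlay := lay (μ := μ) x hc0 1 (by norm_num) (fun u hu => ?_) hs
  · have e1 : ∫⁻ y, ENNReal.ofReal (kn J s x y) ∂r = ∫⁻ y, ENNReal.ofReal (kn J s x y) ∂μ := by
      rw [hμ, ← lintegral_indicator Metric.isClosed_closedBall.measurableSet]
      congr 1
      funext y
      by_cases hy : y ∈ Metric.closedBall x (1 / 2)
      · rw [indicator_of_mem hy]
      · rw [indicator_of_notMem hy, kn_far x y (EM.not_mem_ball hy), ENNReal.ofReal_zero]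
    rw [e1]
    calc ∫⁻ y, ENNReal.ofReal (kn J s x y) ∂μ
        ≤ ∫⁻ y, ENNReal.ofReal (64 * s) * ENNReal.ofReal ((‖y - x‖ ^ 2 + s) ^ (-(5 / 2) : ℝ)) ∂μ := by
          apply lintegral_mono
          intro y
          show ENNReal.ofReal (kn J s x y) ≤
            ENNReal.ofReal (64 * s) * ENNReal.ofReal ((‖y - x‖ ^ 2 + s) ^ (-(5 / 2) : ℝ))
          rw [← ENNReal.ofReal_mul (by positivity)]
          exact ENNReal.ofReal_le_ofReal (kn_le hs x y)
      _ = ENNReal.ofReal (64 * s) * ∫⁻ y, ENNReal.ofReal ((‖y - x‖ ^ 2 + s) ^ (-(5 / 2) : ℝ)) ∂μ :=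
          lintegral_const_mul' _ _ ENNReal.ofReal_ne_top
      _ ≤ ENNReal.ofReal (64 * s) * ENNReal.ofReal (5 * c * s ^ (((1 : ℕ) : ℝ) - 5 / 2)) := by gcongr
      _ = ENNReal.ofReal (64 * (5 * c) * s ^ (-(1 / 2) : ℝ)) := by
          rw [← ENNReal.ofReal_mul (by positivity)]
          congr 1
          have : s ^ (-(1 / 2) : ℝ) = s * s ^ (((1 : ℕ) : ℝ) - 5 / 2) := by
            nth_rewrite 2 [← Real.rpow_one s]
            rw [← Real.rpow_add hs]
            congr 1; norm_num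
          rw [this]; ring
  · rw [pow_one, hμ, Measure.restrict_apply (measurableSet_lt (by fun_prop) measurable_const)]
    by_cases hu1 : u ≤ 1
    · have h1 : {y | ‖y - x‖ ^ 2 < u} ∩ Metric.closedBall x (1 / 2) ⊆ Metric.ball x (Real.sqrt u) := by
        intro y hy
        rw [Metric.mem_ball, dist_eq_norm]
        exact Real.lt_sqrt_of_sq_lt hy.1
      refine (measure_mono h1).trans ((hball _ (Real.sqrt_pos.2 hu) (Real.sqrt_le_one.2 hu1)).trans ?_)
      rw [Real.sq_sqrt hu.le]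
    · push Not at hu1
      have h1 : {y | ‖y - x‖ ^ 2 < u} ∩ Metric.closedBall x (1 / 2) ⊆ Metric.ball x 1 := by
        intro y hy
        have := hy.2
        rw [Metric.mem_closedBall] at this
        rw [Metric.mem_ball]; linarith
      refine (measure_mono h1).trans ((hball _ one_pos le_rfl).trans ?_)
      apply ENNReal.ofReal_le_ofReal
      rw [one_pow]
      gcongr

/-- second bound: Lebesgue integral in `x` -/
theorem int2 : ∃ C : ℝ, 0 ≤ C ∧ ∀ (J : V4 → M4) (s : ℝ), 0 < s → ∀ y : V4,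
      ∫⁻ x, ENNReal.ofReal (kn J s x y) ≤ ENNReal.ofReal (C * s ^ ((1 / 2) : ℝ)) := by
  refine ⟨64 * (5 * 16), by positivity, fun J s hs y => ?_⟩
  have hlay := lay (μ := (volume : Measure V4)) y (c := 16) (by norm_num) 2 (by norm_num) (fun u hu => ?_) hs
  · calc ∫⁻ x, ENNReal.ofReal (kn J s x y)
        ≤ ∫⁻ x, ENNReal.ofReal (64 * s) * ENNReal.ofReal ((‖x - y‖ ^ 2 + s) ^ (-(5 / 2) : ℝ)) := by
          apply lintegral_mono
          intro x
          show ENNReal.ofReal (kn J s x y) ≤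
            ENNReal.ofReal (64 * s) * ENNReal.ofReal ((‖x - y‖ ^ 2 + s) ^ (-(5 / 2) : ℝ))
          rw [← ENNReal.ofReal_mul (by positivity)]
          have := kn_le (J := J) hs x y
          rw [norm_sub_rev y x] at this
          exact ENNReal.ofReal_le_ofReal this
      _ = ENNReal.ofReal (64 * s) * ∫⁻ x, ENNReal.ofReal ((‖x - y‖ ^ 2 + s) ^ (-(5 / 2) : ℝ)) :=
          lintegral_const_mul' _ _ ENNReal.ofReal_ne_top
      _ ≤ ENNReal.ofReal (64 * s) * ENNReal.ofReal (5 * 16 * s ^ (((2 : ℕ) : ℝ) - 5 / 2)) := by gcongr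
      _ = ENNReal.ofReal (64 * (5 * 16) * s ^ ((1 / 2) : ℝ)) := by
          rw [← ENNReal.ofReal_mul (by positivity)]
          congr 1
          have : s ^ ((1 / 2) : ℝ) = s * s ^ (((2 : ℕ) : ℝ) - 5 / 2) := by
            nth_rewrite 2 [← Real.rpow_one s]
            rw [← Real.rpow_add hs]
            congr 1; norm_num
          rw [this]; ring
  · have h1 : {z : V4 | ‖z - y‖ ^ 2 < u} ⊆ Metric.ball y (Real.sqrt u) := by
      intro z hz
      rw [Metric.mem_ball, dist_eq_norm]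
      exact Real.lt_sqrt_of_sq_lt hz
    refine (measure_mono h1).trans ?_
    rw [Real.volume_pi_ball _ (Real.sqrt_pos.2 hu)]
    apply ENNReal.ofReal_le_ofReal
    have h2 : (2 * Real.sqrt u) ^ Fintype.card (Fin 4) = 16 * (Real.sqrt u ^ 2) ^ 2 := by
      rw [Fintype.card_fin]; ring
    rw [h2, Real.sq_sqrt hu.le]

/-- the function `G` -/
noncomputable def Gf (J : V4 → M4) (r : Measure V4) (s : ℝ) (x : V4) : ℝ := ∫ y, kn J s x y ∂r

theorem Gf_nonneg (hs : 0 < s) (x : V4) : 0 ≤ Gf J r s x := integral_nonneg fun y => kn_nonneg hs x y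

theorem cont_kn_y (hJ : ContDiff ℝ ∞ J) (hs : 0 < s) (x : V4) : Continuous (kn J s x) := by
  have h1 : kn J s x = Function.uncurry (kn J s) ∘ (fun y => (x, y)) := rfl
  rw [h1]
  exact (cont_kn hJ hs).comp (Continuous.prodMk_right x)

theorem int_kn (hJ : ContDiff ℝ ∞ J) (hs : 0 < s) [IsLocallyFiniteMeasure r] (x : V4) :
    Integrable (kn J s x) r := by
  refine (cont_kn_y hJ hs x).integrable_of_hasCompactSupport ?_
  exact HasCompactSupport.intro (isCompact_closedBall x (1 / 2)) fun y hy => kn_far x y (EM.not_mem_ball hy)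

theorem ofReal_Gf (hJ : ContDiff ℝ ∞ J) (hs : 0 < s) [IsLocallyFiniteMeasure r] (x : V4) :
    ENNReal.ofReal (Gf J r s x) = ∫⁻ y, ENNReal.ofReal (kn J s x y) ∂r :=
  ofReal_integral_eq_lintegral_ofReal (int_kn hJ hs x) (Eventually.of_forall fun y => kn_nonneg hs x y)

theorem Gf_meas (hJ : ContDiff ℝ ∞ J) (hs : 0 < s) [IsLocallyFiniteMeasure r] : Measurable (Gf J r s) := by
  have h := (cont_kn (s := s) hJ hs).stronglyMeasurable
  exact (StronglyMeasurable.integral_prod_right (ν := r) h).measurable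

theorem G_L2 (hJ : ContDiff ℝ ∞ J) [IsLocallyFiniteMeasure r] (hd : Dens2 r) {K : Set V4} (hK : IsCompact K) :
    ∃ C : ℝ, ∀ s, 0 < s → s ≤ 1 →
    IntegrableOn (fun x => Gf J r s x ^ 2) K ∧ ∫ x in K, Gf J r s x ^ 2 ≤ C := by
  obtain ⟨C1, hC1, h1⟩ := int1 hd hK
  obtain ⟨C2, hC2, h2⟩ := int2
  set R := (r (Metric.cthickening (1 / 2) K)).toReal with hR
  have hR0 : 0 ≤ R := ENNReal.toReal_nonneg
  refine ⟨C1 * (C2 * R), fun s hs hs1 => ?_⟩
  have hp0 : 0 ≤ s ^ (-(1 / 2) : ℝ) := Real.rpow_nonneg hs.le _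
  have hp1 : 0 ≤ s ^ ((1 / 2) : ℝ) := Real.rpow_nonneg hs.le _
  have hpp : s ^ (-(1 / 2) : ℝ) * s ^ ((1 / 2) : ℝ) = 1 := by
    rw [← Real.rpow_add hs]; norm_num
  have hm := Gf_meas (r := r) hJ hs
  -- pointwise bound
  have h3 : ∀ x ∈ K, Gf J r s x ≤ C1 * s ^ (-(1 / 2) : ℝ) := by
    intro x hx
    have := h1 J s hs x hx
    rw [← ofReal_Gf hJ hs x] at this
    exact (ENNReal.ofReal_le_ofReal_iff (by positivity)).1 this
  -- integral bound
  have h4 : ∫⁻ x in K, ENNReal.ofReal (Gf J r s x) ≤ ENNReal.ofReal (C2 * R * s ^ ((1 / 2) : ℝ)) := by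
    simp only [ofReal_Gf hJ hs]
    have hmm : Measurable (Function.uncurry fun (x y : V4) => ENNReal.ofReal (kn J s x y)) :=
      ENNReal.measurable_ofReal.comp (cont_kn hJ hs).measurable
    rw [lintegral_lintegral_swap hmm.aemeasurable]
    have hK' : MeasurableSet (Metric.cthickening (1 / 2) K) := Metric.isClosed_cthickening.measurableSet
    have hfin : r (Metric.cthickening (1 / 2) K) ≠ ⊤ := hK.cthickening.measure_lt_top.ne
    calc ∫⁻ y, (∫⁻ x in K, ENNReal.ofReal (kn J s x y)) ∂r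
        ≤ ∫⁻ y, (Metric.cthickening (1 / 2) K).indicator (fun _ => ENNReal.ofReal (C2 * s ^ ((1 / 2) : ℝ))) y ∂r := by
          apply lintegral_mono
          intro y
          by_cases hy : y ∈ Metric.cthickening (1 / 2) K
          · rw [indicator_of_mem hy]
            exact (setLIntegral_le_lintegral _ _).trans (h2 J s hs y)
          · rw [indicator_of_notMem hy]
            rw [nonpos_iff_eq_zero]
            show ∫⁻ x in K, ENNReal.ofReal (kn J s x y) = 0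
            rw [setLIntegral_congr_fun (g := fun _ => 0) hK.measurableSet, lintegral_zero]
            intro x hx
            have h5 : 1 / 2 < ‖x - y‖ := by
              by_contra hc
              push Not at hc
              apply hy
              apply Metric.closedBall_subset_cthickening hx
              rw [Metric.mem_closedBall, dist_eq_norm, norm_sub_rev]; exact hc
            show ENNReal.ofReal (kn J s x y) = 0
            rw [kn_far x y h5, ENNReal.ofReal_zero]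
      _ = ENNReal.ofReal (C2 * s ^ ((1 / 2) : ℝ)) * r (Metric.cthickening (1 / 2) K) :=
          lintegral_indicator_const hK' _
      _ = ENNReal.ofReal (C2 * R * s ^ ((1 / 2) : ℝ)) := by
          rw [← ENNReal.ofReal_toReal hfin, ← ENNReal.ofReal_mul (by positivity), ← hR]
          congr 1; ring
  have h6 : ∫⁻ x in K, ENNReal.ofReal (Gf J r s x ^ 2) ≤ ENNReal.ofReal (C1 * (C2 * R)) := by
    calc ∫⁻ x in K, ENNReal.ofReal (Gf J r s x ^ 2)
        ≤ ∫⁻ x in K, ENNReal.ofReal (C1 * s ^ (-(1 / 2) : ℝ)) * ENNReal.ofReal (Gf J r s x) := by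
          apply setLIntegral_mono' hK.measurableSet
          intro x hx
          rw [← ENNReal.ofReal_mul (by positivity)]
          apply ENNReal.ofReal_le_ofReal
          rw [pow_two]
          exact mul_le_mul_of_nonneg_right (h3 x hx) (Gf_nonneg hs x)
      _ = ENNReal.ofReal (C1 * s ^ (-(1 / 2) : ℝ)) * ∫⁻ x in K, ENNReal.ofReal (Gf J r s x) :=
          lintegral_const_mul' _ _ ENNReal.ofReal_ne_top
      _ ≤ ENNReal.ofReal (C1 * s ^ (-(1 / 2) : ℝ)) * ENNReal.ofReal (C2 * R * s ^ ((1 / 2) : ℝ)) := by gcongr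
      _ = ENNReal.ofReal (C1 * (C2 * R)) := by
          rw [← ENNReal.ofReal_mul (by positivity)]
          congr 1
          calc C1 * s ^ (-(1 / 2) : ℝ) * (C2 * R * s ^ ((1 / 2) : ℝ)) =
              C1 * (C2 * R) * (s ^ (-(1 / 2) : ℝ) * s ^ ((1 / 2) : ℝ)) := by ring
            _ = C1 * (C2 * R) := by rw [hpp, mul_one]
  have hint : IntegrableOn (fun x => Gf J r s x ^ 2) K := by
    refine ⟨(hm.pow_const 2).aestronglyMeasurable, ?_⟩
    rw [hasFiniteIntegral_iff_ofReal (Eventually.of_forall fun x => sq_nonneg _)]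
    exact h6.trans_lt ENNReal.ofReal_lt_top
  refine ⟨hint, ?_⟩
  have h7 := ofReal_integral_eq_lintegral_ofReal hint (Eventually.of_forall fun x => sq_nonneg _)
  rw [← h7] at h6
  exact (ENNReal.ofReal_le_ofReal_iff (by positivity)).1 h6

/-- the anti-invariant part of the main kernel is `O(|y - x|)` -/
theorem exists_pM (hJ : ContDiff ℝ ∞ J) (hpos : ∀ y, Pos (J y)) {K : Set V4} {C : ℝ} (h : EM.UB J K C) :
    ∃ C3, 0 ≤ C3 ∧ ∀ x ∈ K, ∀ y, ‖y - x‖ ≤ 1 / 2 → ∀ D : L2, Cone (J y) D → ‖D‖ ≤ 1 →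
      ‖pM (J x) (pull (EM.Nm J x y) D)‖ ≤ C3 * ‖y - x‖ := by
  have hC1 := h.one_le
  have hI : ‖EM.I4‖ ≤ 1 := by
    apply EM.norm_M4_le zero_le_one
    intro i j
    simp only [EM.I4]
    split_ifs <;> simp only [abs_one, Std.le_refl, abs_zero, zero_le_one]
  set C2 : ℝ := 16 * (2 + 2 * C) * (4 * C) with hC2
  have hB : ∀ x ∈ K, ∀ y, ‖y - x‖ ≤ 1 / 2 → ∀ D : L2, ‖D‖ ≤ 1 →
      ‖pull (EM.Nm J x y) D - D‖ ≤ C2 * ‖y - x‖ := by
    intro x hx y hy D hD
    have h1 := EM.Nm_sub_le h hx y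
    have h2 := EM.pull_sub_le (EM.Nm J x y) EM.I4 D
    rw [EM.pull_I4] at h2
    have h3 : ‖EM.Nm J x y‖ ≤ 1 + 2 * C := by
      have : ‖EM.Nm J x y‖ ≤ ‖EM.Nm J x y - EM.I4‖ + ‖EM.I4‖ := by
        simpa only [sub_add_cancel] using norm_add_le (EM.Nm J x y - EM.I4) EM.I4
      have : 4 * C * ‖y - x‖ ≤ 4 * C * (1 / 2) := by gcongr
      linarith
    calc ‖pull (EM.Nm J x y) D - D‖ ≤ 16 * ‖D‖ * (‖EM.Nm J x y‖ + ‖EM.I4‖) * ‖EM.Nm J x y - EM.I4‖ := h2
      _ ≤ 16 * 1 * ((1 + 2 * C) + 1) * (4 * C * ‖y - x‖) := by gcongr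
      _ = C2 * ‖y - x‖ := by rw [hC2]; ring
  have hC2' : 0 ≤ C2 := by positivity
  set C3 : ℝ := 16 * C * C + (1 + 16 * C * C) * C2 with hC3
  refine ⟨C3, by positivity, ?_⟩
  intro x hx y hy D hcD hD
  have h1 := hB x hx y hy D hD
  have e1 : pull (EM.Nm J x y) D = D + (pull (EM.Nm J x y) D - D) := by abel
  have e2 : pM (J x) D = (1 / 2 : ℝ) • (pull (J y) D - pull (J x) D) := by
    unfold pM; rw [hcD.1]
  have h2 : ‖pM (J x) D‖ ≤ 16 * C * C * ‖y - x‖ := by
    rw [e2, norm_smul]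
    have a1 := EM.pull_sub_le (J y) (J x) D
    have a2 := h.Jx x hx y hy
    have a3 := h.Jx x hx x (by simp only [sub_self, norm_zero, one_div, inv_nonneg, Nat.ofNat_nonneg])
    have a4 := h.lipJ x hx y hy
    have a5 : ‖(1 / 2 : ℝ)‖ = 1 / 2 := by norm_num
    rw [a5]
    have : 16 * ‖D‖ * (‖J y‖ + ‖J x‖) * ‖J y - J x‖ ≤ 16 * 1 * (C + C) * (C * ‖y - x‖) := by gcongr
    linarith only [a1, this]
  have h3 : ‖pM (J x) (pull (EM.Nm J x y) D - D)‖ ≤ (1 + 16 * C * C) * (C2 * ‖y - x‖) := by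
    refine (EM.pM_le _ _).trans ?_
    have a3 := h.Jx x hx x (by simp only [sub_self, norm_zero, one_div, inv_nonneg, Nat.ofNat_nonneg])
    gcongr
  rw [e1, EM.pM_add']
  refine (norm_add_le _ _).trans ?_
  have e3 : pM (J x) (D + (pull (EM.Nm J x y) D - D) - D) = pM (J x) (pull (EM.Nm J x y) D - D) := by
    congr 1; abel
  calc ‖pM (J x) D‖ + ‖pM (J x) (pull (EM.Nm J x y) D - D)‖
      ≤ 16 * C * C * ‖y - x‖ + (1 + 16 * C * C) * (C2 * ‖y - x‖) := add_le_add h2 h3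
    _ = C3 * ‖y - x‖ := by rw [hC3]; ring

theorem Q_anti_eq {J : M4} (hJ : IsCx J) (hpos : Pos J) {A : L2} (hA : pull J A = -A) (B : L2) :
    Q A B = Q A (pM J B) := by
  conv_lhs => rw [← pP_add_pM J B, Q_add_right]
  rw [Q_comm A (pP J B), Q_inv_anti hJ hpos (pull_pP hJ B) hA, zero_add]

/-- pointwise bound of the main kernel against anti-invariant forms -/
theorem exists_main_anti (hJ : ContDiff ℝ ∞ J) (hcx : ∀ y, IsCx (J y)) (hpos : ∀ y, Pos (J y))
    (h : LCur J r D) {K : Set V4} (hK : IsCompact K) : ∃ C : ℝ, 0 ≤ C ∧ ∀ s, 0 < s → ∀ x ∈ K, ∀ A,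
    pull (J x) A = -A → ∀ y,
      |Q A (ofEnt fun l j => Q (D y) (EM.mainK J s l j x y))| ≤ C * ‖A‖ * (EM.ms J s x y + kn J s x y) := by
  obtain ⟨C, hU⟩ := EM.exists_UB hJ hpos hK
  obtain ⟨C1, hC1, hph⟩ := EM.exists_ph_ms
  obtain ⟨Cs, hCs, hsc⟩ := EM.exists_scalar
  obtain ⟨Cg, hCg, hgain⟩ := exists_pM hJ hpos hU
  have hC := hU.one_le
  set C3 : ℝ := 16 * (1 + 2 * C) * (1 + 2 * C) with hC3
  set C4 : ℝ := 16 * (8 * C + 32 * C * C) with hC4
  refine ⟨6 * Cg + Cs * 6 * C3 + 6 * C4 * C1, by (clear * - hCg hCs hC hC1; positivity), fun s hs x hx A hA y => ?_⟩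
  have hA0 := norm_nonneg A
  have hkn := kn_nonneg (J := J) hs x y
  have hms0 := EM.ms_nonneg (J := J) hs x y
  by_cases hy : ‖y - x‖ ≤ 1 / 2
  · have hD := h.norm_le hcx hpos y
    have e1 : (ofEnt fun l j => Q (D y) (EM.mainK J s l j x y)) =
        (EM.kap (EM.ph s) (EM.ph1 s) (EM.qd J x y)) • pull (EM.Nm J x y) (D y) +
        (EM.ph s (EM.qd J x y)) • ofEnt (fun l j => ev (D y) (y - x) (EM.Rc J l j x (y - x))) := by
      rw [EM.pull_Nm, ← EM.ofEnt_smul, ← EM.ofEnt_smul, ← EM.ofEnt_add]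
      refine EM.ofEnt_congr fun l j => ?_
      rw [EM.mainK, Q_add_right, Q_smul_right, Q_smul_right, EM.Q_sw, EM.Q_sw]
    rw [e1, Q_add_right, Q_smul_right, Q_smul_right]
    have hg := hgain x hx y hy (D y) (h.cone y) hD
    set P := pull (EM.Nm J x y) (D y) with hP
    have hkneq : kn J s x y = 8 * s * EM.th (EM.qd J x y) / (EM.qd J x y + s) ^ 3 * ‖y - x‖ := rfl
    set t := EM.qd J x y with ht
    have ht0 : 0 ≤ t := EM.qd_nonneg J x y
    have hPn : ‖P‖ ≤ C3 := by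
      have a1 := EM.pull_le (EM.Nm J x y) (D y)
      have a2 := EM.Nm_sub_le hU hx y
      have hI : ‖EM.I4‖ ≤ 1 := by
        apply EM.norm_M4_le zero_le_one
        intro i j
        simp only [EM.I4]
        split_ifs <;> simp
      have a3 : ‖EM.Nm J x y‖ ≤ 1 + 2 * C := by
        have : ‖EM.Nm J x y‖ ≤ ‖EM.Nm J x y - EM.I4‖ + ‖EM.I4‖ := by
          simpa only [sub_add_cancel] using norm_add_le (EM.Nm J x y - EM.I4) EM.I4
        nlinarith only [hy, a2, hI, this, hC]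
      calc ‖P‖ ≤ 16 * ‖D y‖ * ‖EM.Nm J x y‖ * ‖EM.Nm J x y‖ := a1
        _ ≤ 16 * 1 * (1 + 2 * C) * (1 + 2 * C) := by gcongr
        _ = C3 := by rw [hC3]; ring
    have hQ : |Q A P| ≤ 6 * ‖A‖ * (Cg * ‖y - x‖) := by
      rw [Q_anti_eq (hcx x) (hpos x) hA P]
      exact (abs_Q_le _ _).trans (by gcongr)
    -- third term
    have h3 : |EM.ph s t * Q A (ofEnt fun l j => ev (D y) (y - x) (EM.Rc J l j x (y - x)))| ≤
        6 * C4 * C1 * ‖A‖ * EM.ms J s x y := by
      rw [abs_mul]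
      have b1 : ‖ofEnt fun l j => ev (D y) (y - x) (EM.Rc J l j x (y - x))‖ ≤ C4 * ‖y - x‖ ^ 2 := by
        apply EM.norm_ofEnt_le (by (clear * - hC; positivity))
        intro l j
        refine (EM.abs_ev_le _ _ _).trans ?_
        have b2 := EM.Rc_le hU hx l j (y - x)
        calc 16 * ‖D y‖ * ‖y - x‖ * ‖EM.Rc J l j x (y - x)‖ ≤
            16 * 1 * ‖y - x‖ * ((8 * C + 32 * C * C) * ‖y - x‖) := by gcongr
          _ = C4 * ‖y - x‖ ^ 2 := by rw [hC4]; ring
      have b3 := hph J s x y hs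
      calc |EM.ph s t| * |Q A (ofEnt fun l j => ev (D y) (y - x) (EM.Rc J l j x (y - x)))|
          ≤ |EM.ph s t| * (6 * ‖A‖ * (C4 * ‖y - x‖ ^ 2)) :=
            mul_le_mul_of_nonneg_left ((abs_Q_le _ _).trans (by gcongr)) (abs_nonneg _)
        _ = 6 * C4 * ‖A‖ * (|EM.ph s t| * ‖y - x‖ ^ 2) := by ring
        _ ≤ 6 * C4 * ‖A‖ * (C1 * EM.ms J s x y) := by gcongr
        _ = 6 * C4 * C1 * ‖A‖ * EM.ms J s x y := by ring
    have hms : EM.ms J s x y = 1 + EM.fk s t := by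
      rw [EM.ms, Set.indicator_of_mem]
      rw [Metric.mem_closedBall, dist_eq_norm]; exact hy
    have hf := EM.fk_nonneg hs ht0
    -- first two terms
    have h12 : |EM.kap (EM.ph s) (EM.ph1 s) t * Q A P| ≤
        6 * Cg * ‖A‖ * kn J s x y + Cs * 6 * C3 * ‖A‖ * EM.ms J s x y := by
      by_cases h8 : t ≤ 1 / 8
      · obtain ⟨c1, c2, c3⟩ := hsc s t hs ht0 h8
        set k0 := 8 * s * EM.th t / (t + s) ^ 3 with hk0
        have hk0p : 0 ≤ k0 := by have := EM.th_nonneg t; (clear * - hs this ht0; positivity)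
        have d1 : |k0 * Q A P| ≤ 6 * Cg * ‖A‖ * kn J s x y := by
          rw [abs_mul, abs_of_nonneg hk0p]
          calc k0 * |Q A P| ≤ k0 * (6 * ‖A‖ * (Cg * ‖y - x‖)) := by gcongr
            _ = 6 * Cg * ‖A‖ * kn J s x y := by rw [hkneq]; ring
        have d6 : |(EM.kap (EM.ph s) (EM.ph1 s) t - k0) * Q A P| ≤ Cs * (6 * ‖A‖ * C3) := by
          rw [abs_mul]
          exact mul_le_mul c2 ((abs_Q_le _ _).trans (by gcongr)) (abs_nonneg _) (by linarith only [hCs])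
        have d8 : EM.kap (EM.ph s) (EM.ph1 s) t * Q A P =
            k0 * Q A P + (EM.kap (EM.ph s) (EM.ph1 s) t - k0) * Q A P := by ring
        rw [d8]
        refine (abs_add_le _ _).trans (add_le_add d1 (d6.trans ?_))
        rw [hms]
        have d10 : 0 ≤ Cs * 6 * C3 * ‖A‖ * EM.fk s t := by positivity
        linarith only [d10]
      · push Not at h8
        have : EM.kap (EM.ph s) (EM.ph1 s) t = 0 := by
          rw [EM.kap, EM.ph_zero h8, EM.ph1_zero h8]; ring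
        rw [this, zero_mul, abs_zero]
        positivity
    refine (abs_add_le _ _).trans ((add_le_add h12 h3).trans ?_)
    have q1 : 0 ≤ 6 * Cg * ‖A‖ * EM.ms J s x y := by positivity
    have q2 : 0 ≤ (Cs * 6 * C3 + 6 * C4 * C1) * ‖A‖ * kn J s x y := by positivity
    nlinarith only [q1, q2]
  · push Not at hy
    have e1 : (ofEnt fun l j => Q (D y) (EM.mainK J s l j x y)) = 0 := by
      have : (fun l j => Q (D y) (EM.mainK J s l j x y)) = fun _ _ => 0 := by
        funext l j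
        rw [EM.mainK_zero l j (by rwa [norm_sub_rev])]; simp [Q]
      rw [this]
      funext i; fin_cases i <;> rfl
    rw [e1]
    have h2 : Q A 0 = 0 := by simp [Q]
    rw [h2, abs_zero]
    (clear * - hCg hCs hC hC1 hkn hms0 hA0; positivity)

theorem P3 (hJ : ContDiff ℝ ∞ J) (hcx : ∀ y, IsCx (J y)) (hpos : ∀ y, Pos (J y))
    (h : LCur J r D) {K : Set V4} (hK : IsCompact K) : ∃ C : ℝ, 0 ≤ C ∧ ∀ s, 0 < s → s ≤ 1 → ∀ x ∈ K, ∀ A : L2,
    pull (J x) A = -A →
    |Q A (d1 (EM.bp J r D s) x) - Q A (wd (fun l => EM.tr4 (EM.Ga J l x)) (EM.bp J r D s x))| ≤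
      C * ‖A‖ * (1 + EM.Vp J r s x + Gf J r s x) := by
  haveI := h.fin
  obtain ⟨C, hC, hmain⟩ := exists_main_anti hJ hcx hpos h hK
  set R := (r (Metric.cthickening (1 / 2) K)).toReal with hR
  have hR0 : 0 ≤ R := ENNReal.toReal_nonneg
  refine ⟨C * (1 + R), by positivity, fun s hs hs1 x hx A hA => ?_⟩
  have hD := h.li hcx hpos
  have hM : ∀ l j, Integrable (fun y => Q (D y) (EM.mainK J s l j x y)) r := fun l j =>
    EM.integrable_pi hD (EM.cont_mainK hJ hcx hpos hs l j x) (isCompact_closedBall x (1 / 2))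
      fun y hy => EM.mainK_zero l j (EM.not_mem_ball hy)
  rw [EM.d1_bp hJ hcx hpos hs h x, Q_add_right, add_sub_cancel_right,
    EM.integral_Q_ofEnt A (M := fun y l j => Q (D y) (EM.mainK J s l j x y)) hM]
  have hi : Integrable (fun y => C * ‖A‖ * (EM.ms J s x y + kn J s x y)) r :=
    ((EM.int_ms hJ hs x).add (int_kn hJ hs x)).const_mul _
  have h1 : |∫ y, Q A (ofEnt fun l j => Q (D y) (EM.mainK J s l j x y)) ∂r| ≤
      ∫ y, C * ‖A‖ * (EM.ms J s x y + kn J s x y) ∂r :=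
    (Real.norm_eq_abs _).symm.le.trans
      (norm_integral_le_of_norm_le hi (Eventually.of_forall fun y => by
        rw [Real.norm_eq_abs]; exact hmain s hs x hx A hA y))
  rw [integral_const_mul, integral_add (EM.int_ms hJ hs x) (int_kn hJ hs x)] at h1
  have h2 := EM.integral_ms_le (r := r) hJ hs hK hx
  have h3 := Gf_nonneg (J := J) (r := r) hs x
  have hA0 := norm_nonneg A
  refine h1.trans ?_
  have h4 : ∫ y, EM.ms J s x y ∂r + ∫ y, kn J s x y ∂r ≤ (1 + R) * (1 + EM.Vp J r s x + Gf J r s x) := by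
    have : ∫ y, kn J s x y ∂r = Gf J r s x := rfl
    rw [this]
    nlinarith only [h2, h3, hR0, mul_nonneg hR0 h3]
  calc C * ‖A‖ * (∫ y, EM.ms J s x y ∂r + ∫ y, kn J s x y ∂r)
      ≤ C * ‖A‖ * ((1 + R) * (1 + EM.Vp J r s x + Gf J r s x)) := by gcongr
    _ = C * (1 + R) * ‖A‖ * (1 + EM.Vp J r s x + Gf J r s x) := by ring

end Vale.Agent.P204.T4.D1

namespace Vale.Agent.P204.T4

/-- D1 -/
theorem exists_EMData3 {J : V4 → M4} (hJ : ContDiff ℝ ∞ J) (hcx : ∀ y, IsCx (J y))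
    (hpos : ∀ y, Pos (J y)) {r : Measure V4} {D : V4 → L2} (h : LCur J r D) (hd : Dens2 r) :
    Nonempty (EMData3 J r) := by
  haveI := h.fin
  refine ⟨{
    V := EM.Vp J r
    b := EM.bp J r D
    ρ := fun x => 2 / Q (Fm (J x)) (Fm (J x))
    τ := fun x l => EM.tr4 (EM.Ga J l x)
    V_smooth := fun s hs => EM.Vp_smooth hJ hs
    b_smooth := fun s hs => EM.bp_smooth hJ hpos hs (h.li hcx hpos)
    ρ_cont := continuous_const.div (EM.cd_Q (EM.cd_Fm hJ) (EM.cd_Fm hJ)).continuous fun x => ne_of_gt (hpos x)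
    ρ_pos := fun x => div_pos two_pos (hpos x)
    τ_cont := ?_
    V_nonneg := fun s x hs => EM.Vp_nonneg hs x
    V_mono := fun s s' x hs hss => EM.Vp_mono hJ hs hss x
    V_lim := fun x => ⟨fun hx => ⟨_, fun s hs => EM.Vp_le_of_pot hJ x hx hs⟩,
      fun ⟨C, hC⟩ => EM.pot_of_Vp hJ x hC⟩
    P1 := fun K hK => EM.P1 hJ hcx hpos h hK
    P2 := fun K hK => EM.P2 hJ hcx hpos h hK
    G := D1.Gf J r
    G_meas := fun s hs => D1.Gf_meas hJ hs
    G_nonneg := fun s x hs => D1.Gf_nonneg hs x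
    P3 := fun K hK => D1.P3 hJ hcx hpos h hK
    G_L2 := fun K hK => D1.G_L2 hJ hd hK }⟩
  refine continuous_pi fun l => ?_
  have hc := EM.cd_Ga hJ hpos l
  exact ((((EM.cd_comp2 hc 0 0).add (EM.cd_comp2 hc 1 1)).add (EM.cd_comp2 hc 2 2)).add
    (EM.cd_comp2 hc 3 3)).continuous

end Vale.Agent.P204.T4
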