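import Vale.Agent.P204.Bdl.B5

set_option linter.all false

/-! P204 class version: definitions of the local part. -/

open MeasureTheory Set Filter Topology
open scoped ContDiff InnerProductSpace

namespace Vale.Agent.P204.T4

/-- potentials with the anti-invariant estimate -/
structure EMData3 (J : V4 → M4) (r : Measure V4) extends EMData J r where
  G : ℝ → V4 → ℝ
  G_meas : ∀ s, 0 < s → Measurable (G s)
  G_nonneg : ∀ s x, 0 < s → 0 ≤ G s x
  P3 : ∀ K : Set V4, IsCompact K → ∃ C : ℝ, 0 ≤ C ∧ ∀ s, 0 < s → s ≤ 1 → ∀ x ∈ K, ∀ A : L2,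
    pull (J x) A = -A →
    |Q A (d1 (b s) x) - Q A (wd (τ x) (b s x))| ≤ C * ‖A‖ * (1 + V s x + G s x)
  G_L2 : ∀ K : Set V4, IsCompact K → ∃ C : ℝ, ∀ s, 0 < s → s ≤ 1 →
    IntegrableOn (fun x => G s x ^ 2) K ∧ ∫ x in K, G s x ^ 2 ≤ C

/-- bounded two-dimensional density -/
def Dens2 (r : Measure V4) : Prop :=
  ∀ K : Set V4, IsCompact K → ∃ C : ℝ, ∀ x ∈ K, ∀ ρ, 0 < ρ → ρ ≤ 1 →
    (r (Metric.ball x ρ)).toReal ≤ C * ρ ^ 2

/-- A positive current `(r', D')` of order zero and an anti-invariant locally square integrable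
form `f` with closed sum. -/
structure LCurF (J : V4 → M4) (r : Measure V4) (D : V4 → L2) (f : V4 → L2) : Prop where
  fin : IsLocallyFiniteMeasure r
  meas : Measurable D
  cone : ∀ y, Cone (J y) (D y)
  norm : ∀ y, Q (D y) (Fm (J y)) = 1
  f_meas : Measurable f
  f_L2 : ∀ K : Set V4, IsCompact K → IntegrableOn (fun y => ‖f y‖ ^ 2) K
  f_anti : ∀ y, pull (J y) (f y) = -f y
  closed : ∀ η, TF η → ∫ y, Q (D y) (d1 η y) ∂r + ∫ y, Q (f y) (d1 η y) = 0

/-- Lebesgue measure is locally dominated by `r`. -/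
def DomLeb (r : Measure V4) : Prop :=
  ∀ K : Set V4, IsCompact K → ∃ c : ENNReal, c ≠ ⊤ ∧ volume.restrict K ≤ c • r

end Vale.Agent.P204.T4
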