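import Vale.Agent.P204.Bdl.B6
import Vale.Agent.P204.CV.DefsD

set_option linter.all false

/-! P204 class version, package D2: local El Mir argument for `T + φ`. -/

open MeasureTheory Set Filter Topology
open scoped ContDiff

namespace Vale.Agent.P204.T4

namespace D2
open EMF

/-- positive current of order zero (not necessarily closed) -/
structure LPos (J : V4 → M4) (r : Measure V4) (D : V4 → L2) : Prop where
  fin : IsLocallyFiniteMeasure r
  meas : Measurable D
  cone : ∀ y, Cone (J y) (D y)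
  norm : ∀ y, Q (D y) (Fm (J y)) = 1

theorem lpos_of_lcur {J : V4 → M4} {r : Measure V4} {D : V4 → L2} (h : LCur J r D) : LPos J r D :=
  ⟨h.fin, h.meas, h.cone, h.norm⟩

theorem lpos_of_lcurF {J : V4 → M4} {r : Measure V4} {D f : V4 → L2} (h : LCurF J r D f) :
    LPos J r D :=
  ⟨h.fin, h.meas, h.cone, h.norm⟩

theorem LPos.zero {J : V4 → M4} {r : Measure V4} {D : V4 → L2} (h : LPos J r D) : LCur J 0 D :=
  ⟨inferInstance, h.meas, h.cone, h.norm, fun η _ => by simp⟩

/-- pairing with a smooth compactly supported one-form is integrable -/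
theorem integrable_d1' {J : V4 → M4} {r : Measure V4} {D : V4 → L2} (hJ : ContDiff ℝ ∞ J)
    (hcx : ∀ y, IsCx (J y)) (hpos : ∀ y, Pos (J y))
    (h : LPos J r D) {η : V4 → V4} (hη : TF η) : Integrable (fun x => Q (D x) (d1 η x)) r := by
  haveI := h.fin
  obtain ⟨M, k, hM, hk, hD, -⟩ := exists_bounds hJ hcx hpos h.zero (S := tsupport η) hη.2
  obtain ⟨N, hN⟩ := IsCompact.exists_bound_of_continuousOn (s := tsupport η) hη.2
    (continuous_d1 hη.1).continuousOn
  refine integrable_of_bdd (S := tsupport η) hη.2 (measurable_Q h.meas (continuous_d1 hη.1).measurable)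
    (C := 6 * M * N) ?_ ?_
  · intro x hx
    refine (abs_Q_le _ _).trans ?_
    have := hD x hx
    have h2 := hN x hx
    gcongr
  · intro x hx
    rw [d1_zero_of_notMem hx, Q_zero_right]

/-- the test form `χ² (1 + V)⁻¹ b` -/
noncomputable def tf {J : V4 → M4} {r : Measure V4} (E : EMData J r) (χ : ContDiffBump (0 : V4))
    (s : ℝ) (x : V4) : V4 := (χ x ^ 2 / (1 + E.V s x)) • E.b s x

theorem one_add_pos {J : V4 → M4} {r : Measure V4} (E : EMData J r) {s : ℝ} (hs : 0 < s) (x : V4) :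
    1 ≤ 1 + E.V s x := by have := E.V_nonneg s x hs; linarith

theorem u_smooth {J : V4 → M4} {r : Measure V4} (E : EMData J r) (χ : ContDiffBump (0 : V4))
    {s : ℝ} (hs : 0 < s) : ContDiff ℝ ∞ (fun x => χ x ^ 2 / (1 + E.V s x)) :=
  ((χ.contDiff).pow 2).div (contDiff_const.add (E.V_smooth s hs))
    (fun x => (zero_lt_one.trans_le (one_add_pos E hs x)).ne')

theorem supp_tf {J : V4 → M4} {r : Measure V4} (E : EMData J r) (χ : ContDiffBump (0 : V4))
    (s : ℝ) : tsupport (tf E χ s) ⊆ tsupport (χ : V4 → ℝ) := by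
  apply closure_mono
  intro x hx
  simp only [Function.mem_support] at hx ⊢
  intro h0
  apply hx
  simp [tf, h0]

theorem TF_tf {J : V4 → M4} {r : Measure V4} (E : EMData J r) (χ : ContDiffBump (0 : V4))
    {s : ℝ} (hs : 0 < s) : TF (tf E χ s) :=
  ⟨(u_smooth E χ hs).smul (E.b_smooth s hs),
    HasCompactSupport.of_support_subset_isCompact χ.hasCompactSupport
      (subset_closure.trans (supp_tf E χ s))⟩

theorem d1_tf {J : V4 → M4} {r : Measure V4} (E : EMData J r) (χ : ContDiffBump (0 : V4))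
    {s : ℝ} (hs : 0 < s) (x : V4) : d1 (tf E χ s) x =
      wd ((2 * χ x / (1 + E.V s x)) • grad χ x - (χ x ^ 2 / (1 + E.V s x) ^ 2) • grad (E.V s) x)
        (E.b s x) + (χ x ^ 2 / (1 + E.V s x)) • d1 (E.b s) x := by
  have hχs : ContDiff ℝ ∞ (χ : V4 → ℝ) := χ.contDiff
  have e : tf E χ s = fun y => (fun x => χ x ^ 2 / (1 + E.V s x)) y • E.b s y := rfl
  rw [e, d1_smul ((u_smooth E χ hs).differentiable (by simp) x)
    ((E.b_smooth s hs).differentiable (by simp) x),
    grad_test (hχs.differentiable (by simp) x) ((E.V_smooth s hs).differentiable (by simp) x)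
      (E.V_nonneg s x hs)]

theorem exists_bump {K : Set V4} (hK : IsCompact K) :
    ∃ χ : ContDiffBump (0 : V4), ∀ x ∈ K, χ x = 1 := by
  obtain ⟨R, hR⟩ := hK.isBounded.subset_closedBall (0 : V4)
  refine ⟨⟨max R 0 + 1, max R 0 + 2, by positivity, by linarith⟩, ?_⟩
  intro x hx
  apply ContDiffBump.one_of_mem_closedBall
  refine Metric.closedBall_subset_closedBall ?_ (hR hx)
  show R ≤ max R 0 + 1
  linarith [le_max_left R 0]

/-- the energy density -/
noncomputable def en {J : V4 → M4} {r : Measure V4} (E : EMData J r) (D : V4 → L2) (s : ℝ)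
    (x : V4) : ℝ := Q (D x) (wd (grad (E.V s) x) (cc (J x) (grad (E.V s) x)))

theorem measurable_en {J : V4 → M4} {r : Measure V4} (hJ : ContDiff ℝ ∞ J) (E : EMData J r)
    {D : V4 → L2} (hD : Measurable D) {s : ℝ} (hs : 0 < s) : Measurable (en E D s) := by
  refine measurable_Q hD (Continuous.measurable ?_)
  have c1 := continuous_grad (E.V_smooth s hs)
  exact continuous_wd.comp (c1.prodMk (continuous_cc.comp (hJ.continuous.prodMk c1)))

theorem energy_core {J : V4 → M4} (hJ : ContDiff ℝ ∞ J) (hcx : ∀ y, IsCx (J y))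
    (hpos : ∀ y, Pos (J y)) {r r' : Measure V4} {D : V4 → L2} (h : LPos J r' D) (E : EMData J r)
    (χ : ContDiffBump (0 : V4)) (F : ℝ)
    (hF : ∀ s, 0 < s → s ≤ 1 → ∫ x, Q (D x) (d1 (tf E χ s) x) ∂r' ≤ F) :
    ∃ C : ℝ, ∀ K : Set V4, MeasurableSet K → (∀ x ∈ K, χ x = 1) → ∀ s, 0 < s → s ≤ 1 →
      ∫ x in K, en E D s x / (1 + E.V s x) ^ 2 ∂r' ≤ C := by
  haveI := h.fin
  have hχs : ContDiff ℝ ∞ (χ : V4 → ℝ) := χ.contDiff
  obtain ⟨S, hSdef⟩ : ∃ S, S = tsupport (χ : V4 → ℝ) := ⟨_, rfl⟩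
  have hS : IsCompact S := hSdef ▸ χ.hasCompactSupport
  obtain ⟨M, k, hM, hk, hD, hQ⟩ := exists_bounds hJ hcx hpos h.zero hS
  obtain ⟨ρ0, ρ1, hρ0, hρ⟩ := exists_lower E.ρ_cont E.ρ_pos hS
  obtain ⟨T, hT⟩ := hS.exists_bound_of_continuousOn E.τ_cont.continuousOn
  obtain ⟨Cχ, hCχ⟩ := hS.exists_bound_of_continuousOn (continuous_grad hχs).continuousOn
  obtain ⟨C1, hC1⟩ := E.P1 S hS
  obtain ⟨C2, hC2⟩ := E.P2 S hS
  obtain ⟨A, hA⟩ : ∃ A, A = k * max C1 0 + 2 * ρ1 * k * Cχ + ρ1 * k * T := ⟨_, rfl⟩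
  obtain ⟨B, hB⟩ : ∃ B, B = 2 * (k ^ 2 * Cχ * max C1 0) + k ^ 2 * T * max C1 0 + max C2 0 * M :=
    ⟨_, rfl⟩
  refine ⟨2 / ρ0 * (F + (B + A ^ 2 / (2 * ρ0)) * (r' S).toReal), ?_⟩
  intro K hK hχK s hs hs1
  have hVs := E.V_smooth s hs
  have hbs := E.b_smooth s hs
  have hV0 : ∀ x, 0 ≤ E.V s x := fun x => E.V_nonneg s x hs
  have hne : ∀ x, 1 + E.V s x ≠ 0 := fun x => by have := hV0 x; positivity
  obtain ⟨G, hG⟩ : ∃ G : V4 → ℝ, G = en E D s := ⟨_, rfl⟩
  have hG0 : ∀ x, 0 ≤ G x := fun x => by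
    rw [hG]; exact Q_wd_nonneg (hcx x) (hpos x) (h.cone x) _
  obtain ⟨Y2, hY2⟩ : ∃ Y2 : V4 → ℝ, Y2 = fun x => χ x ^ 2 * (G x / (1 + E.V s x) ^ 2) := ⟨_, rfl⟩
  have hY20 : ∀ x, 0 ≤ Y2 x := fun x => by
    rw [hY2]; have := hG0 x; (clear * - this; positivity)
  have hTF := TF_tf E χ hs
  have hint := integrable_d1' hJ hcx hpos h hTF
  have hkey : ∀ x, (ρ0 / 2) * Y2 x ≤ Q (D x) (d1 (tf E χ s) x)
      + S.indicator (fun _ => B + A ^ 2 / (2 * ρ0)) x := by
    intro x
    by_cases hx : x ∈ S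
    · rw [indicator_of_mem hx, d1_tf E χ hs]
      have hW : 0 < 1 + E.V s x := by have := hV0 x; positivity
      have p := pointwise (J := J x) (A := D x) (v := grad (E.V s) x) (b := E.b s x)
        (τ := E.τ x) (gχ := grad χ x) (χ := χ x) (V := E.V s x) (ρ := E.ρ x) (k := k)
        (C1 := max C1 0) (C2 := max C2 0) (Cχ := Cχ) (T := T) (M := M) (ρ1 := ρ1)
        (db := d1 (E.b s) x)
        (hcx x) (hpos x) (h.cone x) (hV0 x) χ.nonneg χ.le_one hk (hQ x hx) (E.ρ_pos x)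
        (hρ x hx).2 (le_max_right _ _)
        ((hC1 s hs hs1 x hx).trans (mul_le_mul_of_nonneg_right (le_max_left _ _) hW.le))
        (le_max_right _ _)
        (by
          refine le_trans ?_ (hC2 s hs hs1 x hx (D x) (h.cone x))
          have : C2 * (1 + E.V s x) * ‖D x‖ ≤ max C2 0 * (1 + E.V s x) * ‖D x‖ := by
            gcongr
            exact le_max_left _ _
          linarith only [this])
        (hCχ x hx) (hT x hx) (hD x hx)
      rw [← hA, ← hB] at p
      refine le_trans ?_ (add_le_add_left p _)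
      have hGx : Q (D x) (wd (grad (E.V s) x) (cc (J x) (grad (E.V s) x))) = G x := by
        rw [hG]; rfl
      rw [hGx]
      obtain ⟨y, hy⟩ : ∃ y, y = χ x * (Real.sqrt (G x) / (1 + E.V s x)) := ⟨_, rfl⟩
      have hyy : Y2 x = y ^ 2 := by
        rw [hY2, hy, mul_pow, div_pow, Real.sq_sqrt (hG0 x)]
      rw [← hy, hyy]
      have h1 := (hρ x hx).1
      have h2 : 0 ≤ y ^ 2 := sq_nonneg y
      have h3 : ρ0 * y ^ 2 ≤ E.ρ x * y ^ 2 := mul_le_mul_of_nonneg_right h1 h2
      have h4 : 0 ≤ ρ0 / 2 * (y - A / ρ0) ^ 2 := by (clear * - hρ0; positivity)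
      have h5 : ρ0 / 2 * (y - A / ρ0) ^ 2 = ρ0 / 2 * y ^ 2 - A * y + A ^ 2 / (2 * ρ0) := by
        field_simp
        ring
      linarith only [h3, h4, h5]
    · rw [indicator_of_notMem hx,
        d1_zero_of_notMem (fun h' => hx (hSdef ▸ supp_tf E χ s h')), Q_zero_right]
      have h0 : χ x = 0 := by
        rw [hSdef] at hx
        exact image_eq_zero_of_notMem_tsupport hx
      rw [hY2]
      simp [h0]
  have hindint : Integrable (S.indicator (fun _ => B + A ^ 2 / (2 * ρ0)) : V4 → ℝ) r' := by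
    rw [integrable_indicator_iff hS.measurableSet]
    exact integrableOn_const hS.measure_lt_top.ne
  have hY2int : Integrable (fun x => (ρ0 / 2) * Y2 x) r' := by
    refine (hint.add hindint).mono' ?_ ?_
    · apply Measurable.aestronglyMeasurable
      have m1 : Measurable G := by
        rw [hG]
        exact measurable_en hJ E h.meas hs
      rw [hY2]
      have m2 : Measurable (χ : V4 → ℝ) := hχs.continuous.measurable
      have m3 : Measurable (E.V s) := hVs.continuous.measurable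
      exact measurable_const.mul ((m2.pow_const 2).mul
        (m1.div ((measurable_const.add m3).pow_const 2)))
    · refine ae_of_all _ fun x => ?_
      have h0 := hY20 x
      rw [Real.norm_eq_abs, abs_of_nonneg (by positivity)]
      exact hkey x
  have hY2int' : Integrable Y2 r' := by
    have := hY2int.const_mul (2 / ρ0)
    refine this.congr (ae_of_all _ fun x => ?_)
    field_simp
  have h1 : ∫ x, (ρ0 / 2) * Y2 x ∂r' ≤ F + (B + A ^ 2 / (2 * ρ0)) * (r' S).toReal := by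
    refine (integral_mono hY2int (hint.add hindint) hkey).trans ?_
    simp only [Pi.add_apply]
    rw [integral_add hint hindint, integral_indicator hS.measurableSet,
      setIntegral_const, smul_eq_mul]
    have := hF s hs hs1
    have e : (r'.real S) = (r' S).toReal := rfl
    rw [e]
    linarith only [this]
  rw [integral_const_mul] at h1
  have h2 : ∫ x, Y2 x ∂r' ≤ 2 / ρ0 * (F + (B + A ^ 2 / (2 * ρ0)) * (r' S).toReal) := by
    rw [div_mul_eq_mul_div, le_div_iff₀ hρ0]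
    linarith only [h1]
  refine le_trans ?_ h2
  have h3 : ∫ x in K, en E D s x / (1 + E.V s x) ^ 2 ∂r' = ∫ x in K, Y2 x ∂r' := by
    refine setIntegral_congr_fun hK fun x hx => ?_
    simp only [hY2, hG, hχK x hx, one_pow, one_mul]
  rw [h3]
  exact setIntegral_le_integral hY2int' (ae_of_all _ hY20)

/-- energy estimate for a closed positive current, with potentials of another measure -/
theorem energy0 {J : V4 → M4} (hJ : ContDiff ℝ ∞ J) (hcx : ∀ y, IsCx (J y))
    (hpos : ∀ y, Pos (J y)) {r r' : Measure V4} {D : V4 → L2} (h : LCur J r' D) (E : EMData J r)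
    (K : Set V4) (hK : IsCompact K) :
    ∃ C : ℝ, ∀ s, 0 < s → s ≤ 1 → ∫ x in K, en E D s x / (1 + E.V s x) ^ 2 ∂r' ≤ C := by
  obtain ⟨χ, hχ⟩ := exists_bump hK
  obtain ⟨C, hC⟩ := energy_core hJ hcx hpos (lpos_of_lcur h) E χ 0
    (fun s hs hs1 => (h.closed _ (TF_tf E χ hs)).le)
  exact ⟨C, hC K hK.measurableSet hχ⟩

/-- the gradient term -/
noncomputable def gg {J : V4 → M4} {r : Measure V4} (E : EMData J r) (s : ℝ) (x : V4) : ℝ :=
  ‖grad (E.V s) x‖ / (1 + E.V s x)

theorem gg_nonneg {J : V4 → M4} {r : Measure V4} (E : EMData J r) {s : ℝ} (hs : 0 < s) (x : V4) :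
    0 ≤ gg E s x := by
  have := one_add_pos E hs x
  unfold gg
  positivity

theorem continuous_gg {J : V4 → M4} {r : Measure V4} (E : EMData J r) {s : ℝ} (hs : 0 < s) :
    Continuous (gg E s) := by
  unfold gg
  exact (continuous_grad (E.V_smooth s hs)).norm.div (continuous_const.add (E.V_smooth s hs).continuous)
    (fun x => (zero_lt_one.trans_le (one_add_pos E hs x)).ne')

theorem grad_L2 {J : V4 → M4} (hJ : ContDiff ℝ ∞ J) (hcx : ∀ y, IsCx (J y))
    (hpos : ∀ y, Pos (J y)) {r r0 : Measure V4} {D0 : V4 → L2} (h : LCur J r0 D0) (hdom : DomLeb r0)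
    (hlow : ∀ K : Set V4, IsCompact K → ∃ c : ℝ, 0 < c ∧ ∀ x ∈ K, ∀ a : V4,
      c * ‖a‖ ^ 2 ≤ Q (D0 x) (wd a (cc (J x) a)))
    (E : EMData J r) (K : Set V4) (hK : IsCompact K) :
    ∃ C : ℝ, ∀ s, 0 < s → s ≤ 1 → ∫ x in K, gg E s x ^ 2 ≤ C := by
  haveI := h.fin
  obtain ⟨C, hC⟩ := energy0 hJ hcx hpos h E K hK
  obtain ⟨c, hc, hc'⟩ := hlow K hK
  obtain ⟨a, ha, ha'⟩ := hdom K hK
  refine ⟨a.toReal * (1 / c * C), fun s hs hs1 => ?_⟩
  have hcont := continuous_gg E hs
  have hint : Integrable (fun x => gg E s x ^ 2) (r0.restrict K) :=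
    (hcont.pow 2).continuousOn.integrableOn_compact hK
  have h1 : ∫ x in K, gg E s x ^ 2 ∂volume ≤ ∫ x, gg E s x ^ 2 ∂(a • r0.restrict K) := by
    have e : volume.restrict K ≤ a • r0.restrict K := by
      have := Measure.restrict_mono (μ := volume.restrict K) (ν := a • r0) (le_refl K) ha'
      rwa [Measure.restrict_restrict hK.measurableSet, inter_self, Measure.restrict_smul] at this
    exact integral_mono_measure e (ae_of_all _ fun x => sq_nonneg _) (hint.smul_measure ha)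
  refine h1.trans ?_
  rw [integral_smul_measure, smul_eq_mul]
  apply mul_le_mul_of_nonneg_left _ ENNReal.toReal_nonneg
  obtain ⟨M, k, hM, hk, hD, hQ⟩ := exists_bounds hJ hcx hpos h hK
  have hen0 : ∀ x, 0 ≤ en E D0 s x := fun x => Q_wd_nonneg (hcx x) (hpos x) (h.cone x) _
  have mP : Measurable fun x => en E D0 s x / (1 + E.V s x) ^ 2 :=
    (measurable_en hJ E h.meas hs).div
      ((measurable_const.add (E.V_smooth s hs).continuous.measurable).pow_const 2)
  have hPint : Integrable (fun x => en E D0 s x / (1 + E.V s x) ^ 2) (r0.restrict K) := by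
    obtain ⟨Cv, hCv⟩ := hK.exists_bound_of_continuousOn
      (continuous_grad (E.V_smooth s hs)).continuousOn
    refine Measure.integrableOn_of_bounded (M := (k * Cv) ^ 2) hK.measure_lt_top.ne
      mP.aestronglyMeasurable ?_
    filter_upwards [ae_restrict_mem hK.measurableSet] with x hx
    have hw1 := one_add_pos E hs x
    have hw : 1 ≤ (1 + E.V s x) ^ 2 := one_le_pow₀ hw1
    rw [Real.norm_eq_abs, abs_of_nonneg (by have := hen0 x; positivity)]
    refine (div_le_self (hen0 x) hw).trans ?_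
    refine (hQ x hx _).trans ?_
    have := hCv x hx
    gcongr
  calc ∫ x in K, gg E s x ^ 2 ∂r0
      ≤ ∫ x in K, 1 / c * (en E D0 s x / (1 + E.V s x) ^ 2) ∂r0 := by
        refine integral_mono_ae hint (hPint.const_mul _) ?_
        filter_upwards [ae_restrict_mem hK.measurableSet] with x hx
        have h2 := hc' x hx (grad (E.V s) x)
        have hw1 := one_add_pos E hs x
        unfold gg
        rw [div_pow, one_div, inv_mul_eq_div, le_div_iff₀ hc, div_mul_eq_mul_div]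
        apply div_le_div_of_nonneg_right _ (by positivity)
        rw [mul_comm]; exact h2
    _ = 1 / c * ∫ x in K, en E D0 s x / (1 + E.V s x) ^ 2 ∂r0 := integral_const_mul _ _
    _ ≤ 1 / c * C := mul_le_mul_of_nonneg_left (hC s hs hs1) (by positivity)

theorem Q_anti_wd_cc {J : M4} (hJ : IsCx J) (hpos : Pos J) {A : L2} (hA : pull J A = -A) (a : V4) :
    Q A (wd a (cc J a)) = 0 := by
  rw [Q_comm]
  exact Q_inv_anti hJ hpos (cone_wd hJ a).1 hA

theorem abs_Q_wd_le (A : L2) (a b : V4) : |Q A (wd a b)| ≤ 12 * ‖A‖ * ‖a‖ * ‖b‖ := by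
  refine (abs_Q_le _ _).trans ?_
  have := norm_wd_le a b
  calc 6 * ‖A‖ * ‖wd a b‖ ≤ 6 * ‖A‖ * (2 * ‖a‖ * ‖b‖) := by gcongr
    _ = 12 * ‖A‖ * ‖a‖ * ‖b‖ := by ring

/-- the `φ`-term of the energy estimate -/
theorem fterm {J : V4 → M4} (hJ : ContDiff ℝ ∞ J) (hcx : ∀ y, IsCx (J y))
    (hpos : ∀ y, Pos (J y)) {r : Measure V4} (E : EMData3 J r) (χ : ContDiffBump (0 : V4)) :
    ∃ C : ℝ, 0 ≤ C ∧ ∀ s, 0 < s → s ≤ 1 → ∀ x ∈ tsupport (χ : V4 → ℝ), ∀ A : L2,
      pull (J x) A = -A →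
      |Q A (d1 (tf E.toEMData χ s) x)| ≤ C * (‖A‖ * (1 + E.G s x + gg E.toEMData s x)) := by
  have hχs : ContDiff ℝ ∞ (χ : V4 → ℝ) := χ.contDiff
  obtain ⟨S, hSdef⟩ : ∃ S, S = tsupport (χ : V4 → ℝ) := ⟨_, rfl⟩
  have hS : IsCompact S := hSdef ▸ χ.hasCompactSupport
  obtain ⟨ρ0, ρ1', hρ0, hρ⟩ := exists_lower E.ρ_cont E.ρ_pos hS
  obtain ⟨T', hT'⟩ := hS.exists_bound_of_continuousOn E.τ_cont.continuousOn
  obtain ⟨Cχ', hCχ'⟩ := hS.exists_bound_of_continuousOn (continuous_grad hχs).continuousOn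
  obtain ⟨N', hN'⟩ := hS.exists_bound_of_continuousOn hJ.continuous.continuousOn
  obtain ⟨C1', hC1'⟩ := E.P1 S hS
  obtain ⟨C3, hC30, hC3⟩ := E.P3 S hS
  obtain ⟨ρ1, hρ1⟩ : ∃ ρ1, ρ1 = max ρ1' 0 := ⟨_, rfl⟩
  obtain ⟨T, hT⟩ : ∃ T, T = max T' 0 := ⟨_, rfl⟩
  obtain ⟨Cχ, hCχ⟩ : ∃ Cχ, Cχ = max Cχ' 0 := ⟨_, rfl⟩
  obtain ⟨N, hN⟩ : ∃ N, N = max N' 0 := ⟨_, rfl⟩
  obtain ⟨C1, hC1⟩ : ∃ C1, C1 = max C1' 0 := ⟨_, rfl⟩
  have hρ10 : 0 ≤ ρ1 := hρ1 ▸ le_max_right _ _
  have hT0 : 0 ≤ T := hT ▸ le_max_right _ _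
  have hCχ0 : 0 ≤ Cχ := hCχ ▸ le_max_right _ _
  have hN0 : 0 ≤ N := hN ▸ le_max_right _ _
  have hC10 : 0 ≤ C1 := hC1 ▸ le_max_right _ _
  obtain ⟨R, hR⟩ : ∃ R, R = 4 * ρ1 * N := ⟨_, rfl⟩
  have hR0 : 0 ≤ R := by rw [hR]; positivity
  refine ⟨(24 * Cχ * C1 + 12 * T * C1 + C3) + C3 + (24 * Cχ * R + 12 * C1 + 12 * T * R),
    by positivity, ?_⟩
  intro s hs hs1 x hx A hA
  rw [← hSdef] at hx
  have hW1 := one_add_pos E.toEMData hs x
  obtain ⟨W, hW⟩ : ∃ W, W = 1 + E.V s x := ⟨_, rfl⟩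
  rw [← hW] at hW1
  have hW0 : 0 < W := by linarith
  obtain ⟨g, hg⟩ : ∃ g, g = ‖grad (E.V s) x‖ := ⟨_, rfl⟩
  have hg0 : 0 ≤ g := hg ▸ norm_nonneg _
  obtain ⟨e, he⟩ : ∃ e, e = E.b s x + E.ρ x • cc (J x) (grad (E.V s) x) := ⟨_, rfl⟩
  have hen : ‖e‖ ≤ C1 * W := by
    rw [he, hW]
    refine (hC1' s hs hs1 x hx).trans (mul_le_mul_of_nonneg_right (hC1 ▸ le_max_left _ _) ?_)
    rw [← hW]; exact hW0.le
  have hbe : E.b s x = e - E.ρ x • cc (J x) (grad (E.V s) x) := by rw [he]; abel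
  have hccn : ‖E.ρ x • cc (J x) (grad (E.V s) x)‖ ≤ R * g := by
    rw [norm_smul, Real.norm_eq_abs, abs_of_pos (E.ρ_pos x), hR]
    have h1 := norm_cc_le (J x) (grad (E.V s) x)
    rw [← hg] at h1
    have h2 : E.ρ x ≤ ρ1 := (hρ x hx).2.trans (hρ1 ▸ le_max_left _ _)
    have h3 : ‖J x‖ ≤ N := (hN' x hx).trans (hN ▸ le_max_left _ _)
    calc E.ρ x * ‖cc (J x) (grad (E.V s) x)‖ ≤ ρ1 * (4 * N * g) := by
          refine mul_le_mul h2 (h1.trans ?_) (norm_nonneg _) hρ10
          gcongr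
      _ = 4 * ρ1 * N * g := by ring
  have hbn : ‖E.b s x‖ ≤ C1 * W + R * g := by
    rw [hbe]
    exact (norm_sub_le _ _).trans (add_le_add hen hccn)
  have hχ0 : 0 ≤ χ x := χ.nonneg
  have hχ1 : χ x ≤ 1 := χ.le_one
  obtain ⟨a, ha⟩ : ∃ a, a = ‖A‖ := ⟨_, rfl⟩
  have ha0 : 0 ≤ a := ha ▸ norm_nonneg _
  -- the three terms
  have t1 : |Q A (wd (grad χ x) (E.b s x))| ≤ 12 * a * Cχ * (C1 * W + R * g) := by
    refine (abs_Q_wd_le _ _ _).trans ?_
    have h1 : ‖grad χ x‖ ≤ Cχ := (hCχ' x hx).trans (hCχ ▸ le_max_left _ _)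
    rw [← ha]
    gcongr
  have t2 : |Q A (wd (grad (E.V s) x) (E.b s x))| ≤ 12 * a * g * (C1 * W) := by
    have h1 : Q A (wd (grad (E.V s) x) (E.b s x)) = Q A (wd (grad (E.V s) x) e) := by
      rw [hbe, sub_eq_add_neg, wd_add_right, wd_neg_right, wd_smul_right, Q_add_right, Q_neg_right,
        Q_smul_right, Q_anti_wd_cc (hcx x) (hpos x) hA]
      ring
    rw [h1]
    refine (abs_Q_wd_le _ _ _).trans ?_
    rw [← ha, ← hg]
    gcongr
  have t3 : |Q A (d1 (E.b s) x)| ≤ 12 * a * T * (C1 * W + R * g) + C3 * a * (W + E.G s x) := by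
    have h1 := hC3 s hs hs1 x hx A hA
    have h2 : |Q A (wd (E.τ x) (E.b s x))| ≤ 12 * a * T * (C1 * W + R * g) := by
      refine (abs_Q_wd_le _ _ _).trans ?_
      have h1 : ‖E.τ x‖ ≤ T := (hT' x hx).trans (hT ▸ le_max_left _ _)
      rw [← ha]
      gcongr
    have h3 := abs_sub_abs_le_abs_sub (Q A (d1 (E.b s) x)) (Q A (wd (E.τ x) (E.b s x)))
    rw [← ha, ← hW] at h1
    linarith
  have hG0 := E.G_nonneg s x hs
  obtain ⟨G, hG⟩ : ∃ G, G = E.G s x := ⟨_, rfl⟩
  rw [← hG] at t3 hG0 ⊢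
  have hgg : gg E.toEMData s x = g / W := by rw [hg, hW]; rfl
  obtain ⟨y, hy⟩ : ∃ y, y = g / W := ⟨_, rfl⟩
  have hy0 : 0 ≤ y := by rw [hy]; positivity
  have hgy : g = y * W := by rw [hy]; field_simp
  rw [hgg, ← hy, ← ha]
  rw [d1_tf E.toEMData χ hs, ← hW]
  have hsplit : Q A (wd ((2 * χ x / W) • grad χ x - (χ x ^ 2 / W ^ 2) • grad (E.V s) x) (E.b s x)
        + (χ x ^ 2 / W) • d1 (E.b s) x)
      = (2 * χ x / W) * Q A (wd (grad χ x) (E.b s x))
        - (χ x ^ 2 / W ^ 2) * Q A (wd (grad (E.V s) x) (E.b s x))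
        + (χ x ^ 2 / W) * Q A (d1 (E.b s) x) := by
    rw [sub_eq_add_neg, wd_add_left, wd_neg_left, wd_smul_left, wd_smul_left, Q_add_right,
      Q_add_right, Q_neg_right, Q_smul_right, Q_smul_right, Q_smul_right]
    ring
  rw [hsplit]
  have hχ2 : χ x ^ 2 ≤ 1 := pow_le_one₀ hχ0 hχ1
  have u1 : |(2 * χ x / W) * Q A (wd (grad χ x) (E.b s x))| ≤ 24 * a * Cχ * (C1 + R * y) := by
    rw [abs_mul, abs_of_nonneg (by positivity)]
    calc 2 * χ x / W * |Q A (wd (grad χ x) (E.b s x))|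
        ≤ 2 * 1 / W * (12 * a * Cχ * (C1 * W + R * g)) := by gcongr
      _ = 24 * a * Cχ * (C1 + R * y) := by rw [hgy]; field_simp; ring
  have u2 : |(χ x ^ 2 / W ^ 2) * Q A (wd (grad (E.V s) x) (E.b s x))| ≤ 12 * a * C1 * y := by
    rw [abs_mul, abs_of_nonneg (by positivity)]
    calc χ x ^ 2 / W ^ 2 * |Q A (wd (grad (E.V s) x) (E.b s x))|
        ≤ 1 / W ^ 2 * (12 * a * g * (C1 * W)) := by gcongr
      _ = 12 * a * C1 * y := by rw [hgy]; field_simp
  have u3 : |(χ x ^ 2 / W) * Q A (d1 (E.b s) x)|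
      ≤ 12 * a * T * (C1 + R * y) + C3 * a * (1 + G) := by
    rw [abs_mul, abs_of_nonneg (by positivity)]
    calc χ x ^ 2 / W * |Q A (d1 (E.b s) x)|
        ≤ 1 / W * (12 * a * T * (C1 * W + R * g) + C3 * a * (W + G)) := by gcongr
      _ = 12 * a * T * (C1 + R * y) + C3 * a * (1 + G / W) := by rw [hgy]; field_simp
      _ ≤ 12 * a * T * (C1 + R * y) + C3 * a * (1 + G) := by
          have : G / W ≤ G := div_le_self hG0 hW1
          gcongr
  have hfin : |(2 * χ x / W) * Q A (wd (grad χ x) (E.b s x))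
        - (χ x ^ 2 / W ^ 2) * Q A (wd (grad (E.V s) x) (E.b s x))
        + (χ x ^ 2 / W) * Q A (d1 (E.b s) x)| ≤
      24 * a * Cχ * (C1 + R * y) + 12 * a * C1 * y +
        (12 * a * T * (C1 + R * y) + C3 * a * (1 + G)) := by
    refine (abs_add_le _ _).trans (add_le_add ((abs_sub _ _).trans (add_le_add u1 u2)) u3)
  refine hfin.trans ?_
  have p1 : 0 ≤ Cχ * C1 := by positivity
  have p2 : 0 ≤ T * C1 := by positivity
  have p3 : 0 ≤ Cχ * R := by positivity
  have p4 : 0 ≤ T * R := by positivity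
  have e1 : 24 * a * Cχ * (C1 + R * y) + 12 * a * C1 * y +
        (12 * a * T * (C1 + R * y) + C3 * a * (1 + G)) =
      a * ((24 * Cχ * C1 + 12 * T * C1 + C3) * 1 + C3 * G +
        (24 * Cχ * R + 12 * C1 + 12 * T * R) * y) := by ring
  rw [e1]
  have q1 : 0 ≤ 24 * Cχ * C1 + 12 * T * C1 + C3 := by positivity
  have q2 : 0 ≤ 24 * Cχ * R + 12 * C1 + 12 * T * R := by positivity
  have q3 : (24 * Cχ * C1 + 12 * T * C1 + C3) * 1 + C3 * G +
        (24 * Cχ * R + 12 * C1 + 12 * T * R) * y ≤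
      ((24 * Cχ * C1 + 12 * T * C1 + C3) + C3 + (24 * Cχ * R + 12 * C1 + 12 * T * R)) *
        (1 + G + y) := by
    have r1 : 0 ≤ (24 * Cχ * C1 + 12 * T * C1 + C3) * (G + y) := by positivity
    have r2 : 0 ≤ C3 * (1 + y) := by positivity
    have r3 : 0 ≤ (24 * Cχ * R + 12 * C1 + 12 * T * R) * (1 + G) := by positivity
    linarith
  calc a * ((24 * Cχ * C1 + 12 * T * C1 + C3) * 1 + C3 * G +
        (24 * Cχ * R + 12 * C1 + 12 * T * R) * y)
      ≤ a * (((24 * Cχ * C1 + 12 * T * C1 + C3) + C3 + (24 * Cχ * R + 12 * C1 + 12 * T * R)) *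
        (1 + G + y)) := mul_le_mul_of_nonneg_left q3 ha0
    _ = _ := by ring

theorem continuous_norm_meas {f : V4 → L2} (hf : Measurable f) : Measurable fun x => ‖f x‖ :=
  hf.norm

/-- integral bound for the `φ`-terms -/
theorem int_bound {J : V4 → M4} {r : Measure V4} (E : EMData3 J r) {f : V4 → L2}
    (f_meas : Measurable f)
    (f_L2 : ∀ K : Set V4, IsCompact K → IntegrableOn (fun y => ‖f y‖ ^ 2) K)
    {S : Set V4} (hS : IsCompact S) {Cg : ℝ}
    (hg : ∀ s, 0 < s → s ≤ 1 → ∫ x in S, gg E.toEMData s x ^ 2 ≤ Cg) :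
    ∃ F : ℝ, 0 ≤ F ∧ ∀ s, 0 < s → s ≤ 1 →
      IntegrableOn (fun x => ‖f x‖ * (1 + E.G s x + gg E.toEMData s x)) S ∧
      ∫ x in S, ‖f x‖ * (1 + E.G s x + gg E.toEMData s x) ≤ F := by
  obtain ⟨CG, hCG⟩ := E.G_L2 S hS
  have hone : IntegrableOn (fun _ : V4 => (1 : ℝ)) S := integrableOn_const hS.measure_lt_top.ne
  refine ⟨(∫ x in S, ‖f x‖ ^ 2) + 2 * (volume S).toReal + 2 * max CG 0 + 2 * max Cg 0,
    ?_, fun s hs hs1 => ?_⟩
  · have : 0 ≤ ∫ x in S, ‖f x‖ ^ 2 := integral_nonneg fun x => sq_nonneg _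
    have h2 : 0 ≤ (volume S).toReal := ENNReal.toReal_nonneg
    have h3 : 0 ≤ max CG 0 := le_max_right _ _
    have h4 : 0 ≤ max Cg 0 := le_max_right _ _
    linarith
  · obtain ⟨i1, i2⟩ := hCG s hs hs1
    have i3 : IntegrableOn (fun x => gg E.toEMData s x ^ 2) S :=
      ((continuous_gg E.toEMData hs).pow 2).continuousOn.integrableOn_compact hS
    have i0 := f_L2 S hS
    have hsum : IntegrableOn (fun x => ‖f x‖ ^ 2 + 2 * 1 + 2 * E.G s x ^ 2 +
        2 * gg E.toEMData s x ^ 2) S :=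
      (((i0.add (hone.const_mul 2)).add (i1.const_mul 2)).add (i3.const_mul 2))
    have hpt : ∀ x, ‖f x‖ * (1 + E.G s x + gg E.toEMData s x) ≤
        ‖f x‖ ^ 2 + 2 * 1 + 2 * E.G s x ^ 2 + 2 * gg E.toEMData s x ^ 2 := by
      intro x
      nlinarith [sq_nonneg (‖f x‖ - (1 + E.G s x + gg E.toEMData s x)),
        sq_nonneg (1 - E.G s x), sq_nonneg (1 - gg E.toEMData s x),
        sq_nonneg (E.G s x - gg E.toEMData s x), sq_nonneg (‖f x‖), sq_nonneg (E.G s x),
        sq_nonneg (gg E.toEMData s x),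
        sq_nonneg (‖f x‖ - (1 + E.G s x + gg E.toEMData s x) / 2)]
    have hnn : ∀ x, 0 ≤ ‖f x‖ * (1 + E.G s x + gg E.toEMData s x) := by
      intro x
      have h1 := E.G_nonneg s x hs
      have h2 := gg_nonneg E.toEMData hs x
      positivity
    have hi : IntegrableOn (fun x => ‖f x‖ * (1 + E.G s x + gg E.toEMData s x)) S := by
      refine Integrable.mono' hsum ?_ (ae_of_all _ fun x => ?_)
      · exact (f_meas.norm.mul ((measurable_const.add (E.G_meas s hs)).add
          (continuous_gg E.toEMData hs).measurable)).aestronglyMeasurable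
      · rw [Real.norm_eq_abs, abs_of_nonneg (hnn x)]
        exact hpt x
    refine ⟨hi, (integral_mono hi hsum hpt).trans ?_⟩
    have e1 : ∫ x in S, (‖f x‖ ^ 2 + 2 * 1 + 2 * E.G s x ^ 2 + 2 * gg E.toEMData s x ^ 2) =
        (∫ x in S, ‖f x‖ ^ 2) + 2 * (volume S).toReal + 2 * (∫ x in S, E.G s x ^ 2)
          + 2 * (∫ x in S, gg E.toEMData s x ^ 2) := by
      have j0 : Integrable (fun x => ‖f x‖ ^ 2) (volume.restrict S) := i0
      have j1 : Integrable (fun _ : V4 => (2 * 1 : ℝ)) (volume.restrict S) := hone.const_mul 2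
      have j2 : Integrable (fun x => 2 * E.G s x ^ 2) (volume.restrict S) := i1.const_mul 2
      have j3 : Integrable (fun x => 2 * gg E.toEMData s x ^ 2) (volume.restrict S) :=
        i3.const_mul 2
      have k1 : Integrable (fun x => ‖f x‖ ^ 2 + 2 * 1) (volume.restrict S) := j0.add j1
      have k2 : Integrable (fun x => ‖f x‖ ^ 2 + 2 * 1 + 2 * E.G s x ^ 2) (volume.restrict S) :=
        k1.add j2
      rw [integral_add k2 j3, integral_add k1 j2, integral_add j0 j1,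
        integral_const_mul, integral_const_mul, integral_const_mul, setIntegral_const, smul_eq_mul]
      have e : volume.real S = (volume S).toReal := rfl
      rw [e]
      ring
    rw [e1]
    have h1 := hg s hs hs1
    have h2 := le_max_left CG 0
    have h3 := le_max_left Cg 0
    linarith

/-- energy estimate for `T + φ` -/
theorem energyF {J : V4 → M4} (hJ : ContDiff ℝ ∞ J) (hcx : ∀ y, IsCx (J y))
    (hpos : ∀ y, Pos (J y)) {r : Measure V4} (E : EMData3 J r)
    (hg : ∀ S : Set V4, IsCompact S → ∃ Cg : ℝ, ∀ s, 0 < s → s ≤ 1 →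
      ∫ x in S, gg E.toEMData s x ^ 2 ≤ Cg)
    {r' : Measure V4} {D' f : V4 → L2} (h : LCurF J r' D' f) (K : Set V4) (hK : IsCompact K) :
    ∃ C : ℝ, ∀ s, 0 < s → s ≤ 1 →
      ∫ x in K, en E.toEMData D' s x / (1 + E.V s x) ^ 2 ∂r' ≤ C := by
  obtain ⟨χ, hχ⟩ := exists_bump hK
  obtain ⟨S, hSdef⟩ : ∃ S, S = tsupport (χ : V4 → ℝ) := ⟨_, rfl⟩
  have hS : IsCompact S := hSdef ▸ χ.hasCompactSupport
  obtain ⟨Cf, hCf0, hCf⟩ := fterm hJ hcx hpos E χ
  obtain ⟨Cg, hCg⟩ := hg S hS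
  obtain ⟨F, hF0, hF⟩ := int_bound E h.f_meas h.f_L2 hS hCg
  obtain ⟨C, hC⟩ := energy_core hJ hcx hpos (lpos_of_lcurF h) E.toEMData χ (Cf * F) (by
    intro s hs hs1
    have h1 := h.closed _ (TF_tf E.toEMData χ hs)
    obtain ⟨i1, i2⟩ := hF s hs hs1
    have h2 : |∫ x, Q (f x) (d1 (tf E.toEMData χ s) x)| ≤ Cf * F := by
      calc |∫ x, Q (f x) (d1 (tf E.toEMData χ s) x)|
          ≤ ∫ x, |Q (f x) (d1 (tf E.toEMData χ s) x)| := abs_integral_le_integral_abs
        _ ≤ ∫ x, S.indicator (fun x => Cf * (‖f x‖ * (1 + E.G s x + gg E.toEMData s x))) x := by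
            apply integral_mono_of_nonneg (ae_of_all _ fun x => abs_nonneg _)
            · rw [integrable_indicator_iff hS.measurableSet]
              exact i1.const_mul _
            · refine ae_of_all _ fun x => ?_
              by_cases hx : x ∈ S
              · simp only [indicator_of_mem hx]
                exact hCf s hs hs1 x (hSdef ▸ hx) (f x) (h.f_anti x)
              · simp only [indicator_of_notMem hx]
                rw [d1_zero_of_notMem (fun h' => hx (hSdef ▸ supp_tf E.toEMData χ s h')),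
                  Q_zero_right, abs_zero]
        _ = Cf * ∫ x in S, ‖f x‖ * (1 + E.G s x + gg E.toEMData s x) := by
            rw [integral_indicator hS.measurableSet, integral_const_mul]
        _ ≤ Cf * F := mul_le_mul_of_nonneg_left i2 hCf0
    have h3 := (abs_le.1 h2).1
    linarith)
  exact ⟨C, hC K hK.measurableSet hχ⟩

/-- the cutoff function -/
noncomputable def cu {J : V4 → M4} {r : Measure V4} (E : EMData J r) (c s : ℝ) (x : V4) : ℝ :=
  hb (c * Real.log (1 + E.V s x))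

theorem cu_smooth {J : V4 → M4} {r : Measure V4} (E : EMData J r) (c : ℝ) {s : ℝ} (hs : 0 < s) :
    ContDiff ℝ ∞ (cu E c s) := by
  have hbs : ContDiff ℝ ∞ (hb : ℝ → ℝ) := hb.contDiff
  have hne : ∀ x, 1 + E.V s x ≠ 0 := fun x => (zero_lt_one.trans_le (one_add_pos E hs x)).ne'
  exact hbs.comp (contDiff_const.mul ((contDiff_const.add (E.V_smooth s hs)).log hne))

theorem grad_cu {J : V4 → M4} {r : Measure V4} (E : EMData J r) (c : ℝ) {s : ℝ} (hs : 0 < s)
    (x : V4) : grad (cu E c s) x = (deriv (hb : ℝ → ℝ) (c * Real.log (1 + E.V s x))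
      * (c * (1 / (1 + E.V s x)))) • grad (E.V s) x := by
  have hd := hasDerivAt_cut (c := c) (E.V_nonneg s x hs)
  have e : cu E c s = fun x => (fun t : ℝ => hb (c * Real.log (1 + t))) (E.V s x) := rfl
  rw [e, grad_comp (h := fun t : ℝ => hb (c * Real.log (1 + t))) hd.differentiableAt
    ((E.V_smooth s hs).differentiable (by simp) x), hd.deriv]

theorem cu_nonneg {J : V4 → M4} {r : Measure V4} (E : EMData J r) (c s : ℝ) (x : V4) :
    0 ≤ cu E c s x := hb.nonneg

theorem cu_le_one {J : V4 → M4} {r : Measure V4} (E : EMData J r) (c s : ℝ) (x : V4) :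
    cu E c s x ≤ 1 := hb.le_one

theorem abs_der_le {H c w : ℝ} {t : ℝ} (hH : ∀ t, |deriv (hb : ℝ → ℝ) t| ≤ H) (hc : 0 < c)
    (hw : 0 < w) : |deriv (hb : ℝ → ℝ) t * (c * (1 / w))| ≤ H * (c * (1 / w)) := by
  rw [abs_mul, abs_of_pos (show 0 < c * (1 / w) by positivity)]
  exact mul_le_mul_of_nonneg_right (hH _) (by positivity)

/-- the gradient term of the cutoff against the current -/
theorem wterm {J : V4 → M4} (hJ : ContDiff ℝ ∞ J) (hcx : ∀ y, IsCx (J y))
    (hpos : ∀ y, Pos (J y)) {r r' : Measure V4} {D : V4 → L2} (h : LPos J r' D) (E : EMData J r)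
    {η : V4 → V4} (hη : TF η) {Ce : ℝ} (hCe : ∀ s, 0 < s → s ≤ 1 →
      ∫ x in tsupport η, en E D s x / (1 + E.V s x) ^ 2 ∂r' ≤ Ce) :
    ∃ C : ℝ, ∀ s, 0 < s → s ≤ 1 → ∀ c : ℝ, 0 < c →
      |∫ x, Q (D x) (wd (grad (cu E c s) x) (η x)) ∂r'| ≤ C * c := by
  haveI := h.fin
  obtain ⟨S, hSdef⟩ : ∃ S, S = tsupport η := ⟨_, rfl⟩
  have hS : IsCompact S := hSdef ▸ hη.2
  rw [← hSdef] at hCe
  obtain ⟨H, hH0, hH⟩ := exists_deriv_hb
  obtain ⟨M, k, hM, hk, hD, hQ⟩ := exists_bounds hJ hcx hpos h.zero hS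
  obtain ⟨Cη', hCη'⟩ := hS.exists_bound_of_continuousOn hη.1.continuous.continuousOn
  obtain ⟨Cη, hCη⟩ : ∃ Cη, Cη = max Cη' 0 := ⟨_, rfl⟩
  have hη0 : ∀ x ∈ S, ‖η x‖ ≤ Cη := fun x hx => (hCη' x hx).trans (hCη ▸ le_max_left _ _)
  have hCη0 : 0 ≤ Cη := hCη ▸ le_max_right _ _
  refine ⟨H * (k * Cη) * ((r' S).toReal + Ce) / 2, ?_⟩
  intro s hs hs1 c hc
  have hVs := E.V_smooth s hs
  have hV0 : ∀ x, 0 ≤ E.V s x := fun x => E.V_nonneg s x hs
  have hW0 : ∀ x, 0 < 1 + E.V s x := fun x => by have := hV0 x; positivity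
  obtain ⟨G, hG⟩ : ∃ G : V4 → ℝ, G = en E D s := ⟨_, rfl⟩
  have hG0 : ∀ x, 0 ≤ G x := fun x => by
    rw [hG]; exact Q_wd_nonneg (hcx x) (hpos x) (h.cone x) _
  have mG : Measurable G := by rw [hG]; exact measurable_en hJ E h.meas hs
  have mV : Measurable (E.V s) := hVs.continuous.measurable
  obtain ⟨P, hP⟩ : ∃ P : V4 → ℝ, P = fun x => G x / (1 + E.V s x) ^ 2 := ⟨_, rfl⟩
  have hP0 : ∀ x, 0 ≤ P x := fun x => by rw [hP]; have := hG0 x; have := hW0 x; positivity
  have hpt : ∀ x, |Q (D x) (wd (grad (cu E c s) x) (η x))| ≤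
      S.indicator (fun x => (H * (k * Cη) * c / 2) * (1 + P x)) x := by
    intro x
    by_cases hx : x ∈ S
    · rw [indicator_of_mem hx, grad_cu E c hs, wd_smul_left, Q_smul_right, abs_mul]
      have hGx : Q (D x) (wd (grad (E.V s) x) (cc (J x) (grad (E.V s) x))) = G x := by
        rw [hG]; rfl
      have e1 : Q (D x) (wd (grad (E.V s) x) (cc (J x) (grad (E.V s) x)))
          ≤ (Real.sqrt (G x)) ^ 2 := by rw [hGx, Real.sq_sqrt (hG0 x)]
      have e2 : Q (D x) (wd (η x) (cc (J x) (η x))) ≤ (k * Cη) ^ 2 := by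
        refine (hQ x hx _).trans ?_
        have := hη0 x hx
        gcongr
      have e3 := cs1 (hcx x) (hpos x) (h.cone x) (Real.sqrt_nonneg _) (by positivity) e1 e2
      have hw := hW0 x
      have e4 := abs_der_le (t := c * Real.log (1 + E.V s x)) hH hc hw
      calc _ ≤ H * (c * (1 / (1 + E.V s x))) * (Real.sqrt (G x) * (k * Cη)) := by
            gcongr
        _ = (H * (k * Cη) * c) * (Real.sqrt (G x) / (1 + E.V s x)) := by
            field_simp
        _ ≤ (H * (k * Cη) * c) * ((1 + P x) / 2) := by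
            apply mul_le_mul_of_nonneg_left _ (by positivity)
            have e5 : P x = (Real.sqrt (G x) / (1 + E.V s x)) ^ 2 := by
              rw [hP, div_pow, Real.sq_sqrt (hG0 x)]
            rw [e5]
            linarith only [sq_nonneg (Real.sqrt (G x) / (1 + E.V s x) - 1)]
        _ = H * (k * Cη) * c / 2 * (1 + P x) := by ring
    · rw [indicator_of_notMem hx]
      have h0 : η x = 0 := by
        rw [hSdef] at hx
        exact image_eq_zero_of_notMem_tsupport hx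
      have h1 : wd (grad (cu E c s) x) (0 : V4) = 0 := by
        have := wd_smul_right 0 (grad (cu E c s) x) 0
        rwa [zero_smul, zero_smul] at this
      rw [h0, h1, Q_zero_right, abs_zero]
  have mP : Measurable P := by
    rw [hP]; exact mG.div ((measurable_const.add mV).pow_const 2)
  have hPint : IntegrableOn P S r' := by
    obtain ⟨Cv, hCv⟩ := hS.exists_bound_of_continuousOn (continuous_grad hVs).continuousOn
    refine Measure.integrableOn_of_bounded (M := (k * Cv) ^ 2) hS.measure_lt_top.ne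
      mP.aestronglyMeasurable ?_
    filter_upwards [ae_restrict_mem hS.measurableSet] with x hx
    rw [Real.norm_eq_abs, abs_of_nonneg (hP0 x), hP]
    have hw : 1 ≤ (1 + E.V s x) ^ 2 := one_le_pow₀ (one_add_pos E hs x)
    refine (div_le_self (hG0 x) hw).trans ?_
    rw [hG]
    refine (hQ x hx _).trans ?_
    have := hCv x hx
    gcongr
  have hPle : ∫ x in S, P x ∂r' ≤ Ce := by
    have := hCe s hs hs1
    rw [hP, hG]
    exact this
  have hindint : IntegrableOn (fun x => (H * (k * Cη) * c / 2) * (1 + P x)) S r' :=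
    ((integrableOn_const hS.measure_lt_top.ne).add hPint).const_mul _
  calc |∫ x, Q (D x) (wd (grad (cu E c s) x) (η x)) ∂r'|
      ≤ ∫ x, |Q (D x) (wd (grad (cu E c s) x) (η x))| ∂r' := abs_integral_le_integral_abs
    _ ≤ ∫ x, S.indicator (fun x => (H * (k * Cη) * c / 2) * (1 + P x)) x ∂r' :=
        integral_mono_of_nonneg (ae_of_all _ fun x => abs_nonneg _)
          (hindint.integrable_indicator hS.measurableSet) (ae_of_all _ hpt)
    _ = (H * (k * Cη) * c / 2) * ((r' S).toReal + ∫ x in S, P x ∂r') := by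
        have hone : Integrable (fun _ : V4 => (1 : ℝ)) (r'.restrict S) :=
          integrableOn_const hS.measure_lt_top.ne
        rw [integral_indicator hS.measurableSet, integral_const_mul,
          integral_add hone hPint.integrable, setIntegral_const, smul_eq_mul, mul_one]
        rfl
    _ ≤ (H * (k * Cη) * c / 2) * ((r' S).toReal + Ce) := by
        apply mul_le_mul_of_nonneg_left _ (by positivity)
        linarith only [hPle]
    _ = H * (k * Cη) * ((r' S).toReal + Ce) / 2 * c := by ring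

/-- the gradient term of the cutoff against the square integrable form -/
theorem wtermF {J : V4 → M4} {r : Measure V4} (E : EMData3 J r)
    (hg : ∀ S : Set V4, IsCompact S → ∃ Cg : ℝ, ∀ s, 0 < s → s ≤ 1 →
      ∫ x in S, gg E.toEMData s x ^ 2 ≤ Cg) {f : V4 → L2} (f_meas : Measurable f)
    (f_L2 : ∀ K : Set V4, IsCompact K → IntegrableOn (fun y => ‖f y‖ ^ 2) K)
    {η : V4 → V4} (hη : TF η) :
    ∃ C : ℝ, ∀ s, 0 < s → s ≤ 1 → ∀ c : ℝ, 0 < c →
      |∫ x, Q (f x) (wd (grad (cu E.toEMData c s) x) (η x))| ≤ C * c := by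
  obtain ⟨S, hSdef⟩ : ∃ S, S = tsupport η := ⟨_, rfl⟩
  have hS : IsCompact S := hSdef ▸ hη.2
  obtain ⟨H, hH0, hH⟩ := exists_deriv_hb
  obtain ⟨Cg, hCg⟩ := hg S hS
  obtain ⟨F, hF0, hF⟩ := int_bound E f_meas f_L2 hS hCg
  obtain ⟨Cη', hCη'⟩ := hS.exists_bound_of_continuousOn hη.1.continuous.continuousOn
  obtain ⟨Cη, hCη⟩ : ∃ Cη, Cη = max Cη' 0 := ⟨_, rfl⟩
  have hη0 : ∀ x ∈ S, ‖η x‖ ≤ Cη := fun x hx => (hCη' x hx).trans (hCη ▸ le_max_left _ _)
  have hCη0 : 0 ≤ Cη := hCη ▸ le_max_right _ _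
  refine ⟨12 * H * Cη * F, ?_⟩
  intro s hs hs1 c hc
  obtain ⟨i1, i2⟩ := hF s hs hs1
  have hpt : ∀ x, |Q (f x) (wd (grad (cu E.toEMData c s) x) (η x))| ≤
      S.indicator (fun x => (12 * H * Cη * c) * (‖f x‖ * (1 + E.G s x + gg E.toEMData s x))) x := by
    intro x
    by_cases hx : x ∈ S
    · rw [indicator_of_mem hx, grad_cu E.toEMData c hs, wd_smul_left, Q_smul_right, abs_mul]
      have hw : 0 < 1 + E.V s x := zero_lt_one.trans_le (one_add_pos E.toEMData hs x)
      have e4 := abs_der_le (t := c * Real.log (1 + E.V s x)) hH hc hw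
      have e5 := abs_Q_wd_le (f x) (grad (E.V s) x) (η x)
      have e6 := hη0 x hx
      have e7 : ‖grad (E.V s) x‖ / (1 + E.V s x) ≤ 1 + E.G s x + gg E.toEMData s x := by
        have := E.G_nonneg s x hs
        have e : gg E.toEMData s x = ‖grad (E.V s) x‖ / (1 + E.V s x) := rfl
        rw [e]; linarith
      calc _ ≤ H * (c * (1 / (1 + E.V s x))) * (12 * ‖f x‖ * ‖grad (E.V s) x‖ * Cη) := by
            refine mul_le_mul e4 (e5.trans ?_) (abs_nonneg _) (by positivity)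
            gcongr
        _ = (12 * H * Cη * c) * (‖f x‖ * (‖grad (E.V s) x‖ / (1 + E.V s x))) := by
            field_simp
        _ ≤ _ := by gcongr
    · rw [indicator_of_notMem hx]
      have h0 : η x = 0 := by
        rw [hSdef] at hx
        exact image_eq_zero_of_notMem_tsupport hx
      have h1 : wd (grad (cu E.toEMData c s) x) (0 : V4) = 0 := by
        have := wd_smul_right 0 (grad (cu E.toEMData c s) x) 0
        rwa [zero_smul, zero_smul] at this
      rw [h0, h1, Q_zero_right, abs_zero]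
  calc |∫ x, Q (f x) (wd (grad (cu E.toEMData c s) x) (η x))|
      ≤ ∫ x, |Q (f x) (wd (grad (cu E.toEMData c s) x) (η x))| := abs_integral_le_integral_abs
    _ ≤ ∫ x, S.indicator (fun x => (12 * H * Cη * c) *
          (‖f x‖ * (1 + E.G s x + gg E.toEMData s x))) x :=
        integral_mono_of_nonneg (ae_of_all _ fun x => abs_nonneg _)
          (by
            rw [integrable_indicator_iff hS.measurableSet]
            exact i1.const_mul _) (ae_of_all _ hpt)
    _ = (12 * H * Cη * c) * ∫ x in S, ‖f x‖ * (1 + E.G s x + gg E.toEMData s x) := by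
        rw [integral_indicator hS.measurableSet, integral_const_mul]
    _ ≤ (12 * H * Cη * c) * F := mul_le_mul_of_nonneg_left i2 (by positivity)
    _ = 12 * H * Cη * F * c := by ring

/-- integrability of the pairing of the square integrable form with a test form -/
theorem integrable_f {f : V4 → L2} (f_meas : Measurable f)
    (f_L2 : ∀ K : Set V4, IsCompact K → IntegrableOn (fun y => ‖f y‖ ^ 2) K)
    {B : V4 → L2} (hB : Continuous B) {S : Set V4} (hS : IsCompact S) (h0 : ∀ x, x ∉ S → B x = 0) :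
    Integrable (fun x => Q (f x) (B x)) := by
  obtain ⟨N, hN⟩ := hS.exists_bound_of_continuousOn hB.continuousOn
  have hone : IntegrableOn (fun _ : V4 => (1 : ℝ)) S := integrableOn_const hS.measure_lt_top.ne
  have h1 : Integrable (S.indicator fun x => 6 * max N 0 * (‖f x‖ ^ 2 + 1)) volume := by
    rw [integrable_indicator_iff hS.measurableSet]
    exact ((f_L2 S hS).add hone).const_mul _
  refine h1.mono' (measurable_Q f_meas hB.measurable).aestronglyMeasurable
    (ae_of_all _ fun x => ?_)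
  by_cases hx : x ∈ S
  · simp only [indicator_of_mem hx]
    rw [Real.norm_eq_abs]
    refine (abs_Q_le _ _).trans ?_
    have h2 : ‖B x‖ ≤ max N 0 := (hN x hx).trans (le_max_left _ _)
    have h3 : 0 ≤ max N 0 := le_max_right _ _
    have h4 : ‖f x‖ ≤ ‖f x‖ ^ 2 + 1 := by nlinarith [sq_nonneg (‖f x‖ - 1), norm_nonneg (f x)]
    calc 6 * ‖f x‖ * ‖B x‖ ≤ 6 * (‖f x‖ ^ 2 + 1) * max N 0 := by gcongr
      _ = 6 * max N 0 * (‖f x‖ ^ 2 + 1) := by ring
  · simp only [indicator_of_notMem hx]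
    rw [h0 x hx, Q_zero_right, norm_zero]

theorem cutoffF {J : V4 → M4} (hJ : ContDiff ℝ ∞ J) (hcx : ∀ y, IsCx (J y))
    (hpos : ∀ y, Pos (J y)) {r : Measure V4} (E : EMData3 J r)
    (hg : ∀ S : Set V4, IsCompact S → ∃ Cg : ℝ, ∀ s, 0 < s → s ≤ 1 →
      ∫ x in S, gg E.toEMData s x ^ 2 ≤ Cg)
    {r' : Measure V4} {D' f : V4 → L2} (h : LCurF J r' D' f) (η : V4 → V4) (hη : TF η) :
    ∃ C : ℝ, ∀ s, 0 < s → s ≤ 1 → ∀ c : ℝ, 0 < c →
      |∫ x, hb (c * Real.log (1 + E.V s x)) * Q (D' x) (d1 η x) ∂r' +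
        ∫ x, hb (c * Real.log (1 + E.V s x)) * Q (f x) (d1 η x)| ≤ C * c := by
  obtain ⟨Ce, hCe⟩ := energyF hJ hcx hpos E hg h (tsupport η) hη.2
  obtain ⟨C1, hC1⟩ := wterm hJ hcx hpos (lpos_of_lcurF h) E.toEMData hη hCe
  obtain ⟨C2, hC2⟩ := wtermF E hg h.f_meas h.f_L2 hη
  refine ⟨C1 + C2, fun s hs hs1 c hc => ?_⟩
  have hcs := cu_smooth E.toEMData c hs
  have hηc : HasCompactSupport η := hη.2
  have hS : IsCompact (tsupport η) := hη.2
  have hsupp : ∀ x, x ∉ tsupport η → η x = 0 := fun x hx => image_eq_zero_of_notMem_tsupport hx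
  have hTF : TF (fun x => cu E.toEMData c s x • η x) := by
    refine ⟨hcs.smul hη.1, HasCompactSupport.of_support_subset_isCompact hS ?_⟩
    intro x hx
    by_contra hx'
    exact hx (by simp [hsupp x hx'])
  have hclosed := h.closed _ hTF
  have hd1 : ∀ x, d1 (fun x => cu E.toEMData c s x • η x) x =
      wd (grad (cu E.toEMData c s) x) (η x) + cu E.toEMData c s x • d1 η x := fun x =>
    d1_smul (hcs.differentiable (by simp) x) (hη.1.differentiable (by simp) x)
  -- the first integral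
  have a1 := integrable_d1' hJ hcx hpos (lpos_of_lcurF h) hTF
  have a2 := integrable_d1' hJ hcx hpos (lpos_of_lcurF h) hη
  have a3 : Integrable (fun x => cu E.toEMData c s x * Q (D' x) (d1 η x)) r' := by
    refine a2.norm.mono' ?_ (ae_of_all _ fun x => ?_)
    · exact (hcs.continuous.measurable.mul
        (measurable_Q h.meas (continuous_d1 hη.1).measurable)).aestronglyMeasurable
    · rw [norm_mul, Real.norm_eq_abs, abs_of_nonneg (cu_nonneg _ _ _ _)]
      exact mul_le_of_le_one_left (norm_nonneg _) (cu_le_one _ _ _ _)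
  have aeq : ∀ x, cu E.toEMData c s x * Q (D' x) (d1 η x) =
      Q (D' x) (d1 (fun x => cu E.toEMData c s x • η x) x)
      - Q (D' x) (wd (grad (cu E.toEMData c s) x) (η x)) := by
    intro x
    rw [hd1, Q_add_right, Q_smul_right]; ring
  have a4 : Integrable (fun x => Q (D' x) (wd (grad (cu E.toEMData c s) x) (η x))) r' := by
    refine (a1.sub a3).congr (ae_of_all _ fun x => ?_)
    simp only [Pi.sub_apply]
    rw [aeq]; ring
  have amain : ∫ x, cu E.toEMData c s x * Q (D' x) (d1 η x) ∂r' =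
      ∫ x, Q (D' x) (d1 (fun x => cu E.toEMData c s x • η x) x) ∂r' -
        ∫ x, Q (D' x) (wd (grad (cu E.toEMData c s) x) (η x)) ∂r' := by
    rw [integral_congr_ae (ae_of_all _ aeq), integral_sub a1 a4]
  -- the second integral
  have hd10 : ∀ {ζ : V4 → V4}, (∀ x, x ∉ tsupport η → ζ x = 0) →
      ∀ x, x ∉ tsupport η → d1 ζ x = 0 := by
    intro ζ hζ x hx
    apply d1_zero_of_notMem
    intro hx'
    apply hx
    exact closure_minimal (fun y hy => by by_contra h'; exact hy (hζ y h'))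
      (isClosed_tsupport η) hx'
  have b1 : Integrable (fun x => Q (f x) (d1 (fun x => cu E.toEMData c s x • η x) x)) :=
    integrable_f h.f_meas h.f_L2 (continuous_d1 hTF.1) hS
      (hd10 fun x hx => by simp only [hsupp x hx, smul_zero])
  have b2 : Integrable (fun x => Q (f x) (d1 η x)) :=
    integrable_f h.f_meas h.f_L2 (continuous_d1 hη.1) hS (hd10 hsupp)
  have b3 : Integrable (fun x => cu E.toEMData c s x * Q (f x) (d1 η x)) := by
    refine b2.norm.mono' ?_ (ae_of_all _ fun x => ?_)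
    · exact (hcs.continuous.measurable.mul
        (measurable_Q h.f_meas (continuous_d1 hη.1).measurable)).aestronglyMeasurable
    · rw [norm_mul, Real.norm_eq_abs, abs_of_nonneg (cu_nonneg _ _ _ _)]
      exact mul_le_of_le_one_left (norm_nonneg _) (cu_le_one _ _ _ _)
  have beq : ∀ x, cu E.toEMData c s x * Q (f x) (d1 η x) =
      Q (f x) (d1 (fun x => cu E.toEMData c s x • η x) x)
      - Q (f x) (wd (grad (cu E.toEMData c s) x) (η x)) := by
    intro x
    rw [hd1, Q_add_right, Q_smul_right]; ring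
  have b4 : Integrable (fun x => Q (f x) (wd (grad (cu E.toEMData c s) x) (η x))) := by
    refine (b1.sub b3).congr (ae_of_all _ fun x => ?_)
    simp only [Pi.sub_apply]
    rw [beq]; ring
  have bmain : ∫ x, cu E.toEMData c s x * Q (f x) (d1 η x) =
      (∫ x, Q (f x) (d1 (fun x => cu E.toEMData c s x • η x) x)) -
        ∫ x, Q (f x) (wd (grad (cu E.toEMData c s) x) (η x)) := by
    rw [integral_congr_ae (ae_of_all _ beq), integral_sub b1 b4]
  have e : ∫ x, hb (c * Real.log (1 + E.V s x)) * Q (D' x) (d1 η x) ∂r' +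
        ∫ x, hb (c * Real.log (1 + E.V s x)) * Q (f x) (d1 η x) =
      -(∫ x, Q (D' x) (wd (grad (cu E.toEMData c s) x) (η x)) ∂r') -
        ∫ x, Q (f x) (wd (grad (cu E.toEMData c s) x) (η x)) := by
    have g1 : ∫ x, hb (c * Real.log (1 + E.V s x)) * Q (D' x) (d1 η x) ∂r' =
      ∫ x, cu E.toEMData c s x * Q (D' x) (d1 η x) ∂r' := rfl
    have g2 : ∫ x, hb (c * Real.log (1 + E.V s x)) * Q (f x) (d1 η x) =
      ∫ x, cu E.toEMData c s x * Q (f x) (d1 η x) := rfl
    rw [g1, g2, amain, bmain]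
    linarith
  rw [e]
  have f1 := abs_le.1 (hC1 s hs hs1 c hc)
  have f2 := abs_le.1 (hC2 s hs hs1 c hc)
  rw [abs_le]
  constructor <;> nlinarith [f1.1, f1.2, f2.1, f2.2]

/-- limit of cutoff integrals -/
theorem lim_cut {J : V4 → M4} {r : Measure V4} (E : EMData J r) {ν : Measure V4} {g : V4 → ℝ}
    (mg : Measurable g) (hg : Integrable g ν) :
    (∀ c, 0 < c → Tendsto (fun m : ℕ =>
        ∫ x, hb (c * Real.log (1 + E.V (1 / ((m : ℝ) + 1)) x)) * g x ∂ν) atTop
        (𝓝 (∫ x, U E c x * g x ∂ν))) ∧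
    Tendsto (fun n : ℕ => ∫ x, U E (1 / ((n : ℝ) + 1)) x * g x ∂ν) atTop
      (𝓝 (∫ x in {x | pot r x < ⊤}, g x ∂ν)) := by
  have hU1 : ∀ c x, |U E c x| ≤ 1 := by
    intro c x
    unfold U
    split_ifs
    · rw [abs_of_nonneg hb.nonneg]; exact hb.le_one
    · simp only [abs_zero, zero_le_one]
  have mcut : ∀ (c : ℝ) (m : ℕ),
      Measurable fun x => hb (c * Real.log (1 + E.V (1 / ((m : ℝ) + 1)) x)) := by
    intro c m
    have m1 := (E.V_smooth _ (sm_pos m)).continuous.measurable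
    exact hb.continuous.measurable.comp (measurable_const.mul (Real.measurable_log.comp
      (measurable_const.add m1)))
  have mU : ∀ c, 0 < c → Measurable (U E c) := fun c hc =>
    measurable_of_tendsto_metrizable (mcut c) (tendsto_pi_nhds.2 fun x => tendsto_U E hc x)
  refine ⟨fun c hc => ?_, ?_⟩
  · refine tendsto_integral_of_dominated_convergence (fun x => |g x|) ?_ hg.abs ?_ ?_
    · intro m
      exact ((mcut c m).mul mg).aestronglyMeasurable
    · intro m
      refine ae_of_all _ fun x => ?_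
      rw [norm_mul, Real.norm_eq_abs, Real.norm_eq_abs, abs_of_nonneg hb.nonneg]
      exact mul_le_of_le_one_left (abs_nonneg _) hb.le_one
    · exact ae_of_all _ fun x => (tendsto_U E hc x).mul_const _
  · have h1 : ∫ x in {x | pot r x < ⊤}, g x ∂ν =
        ∫ x, {x | pot r x < ⊤}.indicator (fun _ => (1 : ℝ)) x * g x ∂ν := by
      rw [← integral_indicator (measurableSet_pot E)]
      refine integral_congr_ae (ae_of_all _ fun x => ?_)
      by_cases hx : x ∈ {x | pot r x < ⊤}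
      · simp only [indicator_of_mem hx, one_mul]
      · simp only [indicator_of_notMem hx, zero_mul]
    rw [h1]
    refine tendsto_integral_of_dominated_convergence (fun x => |g x|) ?_ hg.abs ?_ ?_
    · intro m
      exact ((mU _ (sm_pos m)).mul mg).aestronglyMeasurable
    · intro m
      refine ae_of_all _ fun x => ?_
      rw [norm_mul, Real.norm_eq_abs, Real.norm_eq_abs]
      exact mul_le_of_le_one_left (abs_nonneg _) (hU1 _ _)
    · exact ae_of_all _ fun x => (tendsto_U_one E x).mul_const _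

end D2

open EMF D2 in
/-- D2: local El Mir argument for `T + φ` along the polar set of `r` -/
theorem EMData3.elmir {J : V4 → M4} (hJ : ContDiff ℝ ∞ J) (hcx : ∀ y, IsCx (J y))
    (hpos : ∀ y, Pos (J y)) {r : Measure V4} (E : EMData3 J r)
    {r0 : Measure V4} {D0 : V4 → L2} (h0 : LCur J r0 D0) (hdom : DomLeb r0)
    (hlow : ∀ K : Set V4, IsCompact K → ∃ c : ℝ, 0 < c ∧ ∀ x ∈ K, ∀ a : V4,
      c * ‖a‖ ^ 2 ≤ Q (D0 x) (wd a (cc (J x) a)))
    (hae : ∀ᵐ x : V4, pot r x < ⊤)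
    {r' : Measure V4} {D' f : V4 → L2} (h : LCurF J r' D' f) (η : V4 → V4) (hη : TF η) :
    ∫ x in {x | pot r x < ⊤}, Q (D' x) (d1 η x) ∂r' + ∫ x, Q (f x) (d1 η x) = 0 := by
  have hg : ∀ S : Set V4, IsCompact S → ∃ Cg : ℝ, ∀ s, 0 < s → s ≤ 1 →
      ∫ x in S, gg E.toEMData s x ^ 2 ≤ Cg := fun S hS =>
    grad_L2 hJ hcx hpos h0 hdom hlow E.toEMData S hS
  obtain ⟨C, hC⟩ := cutoffF hJ hcx hpos E hg h η hη
  have hS : IsCompact (tsupport η) := hη.2
  have i1 := integrable_d1' hJ hcx hpos (lpos_of_lcurF h) hη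
  have i2 : Integrable (fun x => Q (f x) (d1 η x)) :=
    integrable_f h.f_meas h.f_L2 (continuous_d1 hη.1) hS fun x hx => d1_zero_of_notMem hx
  have m1 : Measurable fun x => Q (D' x) (d1 η x) := measurable_Q h.meas (continuous_d1 hη.1).measurable
  have m2 : Measurable fun x => Q (f x) (d1 η x) := measurable_Q h.f_meas (continuous_d1 hη.1).measurable
  obtain ⟨l1, l1'⟩ := lim_cut E.toEMData m1 i1
  obtain ⟨l2, l2'⟩ := lim_cut E.toEMData m2 i2
  have step1 : ∀ c, 0 < c → |∫ x, U E.toEMData c x * Q (D' x) (d1 η x) ∂r' +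
      ∫ x, U E.toEMData c x * Q (f x) (d1 η x)| ≤ C * c := by
    intro c hc
    exact le_of_tendsto ((l1 c hc).add (l2 c hc)).abs
      (Eventually.of_forall fun m => hC _ (sm_pos m) (sm_le m) c hc)
  have hlim := l1'.add l2'
  have hlim3 : Tendsto (fun n : ℕ => ∫ x, U E.toEMData (1 / ((n : ℝ) + 1)) x * Q (D' x) (d1 η x) ∂r' +
      ∫ x, U E.toEMData (1 / ((n : ℝ) + 1)) x * Q (f x) (d1 η x)) atTop (𝓝 0) := by
    have h2 := (tendsto_one_div_add_atTop_nhds_zero_nat (𝕜 := ℝ)).const_mul C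
    rw [mul_zero] at h2
    exact squeeze_zero_norm (fun n => step1 _ (sm_pos n)) h2
  have hfin := tendsto_nhds_unique hlim hlim3
  have e : ∫ x in {x | pot r x < ⊤}, Q (f x) (d1 η x) = ∫ x, Q (f x) (d1 η x) := by
    rw [Measure.restrict_eq_self_of_ae_mem]
    exact hae
  rw [e] at hfin
  exact hfin

end Vale.Agent.P204.T4
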