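import Vale.Agent.P204.Bdl.B6

set_option linter.all false

/-! P204 class version: definitions of the abstract part. -/

open MeasureTheory Set Filter Topology
open scoped ContDiff InnerProductSpace

namespace P204.GX.SmSys

variable {H Om : Type} [NormedAddCommGroup H] [InnerProductSpace ℝ H] [CompleteSpace H]
  [AddCommGroup Om] [Module ℝ Om]

/-- closed forms orthogonal to all closed forms -/
def Nul (Y : SmSys H Om) : Submodule ℝ Om where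
  carrier := {b | b ∈ Y.Cl ∧ ∀ c ∈ Y.Cl, ⟪Y.ι b, Y.st (Y.ι c)⟫_ℝ = 0}
  add_mem' := by
    rintro a b ⟨ha, ha'⟩ ⟨hb, hb'⟩
    refine ⟨add_mem ha hb, fun c hc => ?_⟩
    rw [map_add, inner_add_left, ha' c hc, hb' c hc, add_zero]
  zero_mem' := ⟨zero_mem _, fun c _ => by rw [map_zero, inner_zero_left]⟩
  smul_mem' := by
    rintro r a ⟨ha, ha'⟩
    refine ⟨Submodule.smul_mem _ _ ha, fun c hc => ?_⟩
    rw [map_smul, real_inner_smul_left, ha' c hc, mul_zero]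

/-- `b⁺ ≤ 1`, with a closed invariant form `w0` of positive square -/
structure BP (Y : SmSys H Om) (w0 : Om) : Prop where
  cl : w0 ∈ Y.Cl
  pm : Y.pm w0 = 0
  pos : 0 < ⟪Y.ι w0, Y.st (Y.ι w0)⟫_ℝ
  one : ∀ a ∈ Y.Cl, ∀ b ∈ Y.Cl, ¬ ∀ s t : ℝ, (s, t) ≠ (0, 0) →
    0 < ⟪Y.ι (s • a + t • b), Y.st (Y.ι (s • a + t • b))⟫_ℝ

/-- bounds for `T` as in `TBound`, but `T + φ` vanishes only on exact forms -/
structure TBoundE (Y : SmSys H Om) (T φ : Om →ₗ[ℝ] ℝ) where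
  k : ℕ
  C : ℝ
  NT : ℝ → ℝ
  C_nonneg : 0 ≤ C
  NT_nonneg : ∀ δ, 0 ≤ NT δ
  T_bd : ∀ b, |T b| ≤ C * Y.M 0 b
  T_pm : ∀ b, T (Y.pm b) = 0
  φ_pm : ∀ b, φ (Y.pm b) = φ b
  φ_bd : ∀ b, |φ b| ≤ C * Y.M k b
  kill : ∀ c ∈ Y.Ex, T c + φ c = 0
  t1 : ∀ δ u, 0 < δ → δ ≤ Y.δ0 → δ * |T (Y.S δ u)| ≤ C * Real.sqrt (NT δ) * ‖u‖
  t2 : ∀ δ u, 0 < δ → δ ≤ Y.δ0 → |T (Y.S δ (Y.pmH u))| ≤ C * Real.sqrt (NT δ) * ‖u‖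
  t3 : ∀ δ (w : H), 0 < δ → δ ≤ Y.δ0 → (∀ u, ⟪w, Y.st u⟫_ℝ = T (Y.S δ u)) → -(C * NT δ) ≤ ⟪w, Y.st w⟫_ℝ
  D : ℕ → ℝ
  t4 : ∀ δ, 0 < δ → δ ≤ Y.δ0 → ∃ v : Om, (∀ m, Y.N m δ v ≤ D m) ∧ NT δ ≤ C * (1 + |φ v|)

end P204.GX.SmSys
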