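import Vale.Agent.P204.Bdl.B4

set_option linter.all false

/-! P204 class version: definitions of the smoothing part. -/

open MeasureTheory Set Filter Topology
open scoped ContDiff InnerProductSpace

namespace Vale.Agent.P204.GX
open Vale.Agent.P204.T4 _root_.P204.GX

/-- smoothing of the pairing with a smooth form -/
def HasPG {X : Type} [MetricSpace X] [CompactSpace X] [MeasurableSpace X] [BorelSpace X]
    (Z : FnSys X) : Prop :=
  ∀ g : Z.Om, ∃ C δg : ℝ, 0 ≤ C ∧ 0 < δg ∧ ∀ δ (b : Z.Om), 0 < δ → δ ≤ δg →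
    |∫ x, Q ((g : X → L2) x) ((Z.Y.S δ (Z.Y.ι b) : X → L2) x) ∂Z.μ -
      ∫ x, Q ((g : X → L2) x) ((b : X → L2) x) ∂Z.μ| ≤ C * δ * ∫ x, ‖(b : X → L2) x‖ ∂Z.μ

end Vale.Agent.P204.GX
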