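import Vale.Agent.P204.Bdl.B8

set_option linter.all false

/-! P204 class version: definitions on `CM`. -/

open MeasureTheory Set Filter Topology
open scoped ContDiff InnerProductSpace

namespace Vale.Agent.P204.GX
open Vale.Agent.P204.T4 _root_.P204.GX

namespace CM
variable {X : Type} [MetricSpace X] [CompactSpace X] [MeasurableSpace X] [BorelSpace X] [Nonempty X]
  (M : CM X)

/-- closed smooth forms -/
def IsCl (u : X → L2) : Prop := u ∈ M.Om ∧ ∀ a, Closed (M.cf a u)

/-- `b⁺ ≤ 1` on `CM` -/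
def BOne : Prop := ∀ a b : X → L2, M.IsCl a → M.IsCl b → ¬ ∀ s t : ℝ, (s, t) ≠ (0, 0) →
  0 < ∫ x, Q (s • a x + t • b x) (s • a x + t • b x) ∂M.mu

end CM
end Vale.Agent.P204.GX
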