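import Vale.Agent.P204.CV.DefsG
import Vale.Agent.P204.CV.DefsD
import Vale.Agent.P204.CV.B

set_option linter.all false

/-! P204 class version: El Mir on `X` for `T + φ`, from the local statements. -/

open MeasureTheory Set Filter Topology
open scoped ContDiff InnerProductSpace ENNReal

namespace Vale.Agent.P204.T4

/-- the statement of `exists_EMData3` -/
def StD1 : Prop := ∀ {J : V4 → M4} (hJ : ContDiff ℝ ∞ J) (hcx : ∀ y, IsCx (J y))
    (hpos : ∀ y, Pos (J y)) {r : Measure V4} {D : V4 → L2} (h : LCur J r D) (hd : Dens2 r),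
    Nonempty (EMData3 J r)

/-- the statement of `EMData3.elmir` -/
def StD2 : Prop := ∀ {J : V4 → M4} (hJ : ContDiff ℝ ∞ J) (hcx : ∀ y, IsCx (J y))
    (hpos : ∀ y, Pos (J y)) {r : Measure V4} (E : EMData3 J r)
    {r0 : Measure V4} {D0 : V4 → L2} (h0 : LCur J r0 D0) (hdom : DomLeb r0)
    (hlow : ∀ K : Set V4, IsCompact K → ∃ c : ℝ, 0 < c ∧ ∀ x ∈ K, ∀ a : V4,
      c * ‖a‖ ^ 2 ≤ Q (D0 x) (wd a (cc (J x) a)))
    (hae : ∀ᵐ x : V4, pot r x < ⊤)
    {r' : Measure V4} {D' f : V4 → L2} (h : LCurF J r' D' f) (η : V4 → V4) (hη : TF η),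
    ∫ x in {x | pot r x < ⊤}, Q (D' x) (d1 η x) ∂r' + ∫ x, Q (f x) (d1 η x) = 0

end Vale.Agent.P204.T4

namespace Vale.Agent.P204.GX
open Vale.Agent.P204.T4 _root_.P204.GX

namespace CM
variable {X : Type} [MetricSpace X] [MeasurableSpace X] [BorelSpace X] {M : CM X}

theorem dens2_ra (a : M.A) {p : Measure X} [IsFiniteMeasure p] {E : X → L2}
    (hc : ∀ x, Cone J0 (E x)) (hn : ∀ x, Q (E x) F0 = 1)
    (hd : ∃ C : ℝ, ∀ x (r : ℝ), 0 < r → r ≤ 1 → (p (Metric.ball x r)).toReal ≤ C * r ^ 2) :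
    Dens2 (M.ra a p E) := by
  obtain ⟨C, hC⟩ := hd
  intro K hK
  obtain ⟨R, hR⟩ := hK.isBounded.exists_norm_le
  obtain ⟨C1, hC1, h1⟩ := exists_wl_bound (M := M) (D := E) a hc hn (R + 1)
  obtain ⟨C2, hC2, h2⟩ := M.lip a (R + 1)
  have hC10 : 0 ≤ C1 := zero_le_one.trans hC1
  refine ⟨C1 * ((|C| + (p univ).toReal) * C2 ^ 2), fun x hx ρ hρ hρ1 => ?_⟩
  have hball : ∀ z ∈ Metric.ball x ρ, ‖z‖ ≤ R + 1 := by
    intro z hz
    rw [Metric.mem_ball, dist_eq_norm] at hz
    have h3 := norm_le_norm_add_norm_sub x z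
    rw [norm_sub_rev] at h3
    have h4 := hR x hx
    linarith
  have hsub : M.ψ a '' Metric.ball x ρ ⊆ Metric.ball (M.ψ a x) (C2 * ρ) := by
    rintro _ ⟨z, hz, rfl⟩
    have h3 := (h2 z x (hball z hz) (hball x (Metric.mem_ball_self hρ))).1
    rw [Metric.mem_ball]
    rw [Metric.mem_ball, dist_eq_norm] at hz
    exact h3.trans_lt (mul_lt_mul_of_pos_left hz hC2)
  have h3 : M.ra a p E (Metric.ball x ρ) ≤
      ENNReal.ofReal C1 * p (Metric.ball (M.ψ a x) (C2 * ρ)) := by
    unfold ra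
    rw [withDensity_apply _ measurableSet_ball]
    calc ∫⁻ z in Metric.ball x ρ, ENNReal.ofReal (M.wl a E z) ∂(p.comap (M.ψ a))
        ≤ ∫⁻ z in Metric.ball x ρ, ENNReal.ofReal C1 ∂(p.comap (M.ψ a)) := by
          refine setLIntegral_mono' measurableSet_ball fun z hz => ENNReal.ofReal_le_ofReal ?_
          exact (h1 z (hball z hz)).1
      _ = ENNReal.ofReal C1 * p (M.ψ a '' Metric.ball x ρ) := by
          rw [lintegral_const, Measure.restrict_apply_univ, (M.measurableEmbedding_ψ a).comap_apply]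
      _ ≤ _ := by gcongr
  have h4 : (p (Metric.ball (M.ψ a x) (C2 * ρ))).toReal ≤
      (|C| + (p univ).toReal) * (C2 * ρ) ^ 2 := by
    have h0 : 0 ≤ (p univ).toReal := ENNReal.toReal_nonneg
    rcases le_or_gt (C2 * ρ) 1 with h | h
    · refine (hC (M.ψ a x) (C2 * ρ) (by positivity) h).trans ?_
      apply mul_le_mul_of_nonneg_right _ (by positivity)
      have := le_abs_self C
      linarith
    · have h5 : (p (Metric.ball (M.ψ a x) (C2 * ρ))).toReal ≤ (p univ).toReal :=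
        ENNReal.toReal_mono (measure_ne_top _ _) (measure_mono (subset_univ _))
      refine h5.trans ?_
      have h6 : 1 ≤ (C2 * ρ) ^ 2 := one_le_pow₀ h.le
      have h7 := abs_nonneg C
      nlinarith
  have h5 : (M.ra a p E (Metric.ball x ρ)).toReal ≤
      C1 * (p (Metric.ball (M.ψ a x) (C2 * ρ))).toReal := by
    have := ENNReal.toReal_mono (ENNReal.mul_ne_top ENNReal.ofReal_ne_top (measure_ne_top _ _)) h3
    rwa [ENNReal.toReal_mul, ENNReal.toReal_ofReal hC10] at this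
  calc (M.ra a p E (Metric.ball x ρ)).toReal
      ≤ C1 * ((|C| + (p univ).toReal) * (C2 * ρ) ^ 2) :=
        h5.trans (mul_le_mul_of_nonneg_left h4 hC10)
    _ = _ := by ring

theorem posDef_cf (a : M.A) {w0 : X → L2} (hw0p : ∀ x, PosDef J0 (w0 x)) (y : V4) :
    PosDef (M.J a y) (M.cf a w0 y) := by
  refine ⟨?_, fun v hv => ?_⟩
  · unfold cf
    rw [M.pull_m_J, (hw0p _).1]
  · unfold cf
    rw [ev_pull, M.m_J]
    apply (hw0p _).2
    intro h0
    apply hv
    have h2 := M.m'_m a y v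
    rw [h0, app_zero] at h2
    exact h2.symm

theorem cone_of_posDef {J : M4} {A : L2} (h : PosDef J A) : Cone J A := by
  refine ⟨h.1, fun v => ?_⟩
  rcases eq_or_ne v 0 with h0 | h0
  · rw [h0, app_zero, ev_self]
  · exact (h.2 v h0).le

theorem ne_zero_of_posDef {J : M4} {A : L2} (h : PosDef J A) : A ≠ 0 := by
  intro h0
  have h1 := h.2 (Pi.single 0 1) (by
    intro h2
    have := congrFun h2 0
    simp at this)
  rw [h0] at h1
  have h2 : ev (0 : L2) (Pi.single 0 1) (app J (Pi.single 0 1)) = 0 := by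
    have := ev_smul (0 : ℝ) (0 : L2) (Pi.single 0 1) (app J (Pi.single 0 1))
    rwa [zero_smul, zero_mul] at this
  rw [h2] at h1
  exact lt_irrefl _ h1

theorem wd_cc_ne {J : M4} (hJ : IsCx J) {b : V4} (hb : b ≠ 0) : wd b (T4.cc J b) ≠ 0 := by
  intro h
  have h1 : ev (wd b (T4.cc J b)) b (app J b) = dp b b ^ 2 + dp b (app J b) ^ 2 := by
    rw [ev_wd, dp_cc, dp_cc, hJ]
    have : dp b (-b) = - dp b b := by unfold dp; simp
    rw [this]; ring
  have h2 : ev (0 : L2) b (app J b) = 0 := by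
    have := ev_smul (0 : ℝ) (0 : L2) b (app J b)
    rwa [zero_smul, zero_mul] at this
  rw [h, h2] at h1
  have h3 := dp_self_pos hb
  nlinarith [sq_nonneg (dp b (app J b))]

theorem cc_zero' (J : M4) : T4.cc J 0 = 0 := by
  have := cc_smul J 0 0
  simpa using this

theorem wd_zero' (a : V4) : wd a 0 = 0 := by
  have := wd_smul_right 0 a 0
  simpa using this

theorem exists_lcur0 (a : M.A) {w0 : X → L2} (hw0 : M.IsCl w0) (hw0p : ∀ x, PosDef J0 (w0 x)) :
    ∃ (r0 : Measure V4) (D0 : V4 → L2), LCur (M.J a) r0 D0 ∧ DomLeb r0 ∧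
      ∀ K : Set V4, IsCompact K → ∃ c : ℝ, 0 < c ∧ ∀ x ∈ K, ∀ b : V4,
        c * ‖b‖ ^ 2 ≤ Q (D0 x) (wd b (T4.cc (M.J a x) b)) := by
  set g : V4 → L2 := M.cf a w0 with hg
  have hgs : ContDiff ℝ ∞ g := hw0.1 a
  have hgc : Continuous g := hgs.continuous
  set q : V4 → ℝ := fun y => Q (g y) (Fm (M.J a y)) with hq
  have hqc : Continuous q :=
    continuous_Q.comp (hgc.prodMk (continuous_Fm.comp (M.J_smooth a).continuous))
  have hPD : ∀ y, PosDef (M.J a y) (g y) := fun y => posDef_cf a hw0p y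
  have hq0 : ∀ y, 0 < q y := fun y =>
    Q_posDef_pos (M.J_cx a y) (M.J_pos a y) (cone_of_posDef (hPD y)) (ne_zero_of_posDef (hPD y))
      (posDef_Fm (M.J_cx a y))
  have hmq : Measurable fun y => ENNReal.ofReal (q y) := hqc.measurable.ennreal_ofReal
  refine ⟨volume.withDensity fun y => ENNReal.ofReal (q y), fun y => (q y)⁻¹ • g y,
    ⟨?_, ?_, fun y => ?_, fun y => ?_, fun η hη => ?_⟩, ?_, ?_⟩
  · exact IsLocallyFiniteMeasure.withDensity_ofReal hqc
  · exact ((hqc.inv₀ fun y => (hq0 y).ne').smul hgc).measurable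
  · exact cone_smul (cone_of_posDef (hPD y)) (inv_nonneg.2 (hq0 y).le)
  · rw [Q_smul_left]
    exact inv_mul_cancel₀ (hq0 y).ne'
  · rw [integral_withDensity_eq_integral_toReal_smul hmq
      (Filter.Eventually.of_forall fun y => ENNReal.ofReal_lt_top)]
    have h1 : ∀ y, (ENNReal.ofReal (q y)).toReal • Q ((q y)⁻¹ • g y) (d1 η y) =
        Q (d1 η y) (g y) := by
      intro y
      rw [ENNReal.toReal_ofReal (hq0 y).le, Q_smul_left, smul_eq_mul, ← mul_assoc,
        mul_inv_cancel₀ (hq0 y).ne', one_mul, Q_comm]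
    simp only [h1]
    exact stokes4 (hη.1.of_le (by norm_num)) hη.2 (hgs.of_le (by norm_num)) (hw0.2 a)
  · intro K hK
    obtain ⟨c, hc0, hc⟩ : ∃ c, 0 < c ∧ ∀ y ∈ K, c ≤ q y := by
      rcases K.eq_empty_or_nonempty with h | h
      · exact ⟨1, one_pos, by simp only [h, mem_empty_iff_false, IsEmpty.forall_iff, implies_true]⟩
      · obtain ⟨y0, -, hy0'⟩ := hK.exists_isMinOn h hqc.continuousOn
        exact ⟨_, hq0 y0, fun y hy => hy0' hy⟩
    refine ⟨ENNReal.ofReal c⁻¹, ENNReal.ofReal_ne_top, ?_⟩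
    rw [Measure.le_iff]
    intro S hS
    rw [Measure.restrict_apply hS, Measure.smul_apply, withDensity_apply _ hS, smul_eq_mul,
      ← lintegral_const_mul _ hmq]
    calc volume (S ∩ K) = ∫⁻ y in S ∩ K, 1 := by rw [setLIntegral_one]
      _ ≤ ∫⁻ y in S ∩ K, ENNReal.ofReal c⁻¹ * ENNReal.ofReal (q y) := by
          refine setLIntegral_mono' (hS.inter hK.measurableSet) fun y hy => ?_
          rw [← ENNReal.ofReal_mul (by positivity), ← ENNReal.ofReal_one]
          apply ENNReal.ofReal_le_ofReal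
          rw [inv_mul_eq_div, one_le_div hc0]
          exact hc y hy.2
      _ ≤ _ := lintegral_mono_set inter_subset_left
  · intro K hK
    have hcont : Continuous fun p : V4 × V4 =>
        Q ((q p.1)⁻¹ • g p.1) (wd p.2 (T4.cc (M.J a p.1) p.2)) := by
      have h1 : Continuous fun p : V4 × V4 => (q p.1)⁻¹ • g p.1 :=
        (((hqc.inv₀ fun y => (hq0 y).ne').smul hgc).comp continuous_fst)
      have h2 : Continuous fun p : V4 × V4 => T4.cc (M.J a p.1) p.2 :=
        EMF.continuous_cc.comp (((M.J_smooth a).continuous.comp continuous_fst).prodMk continuous_snd)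
      have h3 : Continuous fun p : V4 × V4 => wd p.2 (T4.cc (M.J a p.1) p.2) :=
        EMF.continuous_wd.comp (continuous_snd.prodMk h2)
      exact continuous_Q.comp (h1.prodMk h3)
    have hpos : ∀ p : V4 × V4, p.2 ≠ 0 →
        0 < Q ((q p.1)⁻¹ • g p.1) (wd p.2 (T4.cc (M.J a p.1) p.2)) := by
      rintro ⟨x, b⟩ hb
      show 0 < Q ((q x)⁻¹ • g x) (wd b (T4.cc (M.J a x) b))
      rw [Q_smul_left, Q_comm]
      refine mul_pos (inv_pos.2 (hq0 x)) ?_
      refine Q_posDef_pos (M.J_cx a x) (M.J_pos a x) (cone_wd (M.J_cx a x) b) ?_ (hPD x)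
      exact wd_cc_ne (M.J_cx a x) hb
    have hKc : IsCompact (K ×ˢ Metric.sphere (0 : V4) 1) := hK.prod (isCompact_sphere _ _)
    obtain ⟨c, hc0, hc⟩ : ∃ c, 0 < c ∧ ∀ p ∈ K ×ˢ Metric.sphere (0 : V4) 1,
        c ≤ Q ((q p.1)⁻¹ • g p.1) (wd p.2 (T4.cc (M.J a p.1) p.2)) := by
      rcases (K ×ˢ Metric.sphere (0 : V4) 1).eq_empty_or_nonempty with h | h
      · exact ⟨1, one_pos, fun p hp => by rw [h] at hp; exact absurd hp (Set.notMem_empty _)⟩
      · obtain ⟨p0, hp0, hp0'⟩ := hKc.exists_isMinOn h hcont.continuousOn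
        refine ⟨_, hpos p0 ?_, fun p hp => hp0' hp⟩
        intro h0
        have h2 : ‖p0.2‖ = 1 := by
          have := hp0.2
          rwa [mem_sphere_zero_iff_norm] at this
        rw [h0, norm_zero] at h2
        exact zero_ne_one h2
    refine ⟨c, hc0, fun x hx b => ?_⟩
    rcases eq_or_ne b 0 with h0 | h0
    · rw [h0, norm_zero, cc_zero', wd_zero']
      simp
    · have hvn : 0 < ‖b‖ := norm_pos_iff.2 h0
      have h1 := hc (x, ‖b‖⁻¹ • b) ⟨hx, by
        rw [mem_sphere_zero_iff_norm, norm_smul, norm_inv, norm_norm, inv_mul_cancel₀ hvn.ne']⟩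
      have h2 : Q ((q x)⁻¹ • g x) (wd b (T4.cc (M.J a x) b)) = ‖b‖ ^ 2 *
          Q ((q x)⁻¹ • g x) (wd (‖b‖⁻¹ • b) (T4.cc (M.J a x) (‖b‖⁻¹ • b))) := by
        rw [cc_smul, wd_smul_left, wd_smul_right, Q_smul_right, Q_smul_right]
        field_simp
      show c * ‖b‖ ^ 2 ≤ Q ((q x)⁻¹ • g x) (wd b (T4.cc (M.J a x) b))
      rw [h2]
      have h3 := mul_le_mul_of_nonneg_left h1 (sq_nonneg ‖b‖)
      simp only at h3
      linarith only [h3]

theorem lcurF [CompactSpace X] (a : M.A) {t : Measure X} {D : X → L2} (ht : FnSys.Cur t D)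
    {f : X → L2} (hf : Measurable f) (hf2 : Integrable (fun x => ‖f x‖ ^ 2) M.mu)
    (hfa : ∀ x, pull J0 (f x) = -f x)
    (hT : ∀ e ∈ M.Ex, FnSys.fn t D (e : X → L2) + ∫ x, Q (f x) ((e : X → L2) x) ∂M.mu = 0) :
    LCurF (M.J a) (M.ra a t D) (M.Dn a D) (M.cf a f) := by
  have := ht.fin
  have hcm : Measurable (M.cf a f) := measurable_pull (M.m_meas a) (hf.comp (M.measurable_ψ a))
  refine ⟨ra_locallyFinite a t ht.cone ht.norm, measurable_Dn a ht.meas, Dn_cone a ht.cone ht.norm,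
    Dn_norm a ht.cone ht.norm, hcm, fun K hK => ?_, fun y => ?_, fun η hη => ?_⟩
  · obtain ⟨R, hR⟩ := hK.isBounded.subset_closedBall 0
    obtain ⟨C, hC1, hC⟩ := M.exists_cf_bound a R
    obtain ⟨c, Cd, hc0, _, hc⟩ := M.exists_det_bound a R
    refine ⟨(hcm.norm.pow_const 2).aestronglyMeasurable, ?_⟩
    have hgm : Measurable fun x => ENNReal.ofReal (‖f x‖ ^ 2) :=
      (hf.norm.pow_const 2).ennreal_ofReal
    have h1 : ∫⁻ y in K, ‖‖M.cf a f y‖ ^ 2‖ₑ ≤ ENNReal.ofReal (C ^ 2 * c⁻¹) *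
        ∫⁻ x, ENNReal.ofReal (‖f x‖ ^ 2) ∂M.mu := by
      calc ∫⁻ y in K, ‖‖M.cf a f y‖ ^ 2‖ₑ
          ≤ ∫⁻ y in Metric.closedBall 0 R, ‖‖M.cf a f y‖ ^ 2‖ₑ := lintegral_mono_set hR
        _ ≤ ∫⁻ y in Metric.closedBall 0 R, ENNReal.ofReal (C ^ 2 * c⁻¹) *
            (ENNReal.ofReal (det4 (M.m a y)) * ENNReal.ofReal (‖f (M.ψ a y)‖ ^ 2)) := by
            refine setLIntegral_mono' measurableSet_closedBall fun y hy => ?_
            rw [mem_closedBall_zero_iff] at hy
            have h4 := (hC y hy f).1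
            have h5 := (hc y hy).1
            have h6 := M.m_det a y
            rw [← ENNReal.ofReal_mul h6.le, ← ENNReal.ofReal_mul (by positivity),
              Real.enorm_of_nonneg (by positivity)]
            apply ENNReal.ofReal_le_ofReal
            have h7 : 1 ≤ c⁻¹ * det4 (M.m a y) := by
              rw [inv_mul_eq_div, one_le_div hc0]; exact h5
            have h8 : ‖M.cf a f y‖ ^ 2 ≤ (C * ‖f (M.ψ a y)‖) ^ 2 :=
              pow_le_pow_left₀ (norm_nonneg _) h4 2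
            have h9 : (C * ‖f (M.ψ a y)‖) ^ 2 * 1 ≤
                (C * ‖f (M.ψ a y)‖) ^ 2 * (c⁻¹ * det4 (M.m a y)) :=
              mul_le_mul_of_nonneg_left h7 (by positivity)
            calc _ ≤ _ := h8
              _ ≤ (C * ‖f (M.ψ a y)‖) ^ 2 * (c⁻¹ * det4 (M.m a y)) := by linarith only [h9]
              _ = _ := by ring
        _ = ENNReal.ofReal (C ^ 2 * c⁻¹) * ∫⁻ x in M.ψ a '' Metric.closedBall 0 R,
              ENNReal.ofReal (‖f x‖ ^ 2) ∂M.mu := by
            rw [M.lintegral_image a measurableSet_closedBall hgm, lintegral_const_mul]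
            exact (M.measurable_dens' a).mul (hgm.comp (M.measurable_ψ a))
        _ ≤ _ := by
            gcongr
            exact Measure.restrict_le_self
    refine lt_of_le_of_lt h1 (ENNReal.mul_lt_top ENNReal.ofReal_lt_top ?_)
    have h2 := hf2.2
    refine lt_of_le_of_lt (lintegral_mono fun x => ?_) h2
    rw [Real.enorm_of_nonneg (by positivity)]
  · unfold cf
    rw [M.pull_m_J, hfa, pull_neg]
  · have h1 := integral_ra (M := M) a t ht.meas ht.cone ht.norm MeasurableSet.univ (d1 η)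
    rw [preimage_univ, Measure.restrict_univ, Measure.restrict_univ] at h1
    rw [h1]
    have hη' : TF1 η := hη
    have h2 := hT ⟨M.ext a (d1 η), M.ext_mem_Om a (d1_smooth hη') (d1_support hη')⟩
      (Submodule.subset_span ⟨a, η, hη', rfl⟩)
    have h3 : ∫ y, Q (M.cf a f y) (d1 η y) = ∫ x, Q (f x) (M.ext a (d1 η) x) ∂M.mu := by
      have := M.integral_ext a (d1 η) f
      calc ∫ y, Q (M.cf a f y) (d1 η y) = ∫ y, Q (d1 η y) (M.cf a f y) := by
            congr 1; funext y; exact Q_comm _ _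
        _ = ∫ x, Q (M.ext a (d1 η) x) (f x) ∂M.mu := this.symm
        _ = _ := by congr 1; funext x; exact Q_comm _ _
    rw [h3]
    exact h2

/-- E: El Mir on `X` for `T + φ` along the polar set of a closed positive current `(p, E)` -/
theorem elmir_T_of (hD1 : StD1) (hD2 : StD2) [CompactSpace X] (M : CM X)
    {w0 : X → L2} (hw0 : M.IsCl w0) (hw0p : ∀ x, PosDef J0 (w0 x))
    {p : Measure X} {E : X → L2} (hp : FnSys.Cur p E)
    (hpc : ∀ e ∈ M.Ex, FnSys.fn p E (e : X → L2) = 0)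
    (hd : ∃ C : ℝ, ∀ x (r : ℝ), 0 < r → r ≤ 1 → (p (Metric.ball x r)).toReal ≤ C * r ^ 2)
    {t : Measure X} {D : X → L2} (ht : FnSys.Cur t D)
    (f : X → L2) (hf : Measurable f) (hf2 : Integrable (fun x => ‖f x‖ ^ 2) M.mu)
    (hfa : ∀ x, pull J0 (f x) = -f x)
    (hT : ∀ e ∈ M.Ex, FnSys.fn t D (e : X → L2) + ∫ x, Q (f x) ((e : X → L2) x) ∂M.mu = 0) :
    MeasurableSet {x | potX p x < ⊤} ∧ ∀ e ∈ M.Ex,
      FnSys.fn (t.restrict {x | potX p x < ⊤}) D (e : X → L2) +
        ∫ x, Q (f x) ((e : X → L2) x) ∂M.mu = 0 := by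
  have := hp.fin
  have := ht.fin
  have hS : MeasurableSet {x | potX p x < ⊤} :=
    measurableSet_lt (measurable_potX p) measurable_const
  refine ⟨hS, ?_⟩
  obtain ⟨cv, -, hvol⟩ := exists_vol (M := M)
  have hae := potX_ae M.mu hvol p
  have hDb : ∃ C : ℝ, ∀ x, ‖D x‖ ≤ C := by
    obtain ⟨C, _, h⟩ := exists_norm_bound
    exact ⟨C, fun x => (h _ (ht.cone x) (ht.norm x)).1⟩
  have hint : ∀ b : M.Om, Integrable (fun x => Q (D x) ((b : X → L2) x))
      (t.restrict {x | potX p x < ⊤}) := fun b =>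
    integrable_QQ ht.meas hDb (Om_measurable b.2) (Om_bdd b.2)
  have hf1 : Integrable (fun x => ‖f x‖) M.mu := by
    refine Integrable.mono' (hf2.add (integrable_const (1 : ℝ))) hf.norm.aestronglyMeasurable
      (Filter.Eventually.of_forall fun x => ?_)
    rw [norm_norm]
    show ‖f x‖ ≤ ‖f x‖ ^ 2 + 1
    nlinarith [sq_nonneg (‖f x‖ - 1 / 2)]
  have hintf : ∀ b : M.Om, Integrable (fun x => Q (f x) ((b : X → L2) x)) M.mu := by
    intro b
    obtain ⟨C, hC⟩ := Om_bdd b.2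
    refine Integrable.mono' (hf1.mul_const (6 * C))
      (measurable_QQ hf (Om_measurable b.2)).aestronglyMeasurable
      (Filter.Eventually.of_forall fun x => ?_)
    rw [Real.norm_eq_abs]
    refine (abs_Q_le _ _).trans ?_
    have h1 := hC x
    have h2 := mul_le_mul_of_nonneg_left h1 (norm_nonneg (f x))
    linarith only [h2]
  have hchart : ∀ (a : M.A) (η : V4 → V4), TF η →
      ∫ x in {x | potX p x < ⊤}, Q (D x) (M.ext a (d1 η) x) ∂t +
        ∫ x, Q (f x) (M.ext a (d1 η) x) ∂M.mu = 0 := by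
    intro a η hη
    obtain ⟨E3⟩ := hD1 (M.J_smooth a) (M.J_cx a) (M.J_pos a)
      (lcur a p hp.meas hp.cone hp.norm hpc) (dens2_ra a hp.cone hp.norm hd)
    obtain ⟨r0, D0, h0, hdom, hlow⟩ := exists_lcur0 a hw0 hw0p
    have hae' : ∀ᵐ y : V4, pot (M.ra a p E) y < ⊤ := by
      filter_upwards [Hil.ae_chart M a hae] with y hy
      exact (pot_iff_X a p hp.meas hp.cone hp.norm y).2 hy
    have h := hD2 (M.J_smooth a) (M.J_cx a) (M.J_pos a) E3 h0 hdom hlow hae'
      (lcurF a ht hf hf2 hfa hT) η hη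
    have h1 : {y | pot (M.ra a p E) y < ⊤} = M.ψ a ⁻¹' {x | potX p x < ⊤} := by
      ext y
      exact pot_iff_X a p hp.meas hp.cone hp.norm y
    rw [h1, integral_ra a t ht.meas ht.cone ht.norm hS] at h
    have h3 : ∫ y, Q (M.cf a f y) (d1 η y) = ∫ x, Q (f x) (M.ext a (d1 η) x) ∂M.mu := by
      have := M.integral_ext a (d1 η) f
      calc ∫ y, Q (M.cf a f y) (d1 η y) = ∫ y, Q (d1 η y) (M.cf a f y) := by
            congr 1; funext y; exact Q_comm _ _
        _ = ∫ x, Q (M.ext a (d1 η) x) (f x) ∂M.mu := this.symm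
        _ = _ := by congr 1; funext x; exact Q_comm _ _
    rw [h3] at h
    exact h
  intro e he
  show ∫ x in {x | potX p x < ⊤}, Q (D x) ((e : X → L2) x) ∂t + _ = 0
  induction he using Submodule.span_induction with
  | mem x hx =>
    obtain ⟨a, η, hη, rfl⟩ := hx
    exact hchart a η hη
  | zero => simp only [ZeroMemClass.coe_zero, Pi.zero_apply, Q_zero_right, integral_zero, add_zero]
  | add x y _ _ hx hy =>
    have e1 : (fun z => Q (D z) (((x + y : M.Om) : X → L2) z)) =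
        fun z => Q (D z) ((x : X → L2) z) + Q (D z) ((y : X → L2) z) := by
      funext z
      rw [← Q_add_right]; rfl
    have e2 : (fun z => Q (f z) (((x + y : M.Om) : X → L2) z)) =
        fun z => Q (f z) ((x : X → L2) z) + Q (f z) ((y : X → L2) z) := by
      funext z
      rw [← Q_add_right]; rfl
    rw [e1, e2, integral_add (hint x) (hint y), integral_add (hintf x) (hintf y)]
    linarith only [hx, hy]
  | smul c x _ hx =>
    have e1 : (fun z => Q (D z) (((c • x : M.Om) : X → L2) z)) =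
        fun z => c * Q (D z) ((x : X → L2) z) := by
      funext z
      rw [← Q_smul_right]; rfl
    have e2 : (fun z => Q (f z) (((c • x : M.Om) : X → L2) z)) =
        fun z => c * Q (f z) ((x : X → L2) z) := by
      funext z
      rw [← Q_smul_right]; rfl
    rw [e1, e2, integral_const_mul, integral_const_mul, ← mul_add, hx, mul_zero]

end CM
end Vale.Agent.P204.GX
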