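import Vale.Agent.P204.Bdl.B8
import Vale.Agent.P204.CV.DefsF
attribute [-instance] ProperSMul.toContinuousSMul IsTopologicalTorsor.toContinuousSMul IdemSemiring.toCanonicallyOrderedAdd IdemSemiring.toMulLeftMono IdemSemiring.toMulRightMono AddQuantale.instAddLeftMono AddQuantale.instAddRightMono Quantale.instMulLeftMono Quantale.instMulRightMono FiniteDimensional.rclike_to_real IsScalarTower.complexToReal FiniteDimensional.complexToReal

set_option linter.all false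

/-!
# P204, class version, package F1 (helper941): the smoothing system with the pairing estimate
for every smooth form (`HasPG`).  The proofs follow `CM.exists_F_U`, `CM.exists_PF` and
`sysStatementB` of `Bdl.B8`.
-/

section

open scoped BigOperators ContDiff Topology ENNReal
open MeasureTheory Set

namespace Vale.Agent.P204.GX
open T4

namespace CM
variable {X : Type} [MetricSpace X] (M : CM X)
variable [MeasurableSpace X] [BorelSpace X]

omit [MeasurableSpace X] [BorelSpace X] in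
/-- The transport of a smooth form `g` is `O(w)`-close to `g`. -/
theorem exists_g_U {g : X → L2} (hg : g ∈ M.Om) : ∃ C : ℝ, 0 ≤ C ∧ ∀ w : M.A → V4, ‖w‖ ≤ 1 → ‖w‖ ≤ M.z1 → ∀ x,
    ‖g x - M.U w g x‖ ≤ C * ‖w‖ := by
  have h1 : ∀ a : M.A, ∃ C : ℝ, 0 ≤ C ∧ ∀ w : M.A → V4, ‖w‖ ≤ 1 → ‖w‖ ≤ M.z1 →
      ∀ y : V4, ‖y‖ ≤ 1 → ‖g (M.ψ a y) - M.U w g (M.ψ a y)‖ ≤ C * ‖w‖ := by
    intro a
    have hc : ContDiff ℝ ∞ (Function.uncurry fun (w : M.A → V4) (y : V4) =>
        M.cf a g y - M.ker a g w y) :=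
      ((hg a).comp contDiff_snd).sub (M.contDiff_ker a hg)
    have h0 : ∀ y, M.cf a g y - M.ker a g 0 y = 0 := by
      intro y
      have h : M.HH a 0 = fun y => y := funext fun y => M.HH_zero a y
      unfold ker
      rw [h, Dm_id, pull_one, sub_self]
    obtain ⟨C, hC, hlip⟩ := exists_lip0 hc h0 1 1
    obtain ⟨D, hD, hcf⟩ := M.exists_cf_bound a 1
    refine ⟨D * C, by positivity, fun w hw hw' y hy => ?_⟩
    have h2 := (hcf y hy (g - M.U w g)).2
    have h3 : M.cf a (g - M.U w g) y =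
        M.cf a g y - M.ker a g w y := by
      rw [M.cf_sub, Pi.sub_apply, M.cf_U a hw' _ (by linarith only [hy])]
      rfl
    rw [h3] at h2
    calc ‖g (M.ψ a y) - M.U w g (M.ψ a y)‖ ≤ D * (C * ‖w‖) :=
          h2.trans (by gcongr; exact hlip w y hw hy)
      _ = D * C * ‖w‖ := by ring
  choose C hC h using h1
  refine ⟨∑ a, C a, Finset.sum_nonneg fun a _ => hC a, fun w hw hw' x => ?_⟩
  have h2 := h (M.ch x) w hw hw' (M.cy x) (M.norm_cy x).le
  rw [M.ψ_cy] at h2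
  refine h2.trans ?_
  gcongr
  exact Finset.single_le_sum (fun a _ => hC a) (Finset.mem_univ _)

/-- The pairing estimate for a smooth form `g`. -/
theorem exists_PG {g : X → L2} (hg : g ∈ M.Om) : ∃ δ0 c : ℝ, 0 < δ0 ∧ 1 ≤ c ∧ ∀ (δ : ℝ) (b : M.Om), 0 < δ → δ ≤ δ0 →
    |∫ x, Q (g x) (M.S0 δ b x) ∂M.mu - ∫ x, Q (g x) ((b : X → L2) x) ∂M.mu| ≤
      c * δ * ∫ x, ‖(b : X → L2) x‖ ∂M.mu := by
  obtain ⟨s, C, hs, hC, hL1⟩ := M.exists_L1_U
  obtain ⟨D, hD, hF⟩ := M.exists_g_U hg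
  have hz1 := M.z1_pos
  have hvi := vinv_pos
  refine ⟨min (min s 1) (min M.z1 (vinv / 2)), max 1 (6 * D * C),
    lt_min (lt_min hs one_pos) (lt_min hz1 (by linarith)), le_max_left _ _,
    fun δ b h0 h1 => ?_⟩
  have hds : δ ≤ s := h1.trans ((min_le_left _ _).trans (min_le_left _ _))
  have hd1 : δ ≤ 1 := h1.trans ((min_le_left _ _).trans (min_le_right _ _))
  have hdz : δ ≤ M.z1 := h1.trans ((min_le_right _ _).trans (min_le_left _ _))
  have hdv : δ ≤ vinv / 2 := h1.trans ((min_le_right _ _).trans (min_le_right _ _))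
  have hFO := hg
  have hFc : ∀ a, Continuous (M.cf a g) := fun a => (hFO a).continuous
  have hbO : (b : X → L2) ∈ M.Om := b.2
  set N := ∫ x, ‖(b : X → L2) x‖ ∂M.mu with hN
  have hN0 : 0 ≤ N := integral_nonneg fun x => norm_nonneg _
  have e1 : ∫ x, Q (g x) (M.S0 δ b x) ∂M.mu = ∫ z, M.rr z * M.pr g (M.U (δ • z) b) :=
    M.pr_S0 h0.le hdz hFc hbO
  have e2 : ∫ x, Q (g x) ((b : X → L2) x) ∂M.mu = ∫ z, M.rr z * M.pr g b := by
    rw [integral_mul_const, M.bump_rr.int, one_mul]; rfl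
  have hrr : Integrable M.rr :=
    M.bump_rr.smooth.continuous.integrable_of_hasCompactSupport M.hasCompactSupport_rr
  rw [e1, e2, ← integral_sub (M.integrable_pr_U h0.le hdz hFc hbO) (hrr.mul_const _)]
  have key : ∀ w : M.A → V4, ‖w‖ ≤ δ →
      |M.pr g (M.U w b) - M.pr g b| ≤ 6 * D * C * δ * N := by
    intro w hw
    have hwv : ‖w‖ < vinv := by linarith only [h0, hdv, hw]
    rw [← M.pr_U hwv hFO hbO]
    have hUb := M.U_mem_Om w hbO
    have hUF := M.U_mem_Om w hFO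
    have e3 : M.pr g (M.U w b) - M.pr (M.U w g) (M.U w b) =
        ∫ x, Q (g x - M.U w g x) (M.U w b x) ∂M.mu := by
      unfold pr
      rw [← integral_sub (M.integrable_Q hFc fun a => (hUb a).continuous)
        (M.integrable_Q (fun a => (hUF a).continuous) fun a => (hUb a).continuous)]
      refine integral_congr_ae (Filter.Eventually.of_forall fun x => ?_)
      exact (Q_sub_left _ _ _).symm
    rw [e3]
    have h2 : ∀ x, ‖Q (g x - M.U w g x) (M.U w b x)‖ ≤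
        6 * (D * δ) * ‖M.U w b x‖ := by
      intro x
      refine (abs_Q_le _ _).trans ?_
      have h3 := hF w (hw.trans hd1) (hw.trans hdz) x
      have h4 : ‖g x - M.U w g x‖ ≤ D * δ := h3.trans (by gcongr)
      gcongr
    calc |∫ x, Q (g x - M.U w g x) (M.U w b x) ∂M.mu|
        ≤ ∫ x, 6 * (D * δ) * ‖M.U w b x‖ ∂M.mu :=
          norm_integral_le_of_norm_le ((M.integrable_norm hUb).const_mul _)
            (Filter.Eventually.of_forall h2)
      _ = 6 * (D * δ) * ∫ x, ‖M.U w b x‖ ∂M.mu := integral_const_mul _ _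
      _ ≤ 6 * (D * δ) * (C * N) := by
          gcongr
          exact hL1 _ hbO w (hw.trans hds)
      _ = _ := by ring
  have h5 : ∀ z, ‖M.rr z * M.pr g (M.U (δ • z) b) - M.rr z * M.pr g b‖ ≤
      M.rr z * (6 * D * C * δ * N) := by
    intro z
    have hr := M.bump_rr.nonneg z
    rw [← mul_sub, norm_mul, Real.norm_eq_abs, abs_of_nonneg hr]
    by_cases hz : ‖z‖ ≤ 1
    · have h6 : ‖δ • z‖ ≤ δ := by
        rw [norm_smul, Real.norm_eq_abs, abs_of_nonneg h0.le]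
        calc δ * ‖z‖ ≤ δ * 1 := by gcongr
          _ = δ := mul_one _
      exact mul_le_mul_of_nonneg_left (key _ h6) hr
    · rw [M.bump_rr.supp z (not_le.1 hz)]
      simp
  have h6 := norm_integral_le_of_norm_le (hrr.mul_const (6 * D * C * δ * N))
    (Filter.Eventually.of_forall h5)
  rw [integral_mul_const, M.bump_rr.int, one_mul] at h6
  refine h6.trans ?_
  calc 6 * D * C * δ * N = (6 * D * C) * (δ * N) := by ring
    _ ≤ max 1 (6 * D * C) * (δ * N) := by gcongr; exact le_max_right _ _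
    _ = _ := by ring

end CM
end Vale.Agent.P204.GX
end

section
set_option linter.all false

/-!
The smoothing system of a closed manifold at the level of functions.
-/

open MeasureTheory Set Metric
open scoped ContDiff ENNReal NNReal BigOperators InnerProductSpace Topology

namespace Vale.Agent.P204.GX
open T4 _root_.P204.GX

theorem sysStatementC (X : Type) [MetricSpace X] [CompactSpace X] [MeasurableSpace X] [BorelSpace X]
    [Nonempty X] (M : CM X) : ∃ Z : FnSys X, Z.μ = M.mu ∧ (∀ u : X → L2, u ∈ Z.Om ↔ u ∈ M.Om) ∧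
      (∀ b : Z.Om, b ∈ Z.Y.Cl ↔ ∀ a, Closed (M.cf a (b : X → L2))) ∧
      (∀ b : Z.Om, b ∈ Z.Y.Ex ↔ ∃ e ∈ M.Ex, (e : X → L2) = (b : X → L2)) ∧
      (∀ m, ∃ K : ℝ, 0 ≤ K ∧ ∀ δ (b : Z.Om), 0 < δ → δ ≤ 1 →
        Z.Y.N m δ b ≤ K * M.NN m δ (b : X → L2)) ∧ HasPG Z := by
  obtain ⟨d0, hd0, hsc⟩ := M.exists_scale
  obtain ⟨e0, c0, he0, hc0, hz0, P0⟩ := M.exists_P0
  obtain ⟨e1, c1, he1, hc1, hz1, P1⟩ := M.exists_P1
  obtain ⟨e3, c3, he3, hc3, P3⟩ := M.exists_P3
  obtain ⟨eF, cF, heF, hcF, PF⟩ := M.exists_PF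
  obtain ⟨cv, hcv, hv⟩ := CM.exists_vol (M := M)
  obtain ⟨δ1, h1pos, h1d, h1e0, h1e1, h1e3, h1eF⟩ : ∃ δ1 : ℝ, 0 < δ1 ∧ δ1 ≤ d0 ∧ δ1 ≤ e0 ∧ δ1 ≤ e1 ∧
      δ1 ≤ e3 ∧ δ1 ≤ eF :=
    ⟨min d0 (min e0 (min e1 (min e3 eF))), by positivity, min_le_left _ _,
      (min_le_right _ _).trans (min_le_left _ _),
      (min_le_right _ _).trans ((min_le_right _ _).trans (min_le_left _ _)),
      (min_le_right _ _).trans ((min_le_right _ _).trans ((min_le_right _ _).trans (min_le_left _ _))),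
      (min_le_right _ _).trans ((min_le_right _ _).trans ((min_le_right _ _).trans (min_le_right _ _)))⟩
  have hs := hsc δ1 h1pos h1d
  obtain ⟨Z, hι, hst, hpm, hpmH, hCl, hEx, hδ, hS, hM0, hN⟩ := CM.exists_Sys0 M hs
  obtain ⟨c, hc1', lc0, lc1, lc3, lcF, lcv⟩ : ∃ c : ℝ, 1 ≤ c ∧ c0 ≤ c ∧ c1 ≤ c ∧ c3 ≤ c ∧ cF ≤ c ∧ cv ≤ c :=
    ⟨c0 + c1 + c3 + cF + cv, by linarith only [hc0, hc1, hc3, hcF, hcv], by linarith only [hc1, hc3, hcF, hcv], by linarith only [hc0, hc3, hcF, hcv], by linarith only [hc0, hc1, hcF, hcv], by linarith only [hc0, hc1, hc3, hcv], by linarith only [hc0, hc1, hc3, hcF]⟩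
  have hSS : ∀ (δ : ℝ) (b : M.Om), 0 < δ → δ ≤ δ1 →
      ((Z.toSmSys.S δ (Z.toSmSys.ι b) : M.Om) : X → L2) = M.S0 δ b := by
    intro δ b h0 h1
    have e1 : Z.toSmSys.S δ (Z.toSmSys.ι b) = Z.S0 δ b := Z.S_ι h0 (h1.trans hδ.ge) b
    rw [e1, hS]
    exact M.S0L_coe h0.le (h1.trans hs.le_z1) b
  have hint : ∀ (b : M.Om) x {s t : ℝ}, s ≤ t →
      ∫ y in ball x s, ‖(b : X → L2) y‖ ∂M.mu ≤ ∫ y in ball x t, ‖(b : X → L2) y‖ ∂M.mu :=
    fun b x s t h => M.mono_ball b.2 x h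
  have hint0 : ∀ (b : M.Om) x (s : ℝ), 0 ≤ ∫ y in ball x s, ‖(b : X → L2) y‖ ∂M.mu :=
    fun b x s => integral_nonneg fun y => norm_nonneg _
  have hcont : ∀ (b : M.Om) a, Continuous (M.cf a (b : X → L2)) := fun b a => (b.2 a).continuous
  have hG : ∀ g : M.Om, ∃ C δg : ℝ, 0 ≤ C ∧ 0 < δg ∧ ∀ δ (b : M.Om), 0 < δ → δ ≤ δg →
      |∫ x, Q ((g : X → L2) x) (((Z.toSmSys.S δ (Z.toSmSys.ι b) : M.Om) : X → L2) x) ∂M.mu -
        ∫ x, Q ((g : X → L2) x) ((b : X → L2) x) ∂M.mu| ≤ C * δ * ∫ x, ‖(b : X → L2) x‖ ∂M.mu := by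
    intro g
    obtain ⟨eG, cG, heG, hcG, PG⟩ := M.exists_PG g.2
    refine ⟨cG, min δ1 eG, by linarith only [hcG], lt_min h1pos heG, fun δ b h0 h1 => ?_⟩
    rw [hSS δ b h0 (h1.trans (min_le_left _ _))]
    exact PG δ b h0 (h1.trans (min_le_right _ _))
  refine ⟨{
    μ := M.mu
    μfin := inferInstance
    Om := M.Om
    Y := Z.toSmSys
    meas := fun b hb => Hil.measurable_Om M hb
    ι_eq := fun b => by
      show (Z.ι b : X → E6) =ᵐ[M.mu] _
      rw [hι]; exact Hil.io_ae M b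
    st_eq := fun u => by
      show (Z.st u : X → E6) =ᵐ[M.mu] _
      rw [hst]; exact Hil.stH_ae M u
    pm_eq := fun b x => by
      show (Z.pm b : X → L2) x = _
      rw [hpm]; rfl
    pmH_eq := fun u => by
      show (Z.pmH u : X → E6) =ᵐ[M.mu] _
      rw [hpmH]; exact Hil.pmH_ae M u
    M0 := hM0
    F := M.FOm
    F_eq := fun x => rfl
    c := c
    one_le_c := hc1'
    vol := fun x r hr => (hv x r hr).trans (by gcongr)
    P0 := ?_
    P1 := ?_
    P3 := ?_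
    PF := ?_
    pos_dense := fun v h => Hil.pos_detect M v (fun b hb => by
      have := h b hb
      rwa [show Z.toSmSys.ι b = Hil.io M b by rw [← hι]; rfl] at this) }, rfl, fun _ => Iff.rfl, ?_, ?_, ?_, ?_⟩
  · intro δ b x h0 h1
    have h1' : δ ≤ δ1 := h1.trans hδ.le
    rw [hSS δ b h0 h1']
    refine (P0 δ b (hcont b) x h0 (h1'.trans h1e0)).trans ?_
    have := hint b x (mul_le_mul_of_nonneg_right lc0 h0.le)
    have := hint0 b x (c0 * δ)
    gcongr
  · intro δ b x h0 h1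
    have h1' : δ ≤ δ1 := h1.trans hδ.le
    rw [hSS δ _ h0 h1']
    have e : ((Z.toSmSys.pm b : M.Om) : X → L2) = fun x => pM J0 ((b : X → L2) x) := by
      show ((Z.pm b : M.Om) : X → L2) = _
      rw [hpm]; rfl
    rw [e]
    refine (P1 δ b (hcont b) x h0 (h1'.trans h1e1)).trans ?_
    have := hint b x (mul_le_mul_of_nonneg_right lc1 h0.le)
    have := hint0 b x (c1 * δ)
    gcongr
  · intro δ b x h0 h1 hb
    have h1' : δ ≤ δ1 := h1.trans hδ.le
    rw [hSS δ b h0 h1']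
    have h2 := P3 δ b x h0 (h1'.trans h1e3) hb
    have h3 : c3 * δ ^ 2 * (δ ^ 4)⁻¹ * ∫ y in ball x (c3 * δ), ‖(b : X → L2) y‖ ∂M.mu ≤
        c * δ ^ 2 * (δ ^ 4)⁻¹ * ∫ y in ball x (c * δ), ‖(b : X → L2) y‖ ∂M.mu := by
      have := hint b x (mul_le_mul_of_nonneg_right lc3 h0.le)
      have := hint0 b x (c3 * δ)
      gcongr
    have h4 := G7.cone_add h2 (G7.cone_smul (sub_nonneg.2 h3) G7.cone_F0')
    convert h4 using 1
    module
  · intro δ b h0 h1
    have h1' : δ ≤ δ1 := h1.trans hδ.le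
    rw [hSS δ b h0 h1']
    refine (PF δ b h0 (h1'.trans h1eF)).trans ?_
    have : 0 ≤ ∫ x, ‖(b : X → L2) x‖ ∂M.mu := integral_nonneg fun y => norm_nonneg _
    gcongr
  · intro b
    show b ∈ Z.Cl ↔ _
    rw [hCl]; exact Iff.rfl
  · intro b
    show b ∈ Z.Ex ↔ _
    rw [hEx]
    constructor
    · intro h; exact ⟨b, h, rfl⟩
    · rintro ⟨e, he, h⟩
      have : e = b := Subtype.ext h
      rwa [← this]
  · intro m
    refine ⟨1, zero_le_one, fun δ b h0 _ => ?_⟩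
    show Z.N m δ b ≤ _
    rw [hN m δ b h0, one_mul]
  · exact hG

end Vale.Agent.P204.GX
end
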