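import Vale.Agent.P204.Bdl.B4

set_option linter.all false

/-!
P204, class version, package F2: mutual positivity in the limit of the smoothings of two positive
currents `(t, D)`, `(p, E)` when `t` lives where the potential of `p` is finite.
-/
open MeasureTheory Set Filter Topology
open scoped ContDiff InnerProductSpace

namespace Vale.Agent.P204.GX
open Vale.Agent.P204.T4 _root_.P204.GX

namespace FnSys
open G9

variable {X : Type} [MetricSpace X] [CompactSpace X] [MeasurableSpace X] [BorelSpace X] (Z : FnSys X)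

namespace F2

/-- duality: a weighted `L1` bound of the functional `⟪w, ·⟫` gives a pointwise bound of `w` -/
theorem ae_le_of_pair (w : Lp E6 2 Z.μ) {k : ℝ} (hk : 0 ≤ k) {g : X → ℝ} (hg : Measurable g)
    (hg0 : ∀ x, 0 ≤ g x) {C : ℝ} (hb : ∀ x, g x ≤ C)
    (h : ∀ u : Lp E6 2 Z.μ, |⟪w, u⟫_ℝ| ≤ k * ∫ y, ‖u y‖ * g y ∂Z.μ) :
    ∀ᵐ x ∂Z.μ, ‖w x‖ ≤ k * g x := by
  have hμ := Z.μfin
  have hwm := Lp.stronglyMeasurable w
  set A : Set X := {x | k * g x < ‖w x‖} with hA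
  have hAm : MeasurableSet A := measurableSet_lt (hg.const_mul k) hwm.norm.measurable
  have hm : AEStronglyMeasurable (A.indicator (fun x => ‖w x‖⁻¹ • w x)) Z.μ := by
    have h2 := Lp.aestronglyMeasurable w
    exact ((h2.norm.aemeasurable.inv.aestronglyMeasurable).smul h2).indicator hAm
  have hb1 : ∀ x, ‖A.indicator (fun x => ‖w x‖⁻¹ • w x) x‖ ≤ A.indicator (fun _ => (1:ℝ)) x := by
    intro x
    by_cases hx : x ∈ A
    · rw [Set.indicator_of_mem hx, Set.indicator_of_mem hx, norm_smul, norm_inv, norm_norm]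
      rcases eq_or_ne ‖w x‖ 0 with h2 | h2
      · rw [h2]; simp only [inv_zero, mul_zero, zero_le_one]
      · rw [inv_mul_cancel₀ h2]
    · rw [Set.indicator_of_notMem hx, Set.indicator_of_notMem hx, norm_zero]
  have hb2 : ∀ᵐ x ∂Z.μ, ‖A.indicator (fun x => ‖w x‖⁻¹ • w x) x‖ ≤ 1 :=
    Filter.Eventually.of_forall (fun x => (hb1 x).trans
      (Set.indicator_le_self' (fun _ _ => zero_le_one) x))
  set u0 : Lp E6 2 Z.μ := (MemLp.of_bound hm 1 hb2).toLp _ with hu0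
  have hu : (u0 : X → E6) =ᵐ[Z.μ] A.indicator (fun x => ‖w x‖⁻¹ • w x) := MemLp.coeFn_toLp _
  have hwi : Integrable (fun x => ‖w x‖) Z.μ := (Z.memLp_norm w).integrable (by norm_num)
  have hgi : Integrable (fun x => k * g x) Z.μ :=
    (Integrable.of_bound hg.aestronglyMeasurable C (Filter.Eventually.of_forall (fun x => by
      rw [Real.norm_eq_abs, abs_of_nonneg (hg0 x)]; exact hb x))).const_mul k
  have e1 : ⟪w, u0⟫_ℝ = ∫ x in A, ‖w x‖ ∂Z.μ := by
    rw [L2.inner_def, ← integral_indicator hAm]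
    apply integral_congr_ae
    filter_upwards [hu] with x hx
    rw [hx]
    by_cases hxA : x ∈ A
    · rw [Set.indicator_of_mem hxA, Set.indicator_of_mem hxA, real_inner_smul_right,
        real_inner_self_eq_norm_sq]
      rcases eq_or_ne ‖w x‖ 0 with h2 | h2
      · rw [h2]; simp
      · field_simp
    · rw [Set.indicator_of_notMem hxA, Set.indicator_of_notMem hxA, inner_zero_right]
  have e2 : ∫ y, ‖u0 y‖ * g y ∂Z.μ ≤ ∫ y in A, g y ∂Z.μ := by
    rw [← integral_indicator hAm]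
    apply integral_mono_ae (Z.int_norm_mul u0 hg hg0 hb)
    · exact (Integrable.of_bound hg.aestronglyMeasurable C (Filter.Eventually.of_forall (fun x => by
        rw [Real.norm_eq_abs, abs_of_nonneg (hg0 x)]; exact hb x))).indicator hAm
    · filter_upwards [hu] with y hy
      show ‖u0 y‖ * g y ≤ A.indicator g y
      rw [hy]
      have h3 := mul_le_mul_of_nonneg_right (hb1 y) (hg0 y)
      refine h3.trans (le_of_eq ?_)
      by_cases hxA : y ∈ A
      · rw [Set.indicator_of_mem hxA, Set.indicator_of_mem hxA, one_mul]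
      · rw [Set.indicator_of_notMem hxA, Set.indicator_of_notMem hxA, zero_mul]
  have e3 : ∫ x in A, (‖w x‖ - k * g x) ∂Z.μ ≤ 0 := by
    rw [integral_sub hwi.integrableOn hgi.integrableOn, integral_const_mul]
    have h4 := h u0
    rw [e1] at h4
    have h5 := le_abs_self (∫ x in A, ‖w x‖ ∂Z.μ)
    have h6 := mul_le_mul_of_nonneg_left e2 hk
    linarith
  have e4 : ∀ᵐ x ∂(Z.μ.restrict A), ‖w x‖ - k * g x = 0 := by
    have hnn : ∀ᵐ x ∂(Z.μ.restrict A), 0 ≤ ‖w x‖ - k * g x := by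
      filter_upwards [ae_restrict_mem hAm] with x hx
      exact sub_nonneg.2 (le_of_lt hx)
    have h7 : ∫ x in A, (‖w x‖ - k * g x) ∂Z.μ = 0 :=
      le_antisymm e3 (integral_nonneg_of_ae hnn)
    exact (integral_eq_zero_iff_of_nonneg_ae hnn (hwi.sub hgi).integrableOn).1 h7
  rw [ae_restrict_iff' hAm] at e4
  filter_upwards [e4] with x hx
  by_contra hlt
  have hxA : x ∈ A := not_le.1 hlt
  have := hx hxA
  have h8 : k * g x < ‖w x‖ := hxA
  linarith

/-- pointwise bound of the representing vector -/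
theorem rep_ae {t : Measure X} {D : X → L2} (h : Cur t D) {δ : ℝ} (h0 : 0 < δ)
    (h1 : δ ≤ Z.Y.δ0) {w : Lp E6 2 Z.μ} (hw : Z.Rep t D δ w) :
    ∀ᵐ x ∂Z.μ, ‖w x‖ ≤ 6 * Z.maj t δ x := by
  have := h.fin
  refine ae_le_of_pair Z w (by norm_num) (Z.maj_meas t δ) (Z.maj_nonneg h0) (Z.maj_le t h0) ?_
  intro u
  have e : ⟪w, u⟫_ℝ = fn t D (Z.Y.S δ (Z.Y.st u) : X → L2) := by
    rw [← hw, Z.Y.st_st]
  rw [e]
  refine (Z.E1 h h0 h1 (Z.Y.st u)).trans (le_of_eq ?_)
  congr 1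
  apply integral_congr_ae
  filter_upwards [Z.st_eq u] with y hy
  rw [hy, norm_toE_hs, toE_ofE]

/-- pointwise bound of the anti-invariant part of the representing vector -/
theorem rep_pm_ae {t : Measure X} {D : X → L2} (h : Cur t D) {δ : ℝ} (h0 : 0 < δ)
    (h1 : δ ≤ Z.Y.δ0) {w : Lp E6 2 Z.μ} (hw : Z.Rep t D δ w) :
    ∀ᵐ x ∂Z.μ, ‖Z.Y.pmH w x‖ ≤ 6 * δ * Z.maj t δ x := by
  have := h.fin
  refine ae_le_of_pair Z (Z.Y.pmH w) (by positivity) (Z.maj_meas t δ) (Z.maj_nonneg h0)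
    (Z.maj_le t h0) ?_
  intro u
  have e : ⟪Z.Y.pmH w, u⟫_ℝ = fn t D (Z.Y.S δ (Z.Y.pmH u) : X → L2) := by
    rw [← hw, Z.Y.st_pmH, ← Z.Y.pmH_symm]
  rw [e]
  exact Z.E1m h h0 h1 u

/-- integral of the product of two majorants -/
theorem int_maj_maj (t p : Measure X) [IsFiniteMeasure t] [IsFiniteMeasure p] {δ : ℝ}
    (h0 : 0 < δ) :
    δ ^ 2 * ∫ y, Z.maj t δ y * Z.maj p δ y ∂Z.μ
      ≤ Z.c ^ 7 * ∫ x, (δ ^ 2)⁻¹ * (p (Metric.ball x (2 * Z.c * δ))).toReal ∂t := by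
  have hc := Z.c_pos
  have hμ := Z.μfin
  have e1 : ∫ y, Z.maj t δ y * Z.maj p δ y ∂Z.μ = (Z.c * (δ ^ 4)⁻¹) *
      ∫ x, ∫ y in Metric.ball x (Z.c * δ), Z.maj p δ y ∂Z.μ ∂t := by
    rw [swap t Z.μ (Z.maj_meas p δ) (C := Z.c * (δ ^ 4)⁻¹ * (p Set.univ).toReal) (by
      intro y
      rw [abs_of_nonneg (Z.maj_nonneg h0 y)]; exact Z.maj_le p h0 y), ← integral_const_mul]
    congr 1; funext y
    unfold maj; ring
  have h2 : ∀ x, ∫ y in Metric.ball x (Z.c * δ), Z.maj p δ y ∂Z.μ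
      ≤ (Z.c * (Z.c * δ) ^ 4) * (Z.c * (δ ^ 4)⁻¹ * (p (Metric.ball x (2 * Z.c * δ))).toReal) := by
    intro x
    have h3 : ∫ y in Metric.ball x (Z.c * δ), Z.maj p δ y ∂Z.μ
        ≤ ∫ _y in Metric.ball x (Z.c * δ),
          Z.c * (δ ^ 4)⁻¹ * (p (Metric.ball x (2 * Z.c * δ))).toReal ∂Z.μ := by
      apply setIntegral_mono_on (Z.maj_integrable p h0).integrableOn
        (integrable_const _).integrableOn Metric.isOpen_ball.measurableSet
      intro y hy
      unfold maj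
      have h4 : Metric.ball y (Z.c * δ) ⊆ Metric.ball x (2 * Z.c * δ) := by
        apply Metric.ball_subset_ball'
        have : dist y x < Z.c * δ := hy
        linarith
      have h5 : (p (Metric.ball y (Z.c * δ))).toReal ≤ (p (Metric.ball x (2 * Z.c * δ))).toReal :=
        ENNReal.toReal_mono (measure_ne_top _ _) (measure_mono h4)
      gcongr
    rw [setIntegral_const, smul_eq_mul] at h3
    refine h3.trans ?_
    apply mul_le_mul_of_nonneg_right (Z.vol x (Z.c * δ) (by positivity)) (by positivity)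
  have hm : Measurable (fun x => (p (Metric.ball x (2 * Z.c * δ))).toReal) :=
    measurable_ball_real p _
  have hbd : Integrable (fun x => (p (Metric.ball x (2 * Z.c * δ))).toReal) t := by
    refine Integrable.of_bound hm.aestronglyMeasurable (p Set.univ).toReal
      (Filter.Eventually.of_forall (fun y => ?_))
    rw [Real.norm_eq_abs, abs_of_nonneg ENNReal.toReal_nonneg]
    exact ENNReal.toReal_mono (measure_ne_top _ _) (measure_mono (subset_univ _))
  have h6 : ∫ x, ∫ y in Metric.ball x (Z.c * δ), Z.maj p δ y ∂Z.μ ∂t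
      ≤ ∫ x, (Z.c * (Z.c * δ) ^ 4) * (Z.c * (δ ^ 4)⁻¹ *
        (p (Metric.ball x (2 * Z.c * δ))).toReal) ∂t := by
    apply integral_mono_of_nonneg (Filter.Eventually.of_forall
      (fun x => setIntegral_nonneg Metric.isOpen_ball.measurableSet
        (fun y _ => Z.maj_nonneg h0 y))) ((hbd.const_mul _).const_mul _)
      (Filter.Eventually.of_forall h2)
  rw [e1]
  calc δ ^ 2 * ((Z.c * (δ ^ 4)⁻¹) * ∫ x, ∫ y in Metric.ball x (Z.c * δ), Z.maj p δ y ∂Z.μ ∂t)
      ≤ δ ^ 2 * ((Z.c * (δ ^ 4)⁻¹) * ∫ x, (Z.c * (Z.c * δ) ^ 4) * (Z.c * (δ ^ 4)⁻¹ *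
        (p (Metric.ball x (2 * Z.c * δ))).toReal) ∂t) := by
        apply mul_le_mul_of_nonneg_left _ (by positivity)
        exact mul_le_mul_of_nonneg_left h6 (by positivity)
    _ = Z.c ^ 7 * ∫ x, (δ ^ 2)⁻¹ * (p (Metric.ball x (2 * Z.c * δ))).toReal ∂t := by
        rw [integral_const_mul, integral_const_mul, integral_const_mul]
        field_simp

/-- the mean of the two-dimensional densities of `p` tends to zero -/
theorem mean_tendsto {t p : Measure X} [IsFiniteMeasure t] [IsFiniteMeasure p]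
    (hb : ∃ C : ℝ, ∀ x (r : ℝ), 0 < r → r ≤ 1 → (p (Metric.ball x r)).toReal ≤ C * r ^ 2)
    (hf : ∀ᵐ x ∂t, ∫⁻ y, (ENNReal.ofReal (dist x y ^ 2))⁻¹ ∂p < ⊤) :
    Tendsto (fun δ : ℝ => ∫ x, (δ ^ 2)⁻¹ * (p (Metric.ball x (2 * Z.c * δ))).toReal ∂t)
      (𝓝[>] 0) (𝓝 0) := by
  have hc := Z.c_pos
  obtain ⟨C, hC⟩ := hb
  have h1 : Filter.Tendsto (fun δ : ℝ => ∫ x, (δ ^ 2)⁻¹ *
      (p (Metric.ball x (2 * Z.c * δ))).toReal ∂t) (𝓝[>] 0) (𝓝 (∫ _x : X, (0:ℝ) ∂t)) := by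
    apply tendsto_integral_filter_of_dominated_convergence (fun _ => C * (2 * Z.c) ^ 2)
    · exact Filter.Eventually.of_forall
        (fun δ => ((measurable_ball_real p _).const_mul _).aestronglyMeasurable)
    · have h2 : Set.Ioo (0:ℝ) (1 / (2 * Z.c)) ∈ 𝓝[>] (0:ℝ) := Ioo_mem_nhdsGT (by positivity)
      filter_upwards [h2] with δ hδ
      refine Filter.Eventually.of_forall (fun x => ?_)
      have hδ0 : 0 < δ := hδ.1
      have h3 : 2 * Z.c * δ ≤ 1 := by
        have := hδ.2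
        rw [lt_div_iff₀ (by positivity)] at this
        linarith
      rw [Real.norm_eq_abs, abs_of_nonneg (by positivity)]
      have h4 := hC x (2 * Z.c * δ) (by positivity) h3
      calc (δ ^ 2)⁻¹ * (p (Metric.ball x (2 * Z.c * δ))).toReal
          ≤ (δ ^ 2)⁻¹ * (C * (2 * Z.c * δ) ^ 2) := by gcongr
        _ = C * (2 * Z.c) ^ 2 := by field_simp
    · exact integrable_const _
    · filter_upwards [hf] with x hx
      exact density_tendsto p x hx (by positivity)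
  rwa [integral_zero] at h1

end F2

/-- F2: mutual positivity in the limit when `t` lives where the potential of `p` is finite -/
theorem mutual_pair {t p : Measure X} {D E : X → L2} (ht : Cur t D) (hp : Cur p E)
    (hd : ∃ C : ℝ, ∀ x (r : ℝ), 0 < r → r ≤ 1 → (p (Metric.ball x r)).toReal ≤ C * r ^ 2)
    (hpot : ∀ᵐ x ∂t, ∫⁻ y, (ENNReal.ofReal (dist x y ^ 2))⁻¹ ∂p < ⊤) :
    ∃ κ : ℝ → ℝ, Tendsto κ (𝓝[>] 0) (𝓝 0) ∧ ∀ δ (w w' : Lp E6 2 Z.μ), 0 < δ → δ ≤ Z.Y.δ0 →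
      Z.Rep t D δ w → Z.Rep p E δ w' → -κ δ ≤ ⟪w, Z.Y.st w'⟫_ℝ := by
  have := ht.fin
  have := hp.fin
  refine ⟨fun δ => 64 * (Z.c ^ 7 * ∫ x, (δ ^ 2)⁻¹ *
    (p (Metric.ball x (2 * Z.c * δ))).toReal ∂t), ?_, ?_⟩
  · have h1 := ((F2.mean_tendsto Z hd hpot).const_mul (Z.c ^ 7)).const_mul 64
    rwa [mul_zero, mul_zero] at h1
  intro δ w w' h0 h1 hw hw'
  rw [Z.inner_st_Q]
  have hpt : ∀ᵐ x ∂Z.μ, -(64 * δ ^ 2 * (Z.maj t δ x * Z.maj p δ x))
      ≤ Q (ofE (w x)) (ofE (w' x)) := by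
    filter_upwards [Z.rep_cone ht h0 h1 hw, Z.rep_cone hp h0 h1 hw', Z.pmH_eq w, Z.pmH_eq w',
      F2.rep_ae Z ht h0 h1 hw, F2.rep_ae Z hp h0 h1 hw', F2.rep_pm_ae Z ht h0 h1 hw,
      F2.rep_pm_ae Z hp h0 h1 hw'] with x e1 e2 e3 e4 a1 a2 a3 a4
    have m1 := Z.maj_nonneg (t := t) h0 x
    have m2 := Z.maj_nonneg (t := p) h0 x
    have e6 := pair_lower (by positivity) (by positivity) e1 e2
    rw [e3] at a3
    rw [e4] at a4
    rw [toE_ofE, toE_ofE] at e6
    refine le_trans ?_ e6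
    set P := Z.maj t δ x
    set R := Z.maj p δ x
    have b1 : 2 * (δ ^ 2 * R) * ‖w x‖ ≤ 2 * (δ ^ 2 * R) * (6 * P) :=
      mul_le_mul_of_nonneg_left a1 (by positivity)
    have b2 : 2 * (δ ^ 2 * P) * ‖w' x‖ ≤ 2 * (δ ^ 2 * P) * (6 * R) :=
      mul_le_mul_of_nonneg_left a2 (by positivity)
    have b3 : ‖toE (pM J0 (ofE (w x)))‖ * ‖toE (pM J0 (ofE (w' x)))‖
        ≤ (6 * δ * P) * (6 * δ * R) :=
      mul_le_mul a3 a4 (norm_nonneg _) (by positivity)
    have hδ1 : δ ≤ 1 := h1.trans Z.Y.δ0_le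
    have b4 : 2 * (δ ^ 2 * P) * (δ ^ 2 * R) ≤ 4 * δ ^ 2 * (P * R) := by
      have c1 : δ ^ 2 ≤ 1 := pow_le_one₀ h0.le hδ1
      have c2 : δ ^ 2 * (δ ^ 2 * (P * R)) ≤ 1 * (δ ^ 2 * (P * R)) :=
        mul_le_mul_of_nonneg_right c1 (by positivity)
      have c3 : 0 ≤ δ ^ 2 * (P * R) := by positivity
      linarith only [c2, c3]
    linarith only [b1, b2, b3, b4]
  have hmm : Integrable (fun x => Z.maj t δ x * Z.maj p δ x) Z.μ := by
    refine (Z.maj_integrable t h0).mul_bdd (Z.maj_meas p δ).aestronglyMeasurable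
      (c := Z.c * (δ ^ 4)⁻¹ * (p Set.univ).toReal) (Filter.Eventually.of_forall (fun y => ?_))
    rw [Real.norm_eq_abs, abs_of_nonneg (Z.maj_nonneg h0 y)]
    exact Z.maj_le p h0 y
  have hI : Integrable (fun x => -(64 * δ ^ 2 * (Z.maj t δ x * Z.maj p δ x))) Z.μ :=
    (hmm.const_mul _).neg
  have hmono := integral_mono_ae hI (Z.Q_integrable w w') hpt
  refine le_trans ?_ hmono
  rw [integral_neg, integral_const_mul]
  have h5 := F2.int_maj_maj Z t p h0
  linarith only [h5]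

end FnSys
end Vale.Agent.P204.GX
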