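import Vale.Agent.P204.CV.DefsF

set_option linter.all false

/-! P204 class version, F34: pairing with smoothed square integrable anti-invariant forms, and
convergence of the smoothings of a smooth form. -/

open MeasureTheory Set Filter Topology
open scoped ContDiff InnerProductSpace

namespace Vale.Agent.P204.GX
open Vale.Agent.P204.T4 _root_.P204.GX

namespace H586

/-- choice of the error function -/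
theorem exists_kappa {δ0 : ℝ} (A : ℝ → Set ℝ)
    (hb : ∀ δ, 0 < δ → δ ≤ δ0 → ∃ B : ℝ, ∀ x ∈ A δ, x ≤ B)
    (hs : ∀ ε : ℝ, 0 < ε → ∃ δ1 : ℝ, 0 < δ1 ∧ ∀ δ, 0 < δ → δ ≤ δ1 → ∀ x ∈ A δ, x ≤ ε) :
    ∃ κ : ℝ → ℝ, Tendsto κ (𝓝[>] 0) (𝓝 0) ∧
      ∀ δ, 0 < δ → δ ≤ δ0 → ∀ x ∈ A δ, x ≤ κ δ := by
  refine ⟨fun δ => sSup (insert 0 (A δ)), ?_, ?_⟩
  · rw [Metric.tendsto_nhds]
    intro ε hε
    obtain ⟨δ1, hδ1, h1⟩ := hs (ε / 2) (by positivity)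
    have h2 : Set.Ioo (0 : ℝ) δ1 ∈ 𝓝[>] (0 : ℝ) := Ioo_mem_nhdsGT hδ1
    filter_upwards [h2] with δ hδ
    have h3 : ∀ x ∈ insert 0 (A δ), x ≤ ε / 2 := by
      intro x hx
      rcases hx with rfl | hx
      · positivity
      · exact h1 δ hδ.1 hδ.2.le x hx
    have h4 : sSup (insert 0 (A δ)) ≤ ε / 2 := csSup_le (insert_nonempty _ _) h3
    have h5 : 0 ≤ sSup (insert 0 (A δ)) := le_csSup ⟨ε / 2, h3⟩ (mem_insert _ _)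
    rw [Real.dist_eq, sub_zero, abs_of_nonneg h5]
    linarith
  · intro δ h0 h1 x hx
    obtain ⟨B, hB⟩ := hb δ h0 h1
    refine le_csSup ⟨max 0 B, ?_⟩ (mem_insert_of_mem _ hx)
    intro y hy
    rcases hy with rfl | hy
    · exact le_max_left _ _
    · exact (hB y hy).trans (le_max_right _ _)

end H586

namespace FnSys
open G9

variable {X : Type} [MetricSpace X] [CompactSpace X] [MeasurableSpace X] [BorelSpace X] (Z : FnSys X)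

/-- pairing of a smooth form with a smooth form -/
theorem h586_inner (g b : Z.Om) :
    ⟪Z.Y.ι g, Z.Y.st (Z.Y.ι b)⟫_ℝ = ∫ x, Q ((g : X → L2) x) ((b : X → L2) x) ∂Z.μ := by
  rw [L2.inner_def]
  apply integral_congr_ae
  filter_upwards [Z.st_eq (Z.Y.ι b), Z.ι_eq b, Z.ι_eq g] with x h1 h2 h3
  rw [h1, h2, h3, ofE_toE, ← Q_inner]

/-- difference functional of a smoothed smooth form -/
theorem h586_dg (hPG : HasPG Z) (g : Z.Om) : ∃ C δg : ℝ, 0 ≤ C ∧ 0 < δg ∧ δg ≤ Z.Y.δ0 ∧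
    ∀ δ (u : Lp E6 2 Z.μ), 0 < δ → δ ≤ δg →
    |⟪Z.Y.ι g, Z.Y.st (Z.Y.ι (Z.Y.S δ u))⟫_ℝ - ⟪Z.Y.ι g, Z.Y.st u⟫_ℝ|
      ≤ C * δ * ∫ x, ‖u x‖ ∂Z.μ := by
  obtain ⟨C, δg, hC, hδg, h⟩ := hPG g
  refine ⟨C, min δg Z.Y.δ0, hC, lt_min hδg Z.Y.δ0_pos, min_le_right _ _, fun δ u h0 h1 => ?_⟩
  have hδ0 : δ ≤ Z.Y.δ0 := h1.trans (min_le_right _ _)
  have hδg' : δ ≤ δg := h1.trans (min_le_left _ _)
  have hμ := Z.μfin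
  let L : Lp E6 2 Z.μ →L[ℝ] Lp E6 2 Z.μ := LinearMap.mkContinuous (Z.Y.ι ∘ₗ Z.Y.S δ) (Z.Y.K 0)
    (fun u => Z.Y.S_norm δ u h0 hδ0)
  let f : Lp E6 2 Z.μ →L[ℝ] ℝ := (innerSL ℝ (Z.Y.ι g)).comp (Z.Y.st.comp L)
    - (innerSL ℝ (Z.Y.ι g)).comp Z.Y.st
  have hf : ∀ u, f u = ⟪Z.Y.ι g, Z.Y.st (Z.Y.ι (Z.Y.S δ u))⟫_ℝ - ⟪Z.Y.ι g, Z.Y.st u⟫_ℝ :=
    fun u => rfl
  have h2 := Z.closed_bound f (C * δ) (by positivity) (g := fun _ => 1) measurable_const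
    (fun _ => zero_le_one) (C := 1) (fun _ => le_refl _) (fun b => by
      rw [hf, Z.h586_inner, Z.h586_inner]
      simp only [mul_one]
      exact h δ b h0 hδg') u
  rw [hf] at h2
  simpa only [mul_one] using h2

/-- `L1` bound by the `L2` norm -/
theorem h586_L1 (u : Lp E6 2 Z.μ) :
    ∫ x, ‖u x‖ ∂Z.μ ≤ ‖u‖ * Real.sqrt (Z.μ univ).toReal := by
  have h := Z.cs_int u (g := fun _ => (1 : ℝ)) measurable_const (fun _ => zero_le_one) (C := 1)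
    (fun _ => le_refl _)
  have e : ∫ _x : X, (1 : ℝ) ^ 2 ∂Z.μ = (Z.μ univ).toReal := by
    rw [one_pow, integral_const, smul_eq_mul, mul_one]; rfl
  rw [e] at h
  simpa only [mul_one] using h

/-- norm of the vector which represents the smoothing of a square integrable form -/
theorem h586_norm {δ : ℝ} (h0 : 0 < δ) (h1 : δ ≤ Z.Y.δ0) {f w : Lp E6 2 Z.μ}
    (hw : ∀ u, ⟪w, Z.Y.st u⟫_ℝ = ⟪f, Z.Y.st (Z.Y.ι (Z.Y.S δ u))⟫_ℝ) :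
    ‖w‖ ≤ Z.Y.K 0 * ‖f‖ := by
  have e : ‖w‖ ^ 2 = ⟪f, Z.Y.st (Z.Y.ι (Z.Y.S δ (Z.Y.st w)))⟫_ℝ := by
    rw [← hw, Z.Y.st_st, real_inner_self_eq_norm_sq]
  have h2 : ‖w‖ ^ 2 ≤ ‖f‖ * (Z.Y.K 0 * ‖w‖) := by
    rw [e]
    refine (real_inner_le_norm _ _).trans ?_
    rw [Z.norm_st]
    refine mul_le_mul_of_nonneg_left ?_ (norm_nonneg _)
    have h3 := Z.Y.S_norm δ (Z.Y.st w) h0 h1
    rwa [Z.norm_st] at h3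
  rcases (norm_nonneg w).lt_or_eq with hp | hp
  · have : ‖w‖ * ‖w‖ ≤ (Z.Y.K 0 * ‖f‖) * ‖w‖ := by linarith only [h2]
    exact le_of_mul_le_mul_right this hp
  · rw [← hp]
    have := Z.Y.one_le_K 0
    positivity

theorem h586_rep_norm {t : Measure X} {D : X → L2} (h : Cur t D) {δ : ℝ} (h0 : 0 < δ)
    (h1 : δ ≤ Z.Y.δ0) {w : Lp E6 2 Z.μ} (hw : Z.Rep t D δ w) :
    ‖w‖ ≤ 6 * Real.sqrt (Z.en t δ) / δ := by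
  rw [le_div_iff₀ h0, mul_comm]
  exact Z.rep_norm h h0 h1 hw

/-- the smoothed current against a smooth form -/
theorem h586_fn {t : Measure X} {D : X → L2} (h : Cur t D) (g : Z.Om) {δ : ℝ} (h0 : 0 < δ)
    (h1 : δ ≤ Z.Y.δ0) : |fn t D (Z.Y.S δ (Z.Y.ι g) : X → L2) - fn t D (g : X → L2)|
      ≤ 6 * (t univ).toReal * (Z.Y.K 0 * δ * Z.Y.M 1 g) := by
  have e2 := Z.fn_add h (Z.Y.S δ (Z.Y.ι g)) (g - Z.Y.S δ (Z.Y.ι g))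
  rw [add_sub_cancel] at e2
  have e3 := Z.fn_bound h (g - Z.Y.S δ (Z.Y.ι g))
  have e4 := Z.Y.O2M 0 δ g h0 h1
  have e5 : 6 * (t univ).toReal * Z.Y.M 0 (g - Z.Y.S δ (Z.Y.ι g))
      ≤ 6 * (t univ).toReal * (Z.Y.K 0 * δ * Z.Y.M 1 g) :=
    mul_le_mul_of_nonneg_left e4 (by positivity)
  have e6 : fn t D (Z.Y.S δ (Z.Y.ι g) : X → L2) - fn t D (g : X → L2)
      = - fn t D ((g - Z.Y.S δ (Z.Y.ι g) : Z.Om) : X → L2) := by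
    rw [e2]; ring
  rw [e6, abs_neg]
  exact e3.trans e5

/-- exchange of the two arguments -/
theorem h586_symm (u v : Lp E6 2 Z.μ) : ⟪u, Z.Y.st v⟫_ℝ = ⟪v, Z.Y.st u⟫_ℝ := by
  rw [← Z.Y.st_symm, real_inner_comm]

/-- F4: the smoothings of a smooth form converge against `T` and against `f` -/
theorem rep_tendsto (hPG : HasPG Z) {t : Measure X} {D : X → L2} (ht : Cur t D) (g : Z.Om)
    (f : Lp E6 2 Z.μ) :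
    ∃ κ : ℝ → ℝ, Tendsto κ (𝓝[>] 0) (𝓝 0) ∧ ∀ δ (w wt wf : Lp E6 2 Z.μ), 0 < δ → δ ≤ Z.Y.δ0 →
      (∀ u, ⟪w, Z.Y.st u⟫_ℝ = ⟪Z.Y.ι g, Z.Y.st (Z.Y.ι (Z.Y.S δ u))⟫_ℝ) → Z.Rep t D δ wt →
      (∀ u, ⟪wf, Z.Y.st u⟫_ℝ = ⟪f, Z.Y.st (Z.Y.ι (Z.Y.S δ u))⟫_ℝ) →
      |⟪wt, Z.Y.st w⟫_ℝ - fn t D (g : X → L2)| ≤ κ δ ∧
      |⟪wf, Z.Y.st w⟫_ℝ - ⟪f, Z.Y.st (Z.Y.ι g)⟫_ℝ| ≤ κ δ := by
  have hfin := ht.fin
  obtain ⟨C, δg, hC, hδg, hδg0, hdg⟩ := Z.h586_dg hPG g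
  have hc := Z.c_pos
  have hK : 1 ≤ Z.Y.K 0 := Z.Y.one_le_K 0
  have hK0 : 0 ≤ Z.Y.K 0 := by linarith
  have hM : 0 ≤ Z.Y.M 1 g := Z.Y.M_nonneg _ _
  set T := (t univ).toReal with hT
  have hT0 : 0 ≤ T := ENNReal.toReal_nonneg
  -- first pairing
  have key1 : ∀ δ (w wt : Lp E6 2 Z.μ), 0 < δ → δ ≤ δg →
      (∀ u, ⟪w, Z.Y.st u⟫_ℝ = ⟪Z.Y.ι g, Z.Y.st (Z.Y.ι (Z.Y.S δ u))⟫_ℝ) → Z.Rep t D δ wt →
      |⟪wt, Z.Y.st w⟫_ℝ - fn t D (g : X → L2)|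
        ≤ (6 * T * (Z.Y.K 0 * Z.Y.M 1 g) + C * (6 * (Z.c ^ 6 * T))) * δ := by
    intro δ w wt h0 h1 hw hwt
    have hδ : δ ≤ Z.Y.δ0 := h1.trans hδg0
    have e1 : ⟪wt, Z.Y.st w⟫_ℝ - fn t D (g : X → L2)
        = (⟪Z.Y.ι g, Z.Y.st (Z.Y.ι (Z.Y.S δ wt))⟫_ℝ - ⟪Z.Y.ι g, Z.Y.st wt⟫_ℝ)
          + (fn t D (Z.Y.S δ (Z.Y.ι g) : X → L2) - fn t D (g : X → L2)) := by
      rw [Z.h586_symm wt w, hw, Z.h586_symm (Z.Y.ι g) wt, hwt (Z.Y.ι g)]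
      ring
    rw [e1]
    refine (abs_add_le _ _).trans ?_
    have a1 := hdg δ wt h0 h1
    have a2 := Z.rep_L1 ht h0 hδ hwt
    have a3 : C * δ * ∫ x, ‖wt x‖ ∂Z.μ ≤ C * δ * (6 * (Z.c ^ 6 * T)) :=
      mul_le_mul_of_nonneg_left a2 (by positivity)
    have a4 := Z.h586_fn ht g h0 hδ
    rw [← hT] at a4
    linarith only [a1, a3, a4]
  -- second pairing
  have key2 : ∀ δ (w wf : Lp E6 2 Z.μ), 0 < δ → δ ≤ δg →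
      (∀ u, ⟪w, Z.Y.st u⟫_ℝ = ⟪Z.Y.ι g, Z.Y.st (Z.Y.ι (Z.Y.S δ u))⟫_ℝ) →
      (∀ u, ⟪wf, Z.Y.st u⟫_ℝ = ⟪f, Z.Y.st (Z.Y.ι (Z.Y.S δ u))⟫_ℝ) →
      |⟪wf, Z.Y.st w⟫_ℝ - ⟪f, Z.Y.st (Z.Y.ι g)⟫_ℝ|
        ≤ C * (Z.Y.K 0 * ‖f‖ * Real.sqrt (Z.μ univ).toReal) * δ
          + ‖f‖ * ‖Z.Y.ι (Z.Y.S δ (Z.Y.ι g)) - Z.Y.ι g‖ := by
    intro δ w wf h0 h1 hw hwf
    have hδ : δ ≤ Z.Y.δ0 := h1.trans hδg0
    have e1 : ⟪wf, Z.Y.st w⟫_ℝ - ⟪f, Z.Y.st (Z.Y.ι g)⟫_ℝ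
        = (⟪Z.Y.ι g, Z.Y.st (Z.Y.ι (Z.Y.S δ wf))⟫_ℝ - ⟪Z.Y.ι g, Z.Y.st wf⟫_ℝ)
          + ⟪f, Z.Y.st (Z.Y.ι (Z.Y.S δ (Z.Y.ι g)) - Z.Y.ι g)⟫_ℝ := by
      rw [Z.h586_symm wf w, hw, Z.h586_symm (Z.Y.ι g) wf, hwf (Z.Y.ι g), map_sub,
        inner_sub_right]
      ring
    rw [e1]
    refine (abs_add_le _ _).trans ?_
    have a1 := hdg δ wf h0 h1
    have a2 := Z.h586_L1 wf
    have a3 := Z.h586_norm h0 hδ hwf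
    have a4 : ‖wf‖ * Real.sqrt (Z.μ univ).toReal
        ≤ Z.Y.K 0 * ‖f‖ * Real.sqrt (Z.μ univ).toReal :=
      mul_le_mul_of_nonneg_right a3 (Real.sqrt_nonneg _)
    have a5 : C * δ * ∫ x, ‖wf x‖ ∂Z.μ
        ≤ C * δ * (Z.Y.K 0 * ‖f‖ * Real.sqrt (Z.μ univ).toReal) :=
      mul_le_mul_of_nonneg_left (a2.trans a4) (by positivity)
    have a6 : |⟪f, Z.Y.st (Z.Y.ι (Z.Y.S δ (Z.Y.ι g)) - Z.Y.ι g)⟫_ℝ|
        ≤ ‖f‖ * ‖Z.Y.ι (Z.Y.S δ (Z.Y.ι g)) - Z.Y.ι g‖ := by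
      refine (abs_real_inner_le_norm _ _).trans ?_
      rw [Z.norm_st]
    linarith only [a1, a5, a6]
  have H := H586.exists_kappa (δ0 := Z.Y.δ0)
    (fun δ => {x | ∃ w wt wf : Lp E6 2 Z.μ,
      (∀ u, ⟪w, Z.Y.st u⟫_ℝ = ⟪Z.Y.ι g, Z.Y.st (Z.Y.ι (Z.Y.S δ u))⟫_ℝ) ∧ Z.Rep t D δ wt ∧
      (∀ u, ⟪wf, Z.Y.st u⟫_ℝ = ⟪f, Z.Y.st (Z.Y.ι (Z.Y.S δ u))⟫_ℝ) ∧
      (x = |⟪wt, Z.Y.st w⟫_ℝ - fn t D (g : X → L2)| ∨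
        x = |⟪wf, Z.Y.st w⟫_ℝ - ⟪f, Z.Y.st (Z.Y.ι g)⟫_ℝ|)})
  refine Exists.elim (H ?_ ?_) ?_
  · intro δ h0 h1
    refine ⟨6 * Real.sqrt (Z.en t δ) / δ * (Z.Y.K 0 * ‖Z.Y.ι g‖) + |fn t D (g : X → L2)|
      + (Z.Y.K 0 * ‖f‖ * (Z.Y.K 0 * ‖Z.Y.ι g‖) + ‖f‖ * ‖Z.Y.ι g‖), ?_⟩
    rintro x ⟨w, wt, wf, hw, hwt, hwf, hx⟩
    have n1 := Z.h586_norm h0 h1 hw
    have n2 := Z.h586_rep_norm ht h0 h1 hwt
    have n3 := Z.h586_norm h0 h1 hwf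
    have b1 : |⟪wt, Z.Y.st w⟫_ℝ| ≤ 6 * Real.sqrt (Z.en t δ) / δ * (Z.Y.K 0 * ‖Z.Y.ι g‖) := by
      refine (abs_real_inner_le_norm _ _).trans ?_
      rw [Z.norm_st]
      exact mul_le_mul n2 n1 (norm_nonneg _) (by positivity)
    have b2 : |⟪wf, Z.Y.st w⟫_ℝ| ≤ Z.Y.K 0 * ‖f‖ * (Z.Y.K 0 * ‖Z.Y.ι g‖) := by
      refine (abs_real_inner_le_norm _ _).trans ?_
      rw [Z.norm_st]
      exact mul_le_mul n3 n1 (norm_nonneg _) (by positivity)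
    have b3 : |⟪f, Z.Y.st (Z.Y.ι g)⟫_ℝ| ≤ ‖f‖ * ‖Z.Y.ι g‖ := by
      refine (abs_real_inner_le_norm _ _).trans ?_
      rw [Z.norm_st]
    have p1 : 0 ≤ 6 * Real.sqrt (Z.en t δ) / δ * (Z.Y.K 0 * ‖Z.Y.ι g‖) := by positivity
    have p2 : 0 ≤ Z.Y.K 0 * ‖f‖ * (Z.Y.K 0 * ‖Z.Y.ι g‖) := by positivity
    have p3 : 0 ≤ ‖f‖ * ‖Z.Y.ι g‖ := by positivity
    have p4 := abs_nonneg (fn t D (g : X → L2))
    rcases hx with rfl | rfl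
    · have := abs_sub ⟪wt, Z.Y.st w⟫_ℝ (fn t D (g : X → L2))
      linarith
    · have := abs_sub ⟪wf, Z.Y.st w⟫_ℝ ⟪f, Z.Y.st (Z.Y.ι g)⟫_ℝ
      linarith
  · intro ε hε
    set A1 := 6 * T * (Z.Y.K 0 * Z.Y.M 1 g) + C * (6 * (Z.c ^ 6 * T)) with hA1
    set A2 := C * (Z.Y.K 0 * ‖f‖ * Real.sqrt (Z.μ univ).toReal) with hA2
    have hA1' : 0 ≤ A1 := by positivity
    have hA2' : 0 ≤ A2 := by positivity
    have ht1 : Tendsto (fun δ => ‖Z.Y.ι (Z.Y.S δ (Z.Y.ι g)) - Z.Y.ι g‖) (𝓝[>] 0) (𝓝 0) := by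
      have := (Z.Y.S_tendsto (Z.Y.ι g)).sub_const (Z.Y.ι g)
      rw [sub_self] at this
      simpa only [norm_zero] using this.norm
    have ht2 : Tendsto (fun δ : ℝ => (A1 + A2) * δ
        + ‖f‖ * ‖Z.Y.ι (Z.Y.S δ (Z.Y.ι g)) - Z.Y.ι g‖) (𝓝[>] 0) (𝓝 0) := by
      have h1 : Tendsto (fun δ : ℝ => (A1 + A2) * δ) (𝓝[>] 0) (𝓝 0) := by
        have : Tendsto (fun δ : ℝ => (A1 + A2) * δ) (𝓝 0) (𝓝 ((A1 + A2) * 0)) :=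
          (continuous_const.mul continuous_id).tendsto 0
        rw [mul_zero] at this
        exact this.mono_left nhdsWithin_le_nhds
      have h2 := ht1.const_mul ‖f‖
      rw [mul_zero] at h2
      simpa only [add_zero] using h1.add h2
    have h3 := (ht2.eventually (gt_mem_nhds hε))
    obtain ⟨δ1, hδ1, h4⟩ := mem_nhdsGT_iff_exists_Ioc_subset.1 h3
    refine ⟨min δ1 δg, lt_min hδ1 hδg, fun δ h0 h1 => ?_⟩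
    have hδ1' : δ ≤ δ1 := h1.trans (min_le_left _ _)
    have hδg' : δ ≤ δg := h1.trans (min_le_right _ _)
    have h5 : (A1 + A2) * δ + ‖f‖ * ‖Z.Y.ι (Z.Y.S δ (Z.Y.ι g)) - Z.Y.ι g‖ < ε := h4 ⟨h0, hδ1'⟩
    have h6 : 0 ≤ A1 * δ := by positivity
    have h7 : 0 ≤ A2 * δ := by positivity
    have h8 : 0 ≤ ‖f‖ * ‖Z.Y.ι (Z.Y.S δ (Z.Y.ι g)) - Z.Y.ι g‖ := by positivity
    rintro x ⟨w, wt, wf, hw, hwt, hwf, hx⟩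
    rcases hx with rfl | rfl
    · have := key1 δ w wt h0 hδg' hw hwt
      linarith
    · have := key2 δ w wf h0 hδg' hw hwf
      linarith
  · rintro κ ⟨hκ, hκ'⟩
    exact ⟨κ, hκ, fun δ w wt wf h0 h1 hw hwt hwf =>
      ⟨hκ' δ h0 h1 _ ⟨w, wt, wf, hw, hwt, hwf, Or.inl rfl⟩,
        hκ' δ h0 h1 _ ⟨w, wt, wf, hw, hwt, hwf, Or.inr rfl⟩⟩⟩

/-- the energy of a current of bounded density is bounded -/
theorem h586_en {p : Measure X} [IsFiniteMeasure p]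
    (hd : ∃ C : ℝ, ∀ x (r : ℝ), 0 < r → r ≤ 1 → (p (Metric.ball x r)).toReal ≤ C * r ^ 2) :
    ∃ B δ1 : ℝ, 0 ≤ B ∧ 0 < δ1 ∧ δ1 ≤ Z.Y.δ0 ∧ ∀ δ, 0 < δ → δ ≤ δ1 →
      Real.sqrt (Z.en p δ) ≤ B := by
  obtain ⟨C, hC⟩ := hd
  have hc := Z.c_pos
  refine ⟨Real.sqrt (Z.c ^ 7 * ((|C| * (2 * Z.c) ^ 2) * (p univ).toReal)), min Z.Y.δ0 (1 / (2 * Z.c)),
    Real.sqrt_nonneg _, lt_min Z.Y.δ0_pos (by positivity), min_le_left _ _, fun δ h0 h1 => ?_⟩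
  apply Real.sqrt_le_sqrt
  refine (Z.en_le_int p h0).trans ?_
  refine mul_le_mul_of_nonneg_left ?_ (by positivity)
  have h2 : 2 * Z.c * δ ≤ 1 := by
    have := h1.trans (min_le_right _ _)
    rw [le_div_iff₀ (by positivity)] at this
    linarith
  have h3 : ∫ x, (δ ^ 2)⁻¹ * (p (Metric.ball x (2 * Z.c * δ))).toReal ∂p
      ≤ ∫ _x, |C| * (2 * Z.c) ^ 2 ∂p := by
    apply integral_mono_of_nonneg (Filter.Eventually.of_forall (fun x => by positivity))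
      (integrable_const _)
    apply Filter.Eventually.of_forall
    intro x
    show (δ ^ 2)⁻¹ * (p (Metric.ball x (2 * Z.c * δ))).toReal ≤ |C| * (2 * Z.c) ^ 2
    have h4 := hC x (2 * Z.c * δ) (by positivity) h2
    have h5 : (p (Metric.ball x (2 * Z.c * δ))).toReal ≤ |C| * (2 * Z.c * δ) ^ 2 :=
      h4.trans (mul_le_mul_of_nonneg_right (le_abs_self C) (sq_nonneg _))
    calc (δ ^ 2)⁻¹ * (p (Metric.ball x (2 * Z.c * δ))).toReal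
        ≤ (δ ^ 2)⁻¹ * (|C| * (2 * Z.c * δ) ^ 2) := mul_le_mul_of_nonneg_left h5 (by positivity)
      _ = |C| * (2 * Z.c) ^ 2 := by field_simp
  refine h3.trans (le_of_eq ?_)
  rw [integral_const, smul_eq_mul, mul_comm]
  rfl

/-- the star does not change the pairing with an anti-invariant vector -/
theorem h586_pm {r : Lp E6 2 Z.μ} (hr : Z.Y.pmH r = r) (x : Lp E6 2 Z.μ) :
    ⟪r, Z.Y.st x⟫_ℝ = ⟪r, Z.Y.pmH x⟫_ℝ := by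
  rw [← Z.Y.st_symm, ← Z.Y.pmH_symm, hr]
  have : Z.Y.st r = r := by
    have h := Z.Y.st_pmH r
    rwa [hr] at h
  rw [this]

/-- F3: `φ` square integrable and anti-invariant: `φ_δ . P_δ → 0` -/
theorem phi_pair (hPG : HasPG Z) {p : Measure X} {E : X → L2} (hp : Cur p E)
    (hd : ∃ C : ℝ, ∀ x (r : ℝ), 0 < r → r ≤ 1 → (p (Metric.ball x r)).toReal ≤ C * r ^ 2)
    (f : Lp E6 2 Z.μ) (hf : Z.Y.pmH f = f) :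
    ∃ κ : ℝ → ℝ, Tendsto κ (𝓝[>] 0) (𝓝 0) ∧ ∀ δ (w w' : Lp E6 2 Z.μ), 0 < δ → δ ≤ Z.Y.δ0 →
      (∀ u, ⟪w, Z.Y.st u⟫_ℝ = ⟪f, Z.Y.st (Z.Y.ι (Z.Y.S δ u))⟫_ℝ) → Z.Rep p E δ w' →
      |⟪w, Z.Y.st w'⟫_ℝ| ≤ κ δ := by
  have hfin := hp.fin
  have hc := Z.c_pos
  have hK : 1 ≤ Z.Y.K 0 := Z.Y.one_le_K 0
  have hK0 : 0 ≤ Z.Y.K 0 := by linarith
  set T := (p univ).toReal with hT
  have hT0 : 0 ≤ T := ENNReal.toReal_nonneg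
  obtain ⟨B, δB, hB, hδB, hδB0, hen⟩ := Z.h586_en hd
  -- estimate with a smooth anti-invariant approximation
  have key : ∀ g : Z.Om, Z.Y.pm g = g → ∃ A δ1 : ℝ, 0 ≤ A ∧ 0 < δ1 ∧
      ∀ δ (w w' : Lp E6 2 Z.μ), 0 < δ → δ ≤ δ1 →
      (∀ u, ⟪w, Z.Y.st u⟫_ℝ = ⟪f, Z.Y.st (Z.Y.ι (Z.Y.S δ u))⟫_ℝ) → Z.Rep p E δ w' →
      |⟪w, Z.Y.st w'⟫_ℝ| ≤ A * δ + ‖f - Z.Y.ι g‖ * (12 * Z.Y.K 0 ^ 2 * B) := by
    intro g hg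
    obtain ⟨C, δg, hC, hδg, hδg0, hdg⟩ := Z.h586_dg hPG g
    have hM : 0 ≤ Z.Y.M 1 g := Z.Y.M_nonneg _ _
    refine ⟨6 * T * (Z.Y.K 0 * Z.Y.M 1 g) + C * (6 * (Z.c ^ 6 * T)), min δg δB, by positivity,
      lt_min hδg hδB, fun δ w w' h0 h1 hw hw' => ?_⟩
    have hδ1 : δ ≤ δg := h1.trans (min_le_left _ _)
    have hδ2 : δ ≤ δB := h1.trans (min_le_right _ _)
    have hδ : δ ≤ Z.Y.δ0 := hδ1.trans hδg0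
    have hs := hen δ h0 hδ2
    set r := f - Z.Y.ι g with hr
    have hrpm : Z.Y.pmH r = r := by rw [hr, map_sub, hf, Z.Y.pmH_ι, hg]
    have hfn0 : fn p E (g : X → L2) = 0 := by
      rw [fn]
      have : (fun x => Q (E x) ((g : X → L2) x)) = fun _ => 0 := by
        funext x
        rw [← hg, Z.pm_eq g x]
        exact Q_inv_pM isCx_J0 G9.pos_J0 (hp.cone x).1 _
      rw [this]; simp
    have e1 : ⟪w, Z.Y.st w'⟫_ℝ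
        = (⟪Z.Y.ι g, Z.Y.st (Z.Y.ι (Z.Y.S δ w'))⟫_ℝ - ⟪Z.Y.ι g, Z.Y.st w'⟫_ℝ)
          + (fn p E (Z.Y.S δ (Z.Y.ι g) : X → L2) - fn p E (g : X → L2))
          + ⟪r, Z.Y.pmH (Z.Y.ι (Z.Y.S δ w'))⟫_ℝ := by
      rw [hw, ← Z.h586_pm hrpm, hr, inner_sub_left, hfn0, Z.h586_symm (Z.Y.ι g) w',
        hw' (Z.Y.ι g)]
      ring
    rw [e1]
    refine (abs_add_le _ _).trans ?_
    have a0 := abs_add_le (⟪Z.Y.ι g, Z.Y.st (Z.Y.ι (Z.Y.S δ w'))⟫_ℝ - ⟪Z.Y.ι g, Z.Y.st w'⟫_ℝ)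
      (fn p E (Z.Y.S δ (Z.Y.ι g) : X → L2) - fn p E (g : X → L2))
    have a1 := hdg δ w' h0 hδ1
    have a2 := Z.rep_L1 hp h0 hδ hw'
    have a3 : C * δ * ∫ x, ‖w' x‖ ∂Z.μ ≤ C * δ * (6 * (Z.c ^ 6 * T)) :=
      mul_le_mul_of_nonneg_left a2 (by positivity)
    have a4 := Z.h586_fn hp g h0 hδ
    rw [← hT] at a4
    have n1 := Z.rep_norm hp h0 hδ hw'
    have n2 := Z.rep_pm hp h0 hδ hw'
    have a5 : ‖Z.Y.pmH (Z.Y.ι (Z.Y.S δ w'))‖ ≤ 12 * Z.Y.K 0 ^ 2 * B := by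
      have b1 : Z.Y.pmH (Z.Y.ι (Z.Y.S δ w')) = Z.Y.ι (Z.Y.S δ (Z.Y.pmH w'))
          + Z.Y.ι (Z.Y.pm (Z.Y.S δ w') - Z.Y.S δ (Z.Y.pmH w')) := by
        rw [Z.Y.pmH_ι, ← map_add, add_sub_cancel]
      have b2 := Z.Y.S_norm δ (Z.Y.pmH w') h0 hδ
      have b3 := Z.Y.norm_le_N δ (Z.Y.pm (Z.Y.S δ w') - Z.Y.S δ (Z.Y.pmH w')) h0
      have b4 := Z.Y.SC 0 δ w' h0 hδ
      have b5 : Z.Y.K 0 * Z.Y.N 0 δ (Z.Y.pm (Z.Y.S δ w') - Z.Y.S δ (Z.Y.pmH w'))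
          ≤ Z.Y.K 0 * (Z.Y.K 0 * δ * ‖w'‖) := mul_le_mul_of_nonneg_left b4 hK0
      have b6 : Z.Y.K 0 * ‖Z.Y.pmH w'‖ ≤ Z.Y.K 0 * (6 * B) :=
        mul_le_mul_of_nonneg_left (n2.trans (by linarith)) hK0
      have b7 : Z.Y.K 0 * (Z.Y.K 0 * δ * ‖w'‖) ≤ Z.Y.K 0 * (Z.Y.K 0 * (6 * B)) := by
        have : δ * ‖w'‖ ≤ 6 * B := n1.trans (by linarith)
        have := mul_le_mul_of_nonneg_left this (mul_nonneg hK0 hK0)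
        linarith
      have b8 : Z.Y.K 0 * (6 * B) ≤ Z.Y.K 0 * (Z.Y.K 0 * (6 * B)) := by
        refine mul_le_mul_of_nonneg_left ?_ hK0
        have : 0 ≤ 6 * B := by positivity
        nlinarith
      rw [b1]
      refine (norm_add_le _ _).trans ?_
      have b9 : Z.Y.K 0 * (Z.Y.K 0 * (6 * B)) = 6 * Z.Y.K 0 ^ 2 * B := by ring
      linarith
    have a6 : |⟪r, Z.Y.pmH (Z.Y.ι (Z.Y.S δ w'))⟫_ℝ| ≤ ‖r‖ * (12 * Z.Y.K 0 ^ 2 * B) :=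
      (abs_real_inner_le_norm _ _).trans (mul_le_mul_of_nonneg_left a5 (norm_nonneg _))
    linarith only [a0, a1, a3, a4, a6]
  have H := H586.exists_kappa (δ0 := Z.Y.δ0)
    (fun δ => {x | ∃ w w' : Lp E6 2 Z.μ,
      (∀ u, ⟪w, Z.Y.st u⟫_ℝ = ⟪f, Z.Y.st (Z.Y.ι (Z.Y.S δ u))⟫_ℝ) ∧ Z.Rep p E δ w' ∧
      x = |⟪w, Z.Y.st w'⟫_ℝ|})
  refine Exists.elim (H ?_ ?_) ?_
  · intro δ h0 h1
    refine ⟨Z.Y.K 0 * ‖f‖ * (6 * Real.sqrt (Z.en p δ) / δ), ?_⟩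
    rintro x ⟨w, w', hw, hw', rfl⟩
    refine (abs_real_inner_le_norm _ _).trans ?_
    rw [Z.norm_st]
    exact mul_le_mul (Z.h586_norm h0 h1 hw) (Z.h586_rep_norm hp h0 h1 hw') (norm_nonneg _)
      (by positivity)
  · intro ε hε
    have hR : 0 < 12 * Z.Y.K 0 ^ 2 * B + 1 := by positivity
    obtain ⟨g0, hg0⟩ := Metric.denseRange_iff.mp Z.Y.ι_dense f
      (ε / (2 * (‖Z.Y.pmH‖ + 1) * (12 * Z.Y.K 0 ^ 2 * B + 1))) (by positivity)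
    rw [dist_eq_norm] at hg0
    have hpm : Z.Y.pm (Z.Y.pm g0) = Z.Y.pm g0 := by
      apply Z.Y.ι_inj
      rw [← Z.Y.pmH_ι, ← Z.Y.pmH_ι, Z.Y.pmH_pmH]
    have h1 : ‖f - Z.Y.ι (Z.Y.pm g0)‖ * (12 * Z.Y.K 0 ^ 2 * B) ≤ ε / 2 := by
      have e1 : f - Z.Y.ι (Z.Y.pm g0) = Z.Y.pmH (f - Z.Y.ι g0) := by
        rw [map_sub, hf, Z.Y.pmH_ι]
      have e2 : ‖f - Z.Y.ι (Z.Y.pm g0)‖ ≤ (‖Z.Y.pmH‖ + 1)
          * (ε / (2 * (‖Z.Y.pmH‖ + 1) * (12 * Z.Y.K 0 ^ 2 * B + 1))) := by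
        rw [e1]
        refine (Z.Y.pmH.le_opNorm _).trans ?_
        exact mul_le_mul (by linarith) hg0.le (norm_nonneg _) (by positivity)
      have e3 : (‖Z.Y.pmH‖ + 1)
          * (ε / (2 * (‖Z.Y.pmH‖ + 1) * (12 * Z.Y.K 0 ^ 2 * B + 1)))
          = ε / 2 / (12 * Z.Y.K 0 ^ 2 * B + 1) := by field_simp
      rw [e3] at e2
      calc ‖f - Z.Y.ι (Z.Y.pm g0)‖ * (12 * Z.Y.K 0 ^ 2 * B)
          ≤ ε / 2 / (12 * Z.Y.K 0 ^ 2 * B + 1) * (12 * Z.Y.K 0 ^ 2 * B + 1) :=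
            mul_le_mul e2 (by linarith) (by positivity) (by positivity)
        _ = ε / 2 := by field_simp
    obtain ⟨A, δ1, hA, hδ1, hk⟩ := key (Z.Y.pm g0) hpm
    refine ⟨min δ1 (ε / (2 * (A + 1))), lt_min hδ1 (by positivity), fun δ h0 hle => ?_⟩
    rintro x ⟨w, w', hw, hw', rfl⟩
    have h2 := hk δ w w' h0 (hle.trans (min_le_left _ _)) hw hw'
    have h3 : A * δ ≤ ε / 2 := by
      have h4 := hle.trans (min_le_right _ _)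
      calc A * δ ≤ (A + 1) * (ε / (2 * (A + 1))) :=
            mul_le_mul (by linarith) h4 h0.le (by linarith)
        _ = ε / 2 := by field_simp
    linarith
  · rintro κ ⟨hκ, hκ'⟩
    exact ⟨κ, hκ, fun δ w w' h0 h1 hw hw' => hκ' δ h0 h1 _ ⟨w, w', hw, hw', rfl⟩⟩

end FnSys
end Vale.Agent.P204.GX
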