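import Vale.Agent.P204.CV.F2
import Vale.Agent.P204.CV.F34
import Vale.Agent.P204.Bdl.B8

set_option linter.all false

/-! P204 class version: the final inequality. -/

open MeasureTheory Set Filter Topology
open scoped ContDiff InnerProductSpace

namespace Vale.Agent.P204.GX
open Vale.Agent.P204.T4 _root_.P204.GX

namespace FnSys
variable {X : Type} [MetricSpace X] [CompactSpace X] [MeasurableSpace X] [BorelSpace X] (Z : FnSys X)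

/-- representing vector of a current -/
theorem exists_Rep {t : Measure X} {D : X → L2} (ht : Cur t D) {δ : ℝ} (h0 : 0 < δ)
    (h1 : δ ≤ Z.Y.δ0) : ∃ w, Z.Rep t D δ w := by
  obtain ⟨w, hw⟩ := Z.Y.exists_rep (Z.fL ht ∘ₗ Z.Y.S δ)
    (6 * (t Set.univ).toReal * (Z.Y.K 0 * (δ ^ (2 + 0))⁻¹)) (fun u => by
      show |fn t D (Z.Y.S δ u : X → L2)| ≤ _
      refine (Z.fn_bound ht _).trans ?_
      have h2 := Z.Y.SSM 0 δ u h0 h1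
      have h3 : 0 ≤ 6 * (t Set.univ).toReal := by positivity
      calc 6 * (t Set.univ).toReal * Z.Y.M 0 (Z.Y.S δ u)
          ≤ 6 * (t Set.univ).toReal * (Z.Y.K 0 * (δ ^ (2 + 0))⁻¹ * ‖u‖) :=
            mul_le_mul_of_nonneg_left h2 h3
        _ = _ := by ring)
  exact ⟨w, hw⟩

/-- representing vector of a smoothed square integrable form -/
theorem exists_repL (f : Lp E6 2 Z.μ) {δ : ℝ} (h0 : 0 < δ) (h1 : δ ≤ Z.Y.δ0) :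
    ∃ w, ∀ u, ⟪w, Z.Y.st u⟫_ℝ = ⟪f, Z.Y.st (Z.Y.ι (Z.Y.S δ u))⟫_ℝ := by
  obtain ⟨w, hw⟩ := Z.Y.exists_rep ((innerₗ (Lp E6 2 Z.μ) f) ∘ₗ
    (Z.Y.st : Lp E6 2 Z.μ →ₗ[ℝ] Lp E6 2 Z.μ) ∘ₗ Z.Y.ι ∘ₗ Z.Y.S δ) (‖f‖ * Z.Y.K 0) (fun u => by
      show |⟪f, Z.Y.st (Z.Y.ι (Z.Y.S δ u))⟫_ℝ| ≤ _
      refine (Z.Y.abs_rep_le _ _).trans ?_
      have := Z.Y.S_norm δ u h0 h1
      calc _ ≤ ‖f‖ * (Z.Y.K 0 * ‖u‖) := by gcongr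
        _ = _ := by ring)
  exact ⟨w, hw⟩

/-- the final inequality -/
theorem final_ge (hPG : HasPG Z) {t p : Measure X} {D E : X → L2} (ht : Cur t D) (hp : Cur p E)
    (hd : ∃ C : ℝ, ∀ x (r : ℝ), 0 < r → r ≤ 1 → (p (Metric.ball x r)).toReal ≤ C * r ^ 2)
    (hpot : ∀ᵐ x ∂t, ∫⁻ y, (ENNReal.ofReal (dist x y ^ 2))⁻¹ ∂p < ⊤)
    (f : Lp E6 2 Z.μ) (hf : Z.Y.pmH f = f)
    (hk : ∀ e ∈ Z.Y.Ex, fn t D (e : X → L2) + ⟪f, Z.Y.st (Z.Y.ι e)⟫_ℝ = 0)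
    (g : Z.Om) (hP : ∀ c ∈ Z.Y.Cl, fn p E (c : X → L2) = ⟪Z.Y.ι g, Z.Y.st (Z.Y.ι c)⟫_ℝ) :
    0 ≤ fn t D (g : X → L2) + ⟪f, Z.Y.st (Z.Y.ι g)⟫_ℝ := by
  obtain ⟨κ1, hκ1, k1⟩ := Z.mutual_pair ht hp hd hpot
  obtain ⟨κ2, hκ2, k2⟩ := Z.phi_pair hPG hp hd f hf
  obtain ⟨κ3, hκ3, k3⟩ := Z.rep_tendsto hPG ht g f
  have key : ∀ δ, 0 < δ → δ ≤ Z.Y.δ0 →
      0 ≤ fn t D (g : X → L2) + ⟪f, Z.Y.st (Z.Y.ι g)⟫_ℝ + (κ1 δ + κ2 δ + 2 * κ3 δ) := by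
    intro δ h0 h1
    obtain ⟨wT, hwT⟩ := Z.exists_Rep ht h0 h1
    obtain ⟨wP, hwP⟩ := Z.exists_Rep hp h0 h1
    obtain ⟨wf, hwf⟩ := Z.exists_repL f h0 h1
    obtain ⟨wg, hwg⟩ := Z.exists_repL (Z.Y.ι g) h0 h1
    have hwT' : ∀ u, ⟪wT, Z.Y.st u⟫_ℝ = fn t D (Z.Y.S δ u : X → L2) := hwT
    have hwP' : ∀ u, ⟪wP, Z.Y.st u⟫_ℝ = fn p E (Z.Y.S δ u : X → L2) := hwP
    have ha : wT + wf ∈ Z.Y.Zw := Z.Y.mem_Zw_of_kill fun c hc => by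
      rw [inner_add_left, hwT', hwf]
      exact hk _ (Z.Y.S_Ex δ c h0 h1 hc)
    have hb : ∀ c ∈ Z.Y.Cl, ⟪wP - wg, Z.Y.st (Z.Y.ι c)⟫_ℝ = 0 := by
      intro c hc
      rw [inner_sub_left, hwP', hwg, hP _ (Z.Y.S_mem_Cl δ h0 h1 (Z.Y.ι_mem_Zw hc)), sub_self]
    have hz := Z.Y.pair_zero hb ha
    rw [Z.h586_symm, inner_add_left, map_sub, inner_sub_right, inner_sub_right] at hz
    have e1 := k1 δ wT wP h0 h1 hwT hwP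
    have e2 := k2 δ wf wP h0 h1 hwf hwP
    obtain ⟨e3, e4⟩ := k3 δ wg wT wf h0 h1 hwg hwT hwf
    rw [abs_le] at e2 e3 e4
    linarith [e2.1, e3.1, e3.2, e4.1, e4.2]
  have hlim : Tendsto (fun δ => fn t D (g : X → L2) + ⟪f, Z.Y.st (Z.Y.ι g)⟫_ℝ +
      (κ1 δ + κ2 δ + 2 * κ3 δ)) (𝓝[>] 0)
      (𝓝 (fn t D (g : X → L2) + ⟪f, Z.Y.st (Z.Y.ι g)⟫_ℝ + (0 + 0 + 2 * 0))) :=
    tendsto_const_nhds.add ((hκ1.add hκ2).add (hκ3.const_mul 2))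
  have := ge_of_tendsto hlim (by
    filter_upwards [Ioc_mem_nhdsGT Z.Y.δ0_pos] with δ hδ
    exact key δ hδ.1 hδ.2)
  linarith

end FnSys
end Vale.Agent.P204.GX
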