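import Vale.Agent.P204.CV.DefsA

set_option linter.all false

/-! P204 class version, package G2: a functional with `L²` bounds for its smoothings is
represented by an `L²` form. -/

open Filter Topology Finset
open scoped InnerProductSpace BigOperators

namespace P204.GX.SmSys

variable {H Om : Type} [NormedAddCommGroup H] [InnerProductSpace ℝ H] [CompleteSpace H]
  [AddCommGroup Om] [Module ℝ Om]

variable (Y : SmSys H Om)

/-- the smoothings of a smooth form converge in the duality with a functional of finite order -/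
theorem phi_S_tendsto (φ : Om →ₗ[ℝ] ℝ) (k : ℕ) (C : ℝ) (hbd : ∀ b, |φ b| ≤ C * Y.M k b) (b : Om) :
    Tendsto (fun δ : ℝ => φ (Y.S δ (Y.ι b))) (𝓝[>] 0) (𝓝 (φ b)) := by
  have hKk : 0 ≤ Y.K k := zero_le_one.trans (Y.one_le_K k)
  rw [tendsto_iff_norm_sub_tendsto_zero]
  have h1 : Tendsto (fun δ : ℝ => |C| * (Y.K k * δ * Y.M (k + 1) b)) (𝓝[>] 0) (𝓝 0) := by
    have h : Tendsto (fun δ : ℝ => |C| * (Y.K k * δ * Y.M (k + 1) b)) (𝓝 0)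
        (𝓝 (|C| * (Y.K k * 0 * Y.M (k + 1) b))) := by
      apply Continuous.tendsto
      fun_prop
    rw [mul_zero, zero_mul, mul_zero] at h
    exact h.mono_left nhdsWithin_le_nhds
  refine squeeze_zero' (Eventually.of_forall fun δ => norm_nonneg _) ?_ h1
  have h2 : Set.Ioc (0 : ℝ) Y.δ0 ∈ 𝓝[>] (0 : ℝ) := Ioc_mem_nhdsGT Y.δ0_pos
  filter_upwards [h2] with δ hδ
  rw [Real.norm_eq_abs, abs_sub_comm, ← map_sub]
  have h3 := hbd (b - Y.S δ (Y.ι b))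
  have h4 := Y.O2M k δ b hδ.1 hδ.2
  have h5 := Y.M_nonneg k (b - Y.S δ (Y.ι b))
  calc |φ (b - Y.S δ (Y.ι b))| ≤ C * Y.M k (b - Y.S δ (Y.ι b)) := h3
    _ ≤ |C| * Y.M k (b - Y.S δ (Y.ι b)) := by
        apply mul_le_mul_of_nonneg_right (le_abs_self C) h5
    _ ≤ |C| * (Y.K k * δ * Y.M (k + 1) b) := by gcongr

/-- G2 -/
theorem exists_L2rep (φ : Om →ₗ[ℝ] ℝ) (hpm : ∀ b, φ (Y.pm b) = φ b) (k : ℕ) (C : ℝ)
    (hbd : ∀ b, |φ b| ≤ C * Y.M k b) (C' δ1 : ℝ) (h1 : 0 < δ1) (h1' : δ1 ≤ Y.δ0)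
    (h : ∀ δ u, 0 < δ → δ ≤ δ1 → |φ (Y.S δ u)| ≤ C' * ‖u‖) :
    ∃ f : H, Y.pmH f = f ∧ ∀ b, φ b = ⟪f, Y.st (Y.ι b)⟫_ℝ := by
  -- the L² bound
  have hL : ∀ b, |φ b| ≤ C' * ‖Y.ι b‖ := by
    intro b
    have h2 : Tendsto (fun δ : ℝ => |φ (Y.S δ (Y.ι b))|) (𝓝[>] 0) (𝓝 |φ b|) :=
      (Y.phi_S_tendsto φ k C hbd b).abs
    refine le_of_tendsto h2 ?_
    have h3 : Set.Ioc (0 : ℝ) δ1 ∈ 𝓝[>] (0 : ℝ) := Ioc_mem_nhdsGT h1
    filter_upwards [h3] with δ hδ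
    exact h δ _ hδ.1 hδ.2
  -- extension by density
  have hC' : ∀ b, ‖φ b‖ ≤ C' * ‖Y.ι b‖ := hL
  obtain ⟨g, hg⟩ : ∃ g : H →L[ℝ] ℝ, ∀ b, g (Y.ι b) = φ b :=
    ⟨φ.extendOfNorm Y.ι, fun b => LinearMap.extendOfNorm_eq Y.ι_dense ⟨C', hC'⟩ b⟩
  set r : H := (InnerProductSpace.toDual ℝ H).symm g with hr
  have hrg : ∀ u, ⟪r, u⟫_ℝ = g u := fun u => by
    rw [hr, InnerProductSpace.toDual_symm_apply]
  have hf : ∀ b, φ b = ⟪Y.st r, Y.st (Y.ι b)⟫_ℝ := by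
    intro b
    rw [Y.st_symm, Y.st_st, hrg, hg]
  refine ⟨Y.st r, ?_, hf⟩
  -- anti-invariance
  have hgp : ∀ v, g (Y.pmH v) = g v := by
    intro v
    have hc : IsClosed {v : H | g (Y.pmH v) = g v} :=
      isClosed_eq (g.continuous.comp Y.pmH.continuous) g.continuous
    have hsub : Set.range Y.ι ⊆ {v : H | g (Y.pmH v) = g v} := by
      rintro _ ⟨b, rfl⟩
      change g (Y.pmH (Y.ι b)) = g (Y.ι b)
      rw [Y.pmH_ι, hg, hg, hpm]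
    exact closure_minimal hsub hc (Y.ι_dense v)
  refine ext_inner_right ℝ fun v => ?_
  rw [Y.pmH_symm, Y.st_symm, Y.st_pmH, hrg, hgp, Y.st_symm, hrg, ← hgp (Y.st v), Y.pmH_st, hgp]

end P204.GX.SmSys
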