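import Vale.Agent.P204.Bdl.B8
import Vale.Agent.P204.CV.DefsA

set_option linter.all false

/-! P204 class version, package G4: the bounds for `T` and the growth estimate when `T + φ` vanishes
only on exact forms. -/

open MeasureTheory Set Filter Topology
open scoped ContDiff InnerProductSpace

namespace Vale.Agent.P204.GX
open Vale.Agent.P204.T4 _root_.P204.GX

namespace FnSys
variable {X : Type} [MetricSpace X] [CompactSpace X] [MeasurableSpace X] [BorelSpace X] (Z : FnSys X)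

theorem exists_TBoundE {t : Measure X} {D : X → L2} (ht : Cur t D) (φ : Z.Om →ₗ[ℝ] ℝ)
    (hφpm : ∀ b, φ (Z.Y.pm b) = φ b) (k : ℕ) (Cφ : ℝ) (hCφ : 0 ≤ Cφ)
    (hφbd : ∀ b, |φ b| ≤ Cφ * Z.Y.M k b)
    (hkill : ∀ e ∈ Z.Y.Ex, fn t D (e : X → L2) + φ e = 0)
    (hG4 : ∃ (C : ℝ) (Dm : ℕ → ℝ), ∀ δ, 0 < δ → δ ≤ Z.Y.δ0 → ∃ v : Z.Om,
      (∀ m, Z.Y.N m δ v ≤ Dm m) ∧ Z.dens t δ ≤ C * (1 + |φ v|)) :
    Nonempty (Z.Y.TBoundE (Z.fL ht) φ) := by
  have := ht.fin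
  have htpm : ∀ b : Z.Om, Z.fL ht (Z.Y.pm b) = 0 := by
    intro b
    show fn t D _ = 0
    rw [fn]
    have : (fun x => Q (D x) ((Z.Y.pm b : X → L2) x)) = fun _ => 0 := by
      funext x
      rw [Z.pm_eq b x]
      exact Q_inv_pM isCx_J0 G9.pos_J0 (ht.cone x).1 _
    rw [this]; simp
  obtain ⟨C1, hC1, h1⟩ := Z.t1 ht
  obtain ⟨C2, hC2, h2⟩ := Z.t2 ht
  obtain ⟨C3, hC3, h3⟩ := Z.t3 ht
  obtain ⟨C4, Dm, h4⟩ := hG4
  set CT : ℝ := 6 * (t univ).toReal with hCT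
  have hCT0 : 0 ≤ CT := by positivity
  set CC : ℝ := CT + Cφ + C1 + C2 + C3 + |C4| with hCC
  have hCC0 : 0 ≤ CC := by (clear * - hCφ hC1 hC2 hC3; positivity)
  have hM0 : ∀ m (b : Z.Om), 0 ≤ Z.Y.M m b := Z.Y.M_nonneg
  have hC4 : |C4| ≤ CC := by rw [hCC]; linarith
  let NT : ℝ → ℝ := fun δ => if 0 < δ then Z.dens t δ else 0
  have hNT : ∀ δ, 0 < δ → NT δ = Z.dens t δ := fun δ h => if_pos h
  have hNT0 : ∀ δ, 0 ≤ NT δ := by
    intro δ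
    by_cases h : 0 < δ
    · rw [hNT δ h]; exact Z.dens_nonneg t h
    · show 0 ≤ (if 0 < δ then Z.dens t δ else 0)
      rw [if_neg h]
  exact ⟨
    { k := k
      C := CC
      NT := NT
      C_nonneg := hCC0
      NT_nonneg := hNT0
      T_bd := fun b => (Z.fn_bound ht b).trans (by
        have := hM0 0 b
        have : CT ≤ CC := by rw [hCC]; linarith only [hCφ, hC1, hC2, hC3, abs_nonneg C4]
        gcongr)
      T_pm := htpm
      φ_pm := hφpm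
      φ_bd := fun b => (hφbd b).trans (by
        have := hM0 k b
        have : Cφ ≤ CC := by rw [hCC]; linarith only [hC1, hC2, hC3, hCT0, abs_nonneg C4]
        gcongr)
      kill := hkill
      t1 := fun δ u h0 hδ => (h1 δ u h0 hδ).trans (by
        rw [hNT δ h0]
        have : C1 ≤ CC := by rw [hCC]; linarith only [hCφ, hC2, hC3, hCT0, abs_nonneg C4]
        gcongr)
      t2 := fun δ u h0 hδ => (h2 δ u h0 hδ).trans (by
        rw [hNT δ h0]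
        have : C2 ≤ CC := by rw [hCC]; linarith only [hCφ, hC1, hC3, hCT0, abs_nonneg C4]
        gcongr)
      t3 := fun δ w h0 hδ hw => le_trans (by
        rw [hNT δ h0]
        have : C3 ≤ CC := by rw [hCC]; linarith only [hCφ, hC1, hC2, hCT0, abs_nonneg C4]
        have := Z.dens_nonneg t h0
        apply neg_le_neg
        gcongr) (h3 δ w h0 hδ hw)
      D := Dm
      t4 := fun δ h0 hδ => by
        obtain ⟨v, hv1, hv2⟩ := h4 δ h0 hδ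
        refine ⟨v, hv1, ?_⟩
        rw [hNT δ h0]
        refine hv2.trans ?_
        have : C4 ≤ CC := (le_abs_self C4).trans hC4
        gcongr }⟩

end FnSys

namespace CM
variable {X : Type} [MetricSpace X] [CompactSpace X] [MeasurableSpace X] [BorelSpace X]

theorem grow_of_sys [Nonempty X] (M : CM X) (Z : FnSys X)
    (hOm : ∀ u : X → L2, u ∈ Z.Om ↔ u ∈ M.Om)
    (hEx : ∀ b : Z.Om, b ∈ Z.Y.Ex ↔ ∃ e ∈ M.Ex, (e : X → L2) = (b : X → L2))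
    (hN : ∀ m, ∃ K : ℝ, 0 ≤ K ∧ ∀ δ (b : Z.Om), 0 < δ → δ ≤ 1 →
      Z.Y.N m δ b ≤ K * M.NN m δ (b : X → L2))
    {t : Measure X} {D : X → L2} (ht : FnSys.Cur t D) (φ : Z.Om →ₗ[ℝ] ℝ)
    (hφpm : ∀ b, φ (Z.Y.pm b) = φ b)
    (hkill : ∀ e ∈ Z.Y.Ex, FnSys.fn t D (e : X → L2) + φ e = 0) :
    ∃ (C : ℝ) (Dm : ℕ → ℝ), ∀ δ, 0 < δ → δ ≤ Z.Y.δ0 → ∃ v : Z.Om,
      (∀ m, Z.Y.N m δ v ≤ Dm m) ∧ Z.dens t δ ≤ C * (1 + |φ v|) := by
  choose K hK0 hK using hN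
  choose K2 hK20 hK2 using fun (a : M.A) (m : ℕ) => M.exists_N2 a m 2
  obtain ⟨C, Dm, hC, h⟩ := grow_t4 M ht
    (fun m δ b => Z.Y.N m δ ⟨(b : X → L2), (hOm _).2 b.2⟩)
    (by
      intro a m
      refine ⟨K m * K2 a m, mul_nonneg (hK0 m) (hK20 a m), fun δ h0 h1 γ hγ hγc hz => ?_⟩
      refine (hK m δ _ h0 h1).trans ?_
      rw [mul_assoc]
      exact mul_le_mul_of_nonneg_left (hK2 a m δ h0.le h1 γ hγ hz) (hK0 m))
    (fun b => ⟨(Z.Y.pm ⟨(b : X → L2), (hOm _).2 b.2⟩ : X → L2), (hOm _).1 (Subtype.prop _)⟩)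
    (fun b x => Z.pm_eq _ x)
    (fun b => φ ⟨(b : X → L2), (hOm _).2 b.2⟩)
    (fun b => hφpm _)
    (fun e he => by
      refine hkill ⟨(e : X → L2), (hOm _).2 e.2⟩ ?_
      exact (hEx _).2 ⟨e, he, rfl⟩)
    Z.c (lt_of_lt_of_le one_pos Z.one_le_c)
  refine ⟨C, Dm, fun δ h0 h1 => ?_⟩
  obtain ⟨v, hv1, hv2⟩ := h δ h0 (h1.trans Z.Y.δ0_le)
  exact ⟨⟨(v : X → L2), (hOm _).2 v.2⟩, hv1, hv2⟩

end CM
end Vale.Agent.P204.GX
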