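import Vale.Agent.P204.CV.A

set_option linter.all false

/-! P204 class version, package X1: null forms are exact, from the compactness of one smoothing
operator and the homotopy formula. -/

open Filter Topology Finset
open scoped InnerProductSpace BigOperators

namespace P204.GX

/-- For a compact operator `T` on a Hilbert space, the range of `1 - T` together with any dense
subspace spans everything. -/
theorem compact_dense {E : Type} [NormedAddCommGroup E] [InnerProductSpace ℝ E] [CompleteSpace E]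
    (T : E →L[ℝ] E) (hT : IsCompactOperator T) (D : Submodule ℝ E)
    (hD : Dense (D : Set E)) (b : E) : ∃ e ∈ D, ∃ c : E, b = e + (c - T c) := by
  -- finite net
  have hcpt : IsCompact (closure (T '' Metric.closedBall 0 1)) :=
    hT.isCompact_closure_image_closedBall 1
  obtain ⟨t, ht, htf, hcov⟩ := hcpt.finite_cover_balls (e := 1 / 2) (by norm_num)
  set V : Submodule ℝ E := Submodule.span ℝ t with hV
  have hVf : FiniteDimensional ℝ V := FiniteDimensional.span_of_finite ℝ htf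
  set P : E →L[ℝ] E := V.starProjection with hP
  set G : E →L[ℝ] E := T - P ∘L T with hG
  have hGa : ∀ x, G x = T x - P (T x) := fun x => by simp [hG]
  have hG1 : ∀ x, ‖x‖ ≤ 1 → ‖G x‖ ≤ 1 / 2 := by
    intro x hx
    have h1 : T x ∈ closure (T '' Metric.closedBall 0 1) :=
      subset_closure ⟨x, by simpa using hx, rfl⟩
    obtain ⟨y, hy, hxy⟩ := Set.mem_iUnion₂.1 (hcov h1)
    rw [hGa]
    have h2 : ‖T x - P (T x)‖ ≤ ‖T x - y‖ := by
      have hyV : y ∈ V := Submodule.subset_span hy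
      have := Submodule.starProjection_minimal (U := V) (T x)
      rw [hP, this]
      have h3 : BddBelow (Set.range fun x_1 : V => ‖T x - (x_1 : E)‖) :=
        ⟨0, by rintro _ ⟨z, rfl⟩; positivity⟩
      exact ciInf_le h3 ⟨y, hyV⟩
    rw [Metric.mem_ball, dist_eq_norm] at hxy
    exact h2.trans hxy.le
  have hGn : ‖G‖ ≤ 1 / 2 :=
    ContinuousLinearMap.opNorm_le_of_unit_norm (by norm_num) fun x hx => hG1 x hx.le
  have hGl : ‖G‖ < 1 := by linarith only [hGn]
  set U : (E →L[ℝ] E)ˣ := Units.oneSub G hGl with hU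
  have hUU : ∀ x : E, (U⁻¹ : (E →L[ℝ] E)ˣ).val x - G ((U⁻¹ : (E →L[ℝ] E)ˣ).val x) = x := by
    intro x
    have h1 : (U : (E →L[ℝ] E)ˣ).val * (U⁻¹ : (E →L[ℝ] E)ˣ).val = 1 := U.mul_inv
    have h2 := congrArg (fun A : E →L[ℝ] E => A x) h1
    have h3 : (U : (E →L[ℝ] E)ˣ).val = 1 - G := Units.val_oneSub G hGl
    rw [h3] at h2
    simpa using h2
  set W : E →L[ℝ] E := P ∘L T ∘L (U⁻¹ : (E →L[ℝ] E)ˣ).val with hW
  have hWa : ∀ x, W x = P (T ((U⁻¹ : (E →L[ℝ] E)ˣ).val x)) := fun x => rfl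
  have hWV : D.map (W : E →ₗ[ℝ] E) ≤ V := by
    rintro _ ⟨x, _, rfl⟩
    exact Submodule.starProjection_apply_mem _ _
  have hfin : FiniteDimensional ℝ (D.map (W : E →ₗ[ℝ] E)) := Submodule.finiteDimensional_of_le hWV
  have hcl : IsClosed ((D.map (W : E →ₗ[ℝ] E) : Submodule ℝ E) : Set E) :=
    Submodule.closed_of_finiteDimensional _
  have hb : W b ∈ D.map (W : E →ₗ[ℝ] E) := by
    have h1 : IsClosed {x : E | W x ∈ D.map (W : E →ₗ[ℝ] E)} := hcl.preimage W.continuous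
    have h2 : (D : Set E) ⊆ {x : E | W x ∈ D.map (W : E →ₗ[ℝ] E)} := fun x hx =>
      Submodule.mem_map_of_mem (f := (W : E →ₗ[ℝ] E)) hx
    exact closure_minimal h2 h1 (hD b)
  obtain ⟨e, he, heb⟩ := hb
  have heb' : W e = W b := heb
  refine ⟨e, he, (U⁻¹ : (E →L[ℝ] E)ˣ).val (b - e), ?_⟩
  have h1 := hUU (b - e)
  have h2 : P (T ((U⁻¹ : (E →L[ℝ] E)ˣ).val (b - e))) = 0 := by
    rw [← hWa, map_sub, heb', sub_self]
  rw [hGa, h2, sub_zero] at h1
  rw [h1]
  abel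

namespace SmSys

variable {H Om : Type} [NormedAddCommGroup H] [InnerProductSpace ℝ H] [CompleteSpace H]
  [AddCommGroup Om] [Module ℝ Om]

variable (Y : SmSys H Om)

/-- the closure of the exact forms -/
def Ew : Submodule ℝ H := (Y.Ex.map Y.ι).topologicalClosure

theorem isClosed_Ew : IsClosed (Y.Ew : Set H) := Submodule.isClosed_topologicalClosure _

theorem ι_mem_Ew {e : Om} (he : e ∈ Y.Ex) : Y.ι e ∈ Y.Ew :=
  Submodule.le_topologicalClosure _ (Submodule.mem_map_of_mem he)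

theorem Ew_le_Zw : Y.Ew ≤ Y.Zw := by
  refine Submodule.topologicalClosure_minimal _ ?_ Y.isClosed_Zw
  rintro _ ⟨e, he, rfl⟩
  exact Y.ι_mem_Zw (Y.Ex_le he)

theorem Nw_le_Ew : Y.Nw ≤ Y.Ew := fun z hz => by
  have h := Y.Nw_le_closure hz
  have h2 : (Y.Ew : Set H) = closure (Y.ι '' (Y.Ex : Set Om)) := by
    rw [Ew, Submodule.topologicalClosure_coe, Submodule.map_coe]
  exact (congrArg (fun s : Set H => z ∈ s) h2).mpr h

/-- X1: smooth forms in the closure of the exact forms are exact -/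
theorem mem_Ex_of_mem_Ew (δ : ℝ) (h0 : 0 < δ) (h1 : δ ≤ Y.δ0)
    (hc : IsCompactOperator (fun u : H => Y.ι (Y.S δ u)))
    (hh : ∀ c ∈ Y.Cl, c - Y.S δ (Y.ι c) ∈ Y.Ex) {b : Om} (hb : Y.ι b ∈ Y.Ew) : b ∈ Y.Ex := by
  have : CompleteSpace Y.Ew := Y.isClosed_Ew.completeSpace_coe
  -- the bounded operator
  set L : H →L[ℝ] H := (Y.ι ∘ₗ Y.S δ).mkContinuous (Y.K 0) (fun u => Y.S_norm δ u h0 h1) with hL
  have hLa : ∀ u, L u = Y.ι (Y.S δ u) := fun u => rfl
  have hLE : ∀ u ∈ Y.Ew, L u ∈ Y.Ew := by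
    intro u hu
    have hcl : IsClosed {x : H | L x ∈ Y.Ew} := Y.isClosed_Ew.preimage L.continuous
    have hsub : ((Y.Ex.map Y.ι : Submodule ℝ H) : Set H) ⊆ {x : H | L x ∈ Y.Ew} := by
      rintro _ ⟨e, he, rfl⟩
      change L (Y.ι e) ∈ Y.Ew
      rw [hLa]
      exact Y.ι_mem_Ew (Y.S_Ex δ e h0 h1 he)
    exact closure_minimal hsub hcl hu
  have hLc : IsCompactOperator ((L : H →ₗ[ℝ] H).restrict hLE) :=
    IsCompactOperator.restrict (f := (L : H →ₗ[ℝ] H)) hc hLE Y.isClosed_Ew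
  set T : Y.Ew →L[ℝ] Y.Ew := ⟨(L : H →ₗ[ℝ] H).restrict hLE, hLc.continuous⟩ with hT
  have hTa : ∀ u : Y.Ew, ((T u : Y.Ew) : H) = Y.ι (Y.S δ (u : H)) := fun u => rfl
  -- the dense subspace
  set D : Submodule ℝ Y.Ew := (Y.Ex.map Y.ι).comap Y.Ew.subtype with hD
  have hDd : Dense (D : Set Y.Ew) := by
    intro x
    rw [closure_subtype]
    have h2 : (Subtype.val '' (D : Set Y.Ew)) = ((Y.Ex.map Y.ι : Submodule ℝ H) : Set H) := by
      ext y
      constructor
      · rintro ⟨z, hz, rfl⟩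
        exact hz
      · intro hy
        exact ⟨⟨y, Submodule.le_topologicalClosure _ hy⟩, hy, rfl⟩
    rw [h2]
    exact x.2
  obtain ⟨e, he, c, hbc⟩ := compact_dense T hLc D hDd ⟨Y.ι b, hb⟩
  have hbc' : Y.ι b = (e : H) + ((c : H) - Y.ι (Y.S δ (c : H))) := by
    have := congrArg (fun z : Y.Ew => (z : H)) hbc
    exact this
  obtain ⟨e', he', hee⟩ : ∃ e' ∈ Y.Ex, Y.ι e' = (e : H) := he
  set c' : Om := Y.S δ (c : H) + b - e' with hc'
  have hcc : Y.ι c' = (c : H) := by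
    rw [hc', map_sub, map_add, hee, hbc']
    abel
  have hcl : c' ∈ Y.Cl := Y.closed_of_weak _ (by
    rw [hcc]
    exact Y.Ew_le_Zw c.2)
  have h3 := hh c' hcl
  have h4 : b = (c' - Y.S δ (Y.ι c')) + e' := by
    rw [hcc, hc']
    abel
  rw [h4]
  exact add_mem h3 he'

/-- X1: null forms are exact -/
theorem Nul_le_Ex {δ : ℝ} (h0 : 0 < δ) (h1 : δ ≤ Y.δ0)
    (hE : ∀ b ∈ Y.Cl, b - Y.S δ (Y.ι b) ∈ Y.Ex)
    (hK : TotallyBounded ((fun u => Y.ι (Y.S δ u)) '' Metric.closedBall (0 : H) 1)) :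
    Y.Nul ≤ Y.Ex := by
  intro b hb
  have hc : IsCompactOperator (fun u : H => Y.ι (Y.S δ u)) := by
    have h2 : IsCompact (closure ((fun u => Y.ι (Y.S δ u)) '' Metric.closedBall (0 : H) 1)) :=
      hK.closure.isCompact_of_isClosed isClosed_closure
    exact (isCompactOperator_iff_isCompact_closure_image_closedBall (Y.ι ∘ₗ Y.S δ)
      one_pos).2 h2
  exact Y.mem_Ex_of_mem_Ew δ h0 h1 hc hE (Y.Nw_le_Ew fun c hcc => hb.2 c hcc)

end SmSys
end P204.GX
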