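import Vale.Agent.P204.CV.HMain0
import Vale.Agent.P204.CV.G
import Vale.Agent.P204.CV.X1

set_option linter.all false

/-! P204 class version: the core statement from the smoothing system. -/

open MeasureTheory Set Filter Topology
open scoped ContDiff InnerProductSpace

namespace Vale.Agent.P204.GX
open Vale.Agent.P204.T4 _root_.P204.GX

/-- the smoothing system with all its properties -/
def SysD : Prop := ∀ (X : Type) [MetricSpace X] [CompactSpace X] [MeasurableSpace X] [BorelSpace X]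
    [Nonempty X] (M : CM X), ∃ Z : FnSys X, Z.μ = M.mu ∧ (∀ u : X → L2, u ∈ Z.Om ↔ u ∈ M.Om) ∧
      (∀ b : Z.Om, b ∈ Z.Y.Cl ↔ ∀ a, Closed (M.cf a (b : X → L2))) ∧
      (∀ b : Z.Om, b ∈ Z.Y.Ex ↔ ∃ e ∈ M.Ex, (e : X → L2) = (b : X → L2)) ∧
      (∀ m, ∃ K : ℝ, 0 ≤ K ∧ ∀ δ (b : Z.Om), 0 < δ → δ ≤ 1 →
        Z.Y.N m δ b ≤ K * M.NN m δ (b : X → L2)) ∧ HasPG Z ∧
      (∀ δ, 0 < δ → δ ≤ Z.Y.δ0 → ∀ b ∈ Z.Y.Cl, b - Z.Y.S δ (Z.Y.ι b) ∈ Z.Y.Ex) ∧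
      (∀ δ, 0 < δ → δ ≤ Z.Y.δ0 →
        TotallyBounded ((fun u => Z.Y.ι (Z.Y.S δ u)) '' Metric.closedBall 0 1))

theorem coreExact_of (hD : SysD) : CoreExact := by
  intro X _ _ _ _ _ M hb τ hτ hτp
  obtain ⟨Z, hμ, hOm, hCl, hEx, hN, hPG, hH, hK⟩ := hD X M
  have hNul : Z.Y.Nul ≤ Z.Y.Ex :=
    Z.Y.Nul_le_Ex Z.Y.δ0_pos le_rfl (hH _ Z.Y.δ0_pos le_rfl) (hK _ Z.Y.δ0_pos le_rfl)
  obtain ⟨w, hw, hwp, hwn⟩ := M.class_of_sys Z hμ hOm hCl hEx hN hPG hb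
    ⟨τ, (hOm _).2 hτ.1⟩ ((hCl _).2 hτ.2) hτp
  obtain ⟨e, he, hee⟩ := (hEx _).1 (hNul hwn)
  have h1 : (w : X → L2) - τ = (e : X → L2) := hee.symm
  refine ⟨(w : X → L2), ⟨(hOm _).1 w.2, (hCl w).1 hw⟩, hwp, ?_⟩
  have h2 : (w : X → L2) - τ ∈ M.Om := by rw [h1]; exact e.2
  refine ⟨h2, ?_⟩
  have h3 : (⟨(w : X → L2) - τ, h2⟩ : M.Om) = e := Subtype.ext h1
  rw [h3]
  exact he

end Vale.Agent.P204.GX
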