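import Vale.Agent.P204.CV.H1
import Vale.Agent.P204.CV.H2a
import Vale.Agent.P204.CV.DefsG

/-!
# P204 class version, package H2: every integral of `α ∧ β` is the concrete one; `b₂⁺ ≤ 1` on `CM`
-/

set_option linter.all false

open scoped Manifold ContDiff Topology ENNReal NNReal
open Set MeasureTheory

namespace Vale.Agent.P204.Mfd

open Vale.Agent.P204.T4

namespace FinAtlas

open GX

variable {X : Type} [TopologicalSpace X] [ChartedSpace E4 X] [IsManifold (𝓡 4) ∞ X]
  {J : EndField X} [CompactSpace X] [T2Space X]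
variable [MeasurableSpace X] [BorelSpace X] (A : FinAtlas X J) (om : TwoForm X)
  (hJ : AlmostComplex J) (hS : SmoothForm om) (hC : ClosedForm om) (hT : Tames om J)

theorem II_eq {I : TwoForm X → TwoForm X → ℝ} (hI : SC.IsIntegral J I) {α β : TwoForm X}
    (hα : SmoothForm α) (hβ : SmoothForm β) : I α β = A.II om hJ hS hC hT α β :=
  SC.IsIntegral.unique hI (A.isIntegral_II om hJ hS hC hT) hα hβ

theorem II_back (w w' : X → L2) :
    A.II om hJ hS hC hT (A.back om w) (A.back om w') =
      letI := A.metric; ∫ x, Q (w x) (w' x) ∂(A.toCM om hJ hS hC hT).mu := by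
  unfold II
  rw [A.cmp_back om hJ hT, A.cmp_back om hJ hT]

theorem bOne_of {I : TwoForm X → TwoForm X → ℝ} (hI : SC.IsIntegral J I)
    (hb : SC.BPlusLeOne I) : letI := A.metric; (A.toCM om hJ hS hC hT).BOne := by
  letI := A.metric
  intro a b ha hb' hpos
  have hsm : ∀ {w : X → L2}, (A.toCM om hJ hS hC hT).IsCl w → SmoothForm (A.back om w) := by
    intro w hw
    rw [A.smooth_iff om hJ hT hS hC, A.cmp_back om hJ hT]
    exact hw.1
  have hcl : ∀ {w : X → L2}, (A.toCM om hJ hS hC hT).IsCl w → ClosedForm (A.back om w) := by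
    intro w hw
    rw [A.closed_iff' om hJ hT hS hC (hsm hw), A.cmp_back om hJ hT]
    exact hw.2
  refine hb (A.back om a) (A.back om b) (hsm ha) (hcl ha) (hsm hb') (hcl hb') ?_
  intro s t hst
  have h1 : s • A.back om a + t • A.back om b = A.back om (s • a + t • b) := by
    rw [back_add, back_smul, back_smul]
  have h2 : SmoothForm (A.back om (s • a + t • b)) := by
    rw [A.smooth_iff om hJ hT hS hC, A.cmp_back om hJ hT]
    exact add_mem (Submodule.smul_mem _ _ ha.1) (Submodule.smul_mem _ _ hb'.1)
  have h3 : (s • A.back om a + t • A.back om b : TwoForm X) = A.back om (s • a + t • b) := h1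
  rw [h3]
  rw [A.II_eq om hJ hS hC hT hI h2 h2, A.II_back om hJ hS hC hT]
  exact hpos s t hst

end FinAtlas

end Vale.Agent.P204.Mfd
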