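import Vale.Agent.P204.CV.Stmt

/-!
# P204 class version, H4: universes

A compact manifold lives, up to homeomorphism, in `Type`: transport of structures, one-forms,
exact forms and of the integral.
-/

set_option linter.all false

open scoped Manifold ContDiff Topology
open Set MeasureTheory

namespace Vale.Agent.P204.CV.H4

open Vale.Agent.P204.DC Vale.Agent.P204.SC

universe u v

section Transport

variable {E : Type} [NormedAddCommGroup E] [NormedSpace ℝ E]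
variable {X : Type u} [TopologicalSpace X] [ChartedSpace E X]
variable {Y : Type v} [TopologicalSpace Y] (φ : Y ≃ₜ X)

/-- the charted space structure pulled back by a homeomorphism -/
@[reducible] def cs : ChartedSpace E Y where
  atlas := {c | ∃ c0 ∈ atlas E X, c = φ.transOpenPartialHomeomorph c0}
  chartAt y := φ.transOpenPartialHomeomorph (chartAt E (φ y))
  mem_chart_source y := by
    show φ y ∈ (chartAt E (φ y)).source
    exact mem_chart_source E (φ y)
  chart_mem_atlas y := ⟨_, chart_mem_atlas E (φ y), rfl⟩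

theorem cs_isManifold [IsManifold 𝓘(ℝ, E) ∞ X] :
    @IsManifold ℝ _ E _ _ E _ 𝓘(ℝ, E) ∞ Y _ (cs (E := E) φ) := by
  letI : ChartedSpace E Y := cs (E := E) φ
  have h : HasGroupoid Y (contDiffGroupoid ∞ 𝓘(ℝ, E)) := by
    refine ⟨?_⟩
    rintro c c' ⟨c0, h0, rfl⟩ ⟨c0', h0', rfl⟩
    have h1 := StructureGroupoid.compatible (contDiffGroupoid ∞ 𝓘(ℝ, E)) h0 h0'
    refine StructureGroupoid.mem_of_eqOnSource _ h1 ⟨?_, ?_⟩
    · ext y
      simp
    · intro y hy
      simp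
  exact { h with }

theorem mfderiv_eq_of {M N M' N' : Type*} [TopologicalSpace M] [ChartedSpace E M] [TopologicalSpace N]
    [ChartedSpace E N] [TopologicalSpace M'] [ChartedSpace E M'] [TopologicalSpace N'] [ChartedSpace E N']
    {f : M → N} {f' : M' → N'} {x : M} {x' : M'}
    (hw : writtenInExtChartAt 𝓘(ℝ, E) 𝓘(ℝ, E) x f = writtenInExtChartAt 𝓘(ℝ, E) 𝓘(ℝ, E) x' f')
    (hp : extChartAt 𝓘(ℝ, E) x x = extChartAt 𝓘(ℝ, E) x' x') (hc : ContinuousAt f x ↔ ContinuousAt f' x') :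
    (mfderiv 𝓘(ℝ, E) 𝓘(ℝ, E) f x : E →L[ℝ] E) = (mfderiv 𝓘(ℝ, E) 𝓘(ℝ, E) f' x' : E →L[ℝ] E) := by
  have hd : MDifferentiableAt 𝓘(ℝ, E) 𝓘(ℝ, E) f x ↔ MDifferentiableAt 𝓘(ℝ, E) 𝓘(ℝ, E) f' x' := by
    rw [mdifferentiableAt_iff, mdifferentiableAt_iff, hw, hp, hc]
  by_cases h : MDifferentiableAt 𝓘(ℝ, E) 𝓘(ℝ, E) f' x'
  · have h1 : (mfderiv 𝓘(ℝ, E) 𝓘(ℝ, E) f x : E →L[ℝ] E) =
        fderivWithin ℝ (writtenInExtChartAt 𝓘(ℝ, E) 𝓘(ℝ, E) x f) (range 𝓘(ℝ, E)) (extChartAt 𝓘(ℝ, E) x x) :=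
      (hd.2 h).mfderiv
    have h2 : (mfderiv 𝓘(ℝ, E) 𝓘(ℝ, E) f' x' : E →L[ℝ] E) =
        fderivWithin ℝ (writtenInExtChartAt 𝓘(ℝ, E) 𝓘(ℝ, E) x' f') (range 𝓘(ℝ, E)) (extChartAt 𝓘(ℝ, E) x' x') :=
      h.mfderiv
    rw [h1, h2, hw, hp]
  · have h1 : (mfderiv 𝓘(ℝ, E) 𝓘(ℝ, E) f x : E →L[ℝ] E) = 0 :=
      mfderiv_zero_of_not_mdifferentiableAt fun h' => h (hd.1 h')
    have h2 : (mfderiv 𝓘(ℝ, E) 𝓘(ℝ, E) f' x' : E →L[ℝ] E) = 0 :=
      mfderiv_zero_of_not_mdifferentiableAt h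
    exact h1.trans h2.symm

/-- the differential of a map into `Y` -/
theorem mfderiv_symm_comp (f : E → X) (y : E) :
    letI : ChartedSpace E Y := cs (E := E) φ
    (mfderiv 𝓘(ℝ, E) 𝓘(ℝ, E) (fun z => φ.symm (f z)) y : E →L[ℝ] E) =
      (mfderiv 𝓘(ℝ, E) 𝓘(ℝ, E) f y : E →L[ℝ] E) := by
  letI : ChartedSpace E Y := cs (E := E) φ
  refine mfderiv_eq_of ?_ rfl (φ.symm.comp_continuousAt_iff f y)
  funext z
  simp only [writtenInExtChartAt, extChartAt, Function.comp_apply]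
  show (chartAt E (φ (φ.symm (f y)))) (φ (φ.symm (f _))) = (chartAt E (f y)) (f _)
  rw [φ.apply_symm_apply, φ.apply_symm_apply]

theorem mfderiv_comp_phi (g : X → E) (x : X) :
    letI : ChartedSpace E Y := cs (E := E) φ
    (mfderiv 𝓘(ℝ, E) 𝓘(ℝ, E) (fun z => g (φ z)) (φ.symm x) : E →L[ℝ] E) =
      (mfderiv 𝓘(ℝ, E) 𝓘(ℝ, E) g x : E →L[ℝ] E) := by
  letI : ChartedSpace E Y := cs (E := E) φ
  refine mfderiv_eq_of ?_ ?_ ?_
  · funext z
    simp only [writtenInExtChartAt, extChartAt, Function.comp_apply]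
    show g (φ (φ.symm ((chartAt E (φ (φ.symm x))).symm z))) = g ((chartAt E x).symm z)
    rw [φ.apply_symm_apply, φ.apply_symm_apply]
  · show (chartAt E (φ (φ.symm x))) (φ (φ.symm x)) = (chartAt E x) x
    rw [φ.apply_symm_apply]
  · have := φ.comp_continuousAt_iff' g (φ.symm x)
    rw [φ.apply_symm_apply] at this
    exact this

/-- transport of a two-form to `Y` -/
def tf (om : TwoForm E X) : @TwoForm E _ _ Y _ (cs (E := E) φ) :=
  fun y => (om (φ y) : E [⋀^Fin 2]→L[ℝ] ℝ)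

/-- transport of a two-form to `X` -/
def bf (om : @TwoForm E _ _ Y _ (cs (E := E) φ)) : TwoForm E X :=
  fun x => (om (φ.symm x) : E [⋀^Fin 2]→L[ℝ] ℝ)

/-- transport of a field of endomorphisms to `Y` -/
def tJ (J : EndField E X) : @EndField E _ _ Y _ (cs (E := E) φ) :=
  fun y => (J (φ y) : E →L[ℝ] E)

theorem pull_tf (c0 : OpenPartialHomeomorph X E) (om : TwoForm E X) :
    letI : ChartedSpace E Y := cs (E := E) φ
    pullForm (φ.transOpenPartialHomeomorph c0).symm (tf φ om) = pullForm c0.symm om := by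
  letI : ChartedSpace E Y := cs (E := E) φ
  funext y
  have e1 : (fun x => om x : X → E [⋀^Fin 2]→L[ℝ] ℝ) (φ (φ.symm (c0.symm y))) =
      (fun x => om x : X → E [⋀^Fin 2]→L[ℝ] ℝ) (c0.symm y) := by rw [φ.apply_symm_apply]
  exact congrArg₂ (fun (A : E [⋀^Fin 2]→L[ℝ] ℝ) (L : E →L[ℝ] E) => A.compContinuousLinearMap L) e1
    (mfderiv_symm_comp φ c0.symm y)

theorem tf_bf (om : @TwoForm E _ _ Y _ (cs (E := E) φ)) : tf φ (bf φ om) = om := by
  letI : ChartedSpace E Y := cs (E := E) φ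
  funext y
  show (fun y => om y : Y → E [⋀^Fin 2]→L[ℝ] ℝ) (φ.symm (φ y)) = (fun y => om y : Y → E [⋀^Fin 2]→L[ℝ] ℝ) y
  rw [φ.symm_apply_apply]

theorem pull_bf (c0 : OpenPartialHomeomorph X E) (om : @TwoForm E _ _ Y _ (cs (E := E) φ)) :
    letI : ChartedSpace E Y := cs (E := E) φ
    pullForm c0.symm (bf φ om) = pullForm (φ.transOpenPartialHomeomorph c0).symm om := by
  letI : ChartedSpace E Y := cs (E := E) φ
  have h := pull_tf φ c0 (bf φ om)
  rw [tf_bf] at h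
  exact h.symm

theorem endRep_tJ (c0 : OpenPartialHomeomorph X E) (J : EndField E X) :
    letI : ChartedSpace E Y := cs (E := E) φ
    endRep (φ.transOpenPartialHomeomorph c0) (tJ φ J) = endRep c0 J := by
  letI : ChartedSpace E Y := cs (E := E) φ
  funext y
  have e1 : (fun x => J x : X → E →L[ℝ] E) (φ (φ.symm (c0.symm y))) =
      (fun x => J x : X → E →L[ℝ] E) (c0.symm y) := by rw [φ.apply_symm_apply]
  have e2 := mfderiv_symm_comp φ c0.symm y
  have e3 := mfderiv_comp_phi φ c0 (c0.symm y)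
  have e4 : ∀ (A A' B B' C C' : E →L[ℝ] E), A = A' → B = B' → C = C' →
      A.comp (B.comp C) = A'.comp (B'.comp C') := by
    rintro A _ B _ C _ rfl rfl rfl; rfl
  exact e4 _ _ _ _ _ _ e3 e1 e2

theorem almostComplex_tJ {J : EndField E X} (hJ : AlmostComplex J) :
    @AlmostComplex E _ _ Y _ (cs (E := E) φ) (tJ φ J) := by
  letI : ChartedSpace E Y := cs (E := E) φ
  refine ⟨?_, fun y v => hJ.sq (φ y) v⟩
  rintro c ⟨c0, h0, rfl⟩
  rw [endRep_tJ]
  exact hJ.smooth c0 h0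

theorem symplectic_tf {om : TwoForm E X} (h : Symplectic om) :
    @Symplectic E _ _ Y _ (cs (E := E) φ) (tf φ om) := by
  letI : ChartedSpace E Y := cs (E := E) φ
  refine ⟨?_, ?_, fun y v hv => h.nondegenerate (φ y) v hv⟩
  · rintro c ⟨c0, h0, rfl⟩
    rw [pull_tf]
    exact h.smooth c0 h0
  · rintro c ⟨c0, h0, rfl⟩
    rw [pull_tf]
    exact h.closed c0 h0

theorem symplectic_bf {om : @TwoForm E _ _ Y _ (cs (E := E) φ)}
    (h : @Symplectic E _ _ Y _ (cs (E := E) φ) om) : Symplectic (bf φ om) := by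
  letI : ChartedSpace E Y := cs (E := E) φ
  refine ⟨?_, ?_, fun x v hv => h.nondegenerate (φ.symm x) v hv⟩
  · intro c0 h0
    rw [pull_bf]
    exact h.smooth _ ⟨c0, h0, rfl⟩
  · intro c0 h0
    rw [pull_bf]
    exact h.closed _ ⟨c0, h0, rfl⟩

theorem compatible_bf {om : @TwoForm E _ _ Y _ (cs (E := E) φ)} {J : EndField E X}
    (h : @Compatible E _ _ Y _ (cs (E := E) φ) om (tJ φ J)) : Compatible (bf φ om) J := by
  letI : ChartedSpace E Y := cs (E := E) φ
  have e : ∀ x, (fun x => J x : X → E →L[ℝ] E) (φ (φ.symm x)) = (fun x => J x : X → E →L[ℝ] E) x := by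
    intro x; rw [φ.apply_symm_apply]
  refine ⟨fun x v hv => ?_, fun x v w => ?_⟩
  · have h1 := h.tames (φ.symm x) v hv
    have h2 : tJ φ J (φ.symm x) v = J x v := congrArg (fun L : E →L[ℝ] E => L v) (e x)
    rw [h2] at h1
    exact h1
  · have h1 := h.invariant (φ.symm x) v w
    have h2 : ∀ v : E, tJ φ J (φ.symm x) v = J x v := fun v => congrArg (fun L : E →L[ℝ] E => L v) (e x)
    rw [h2 v, h2 w] at h1
    exact h1

theorem bf_tf (om : TwoForm E X) : bf φ (tf φ om) = om := by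
  funext x
  show (fun x => om x : X → E [⋀^Fin 2]→L[ℝ] ℝ) (φ (φ.symm x)) =
    (fun x => om x : X → E [⋀^Fin 2]→L[ℝ] ℝ) x
  rw [φ.apply_symm_apply]

theorem J_apply (J : EndField E X) (x : X) (v : E) : tJ φ J (φ.symm x) v = J x v := by
  have e : (fun x => J x : X → E →L[ℝ] E) (φ (φ.symm x)) = (fun x => J x : X → E →L[ℝ] E) x := by
    rw [φ.apply_symm_apply]
  exact congrArg (fun L : E →L[ℝ] E => L v) e

theorem compatible_tf {om : TwoForm E X} {J : EndField E X} (h : Compatible om J) :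
    @Compatible E _ _ Y _ (cs (E := E) φ) (tf φ om) (tJ φ J) := by
  letI : ChartedSpace E Y := cs (E := E) φ
  exact ⟨fun y v hv => h.tames (φ y) v hv, fun y v w => h.invariant (φ y) v w⟩

theorem tames_tf {om : TwoForm E X} {J : EndField E X} (h : Tames om J) :
    @Tames E _ _ Y _ (cs (E := E) φ) (tf φ om) (tJ φ J) := by
  letI : ChartedSpace E Y := cs (E := E) φ
  exact fun y v hv => h (φ y) v hv

theorem tames_bf {om : @TwoForm E _ _ Y _ (cs (E := E) φ)} {J : EndField E X}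
    (h : @Tames E _ _ Y _ (cs (E := E) φ) om (tJ φ J)) : Tames (bf φ om) J := by
  letI : ChartedSpace E Y := cs (E := E) φ
  intro x v hv
  have h1 := h (φ.symm x) v hv
  rw [show tJ φ J (φ.symm x) v = J x v from J_apply φ J x v] at h1
  exact h1

/-- transport of a one-form to `Y` -/
def tf1 (al : OneForm E X) : @OneForm E _ _ Y _ (cs (E := E) φ) :=
  fun y => (al (φ y) : E [⋀^Fin 1]→L[ℝ] ℝ)

/-- transport of a one-form to `X` -/
def bf1 (al : @OneForm E _ _ Y _ (cs (E := E) φ)) : OneForm E X :=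
  fun x => (al (φ.symm x) : E [⋀^Fin 1]→L[ℝ] ℝ)

theorem pull_tf1 (c0 : OpenPartialHomeomorph X E) (al : OneForm E X) :
    letI : ChartedSpace E Y := cs (E := E) φ
    pullOne (φ.transOpenPartialHomeomorph c0).symm (tf1 φ al) = pullOne c0.symm al := by
  letI : ChartedSpace E Y := cs (E := E) φ
  funext y
  have e1 : (fun x => al x : X → E [⋀^Fin 1]→L[ℝ] ℝ) (φ (φ.symm (c0.symm y))) =
      (fun x => al x : X → E [⋀^Fin 1]→L[ℝ] ℝ) (c0.symm y) := by rw [φ.apply_symm_apply]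
  exact congrArg₂ (fun (A : E [⋀^Fin 1]→L[ℝ] ℝ) (L : E →L[ℝ] E) => A.compContinuousLinearMap L) e1
    (mfderiv_symm_comp φ c0.symm y)

theorem tf1_bf1 (al : @OneForm E _ _ Y _ (cs (E := E) φ)) : tf1 φ (bf1 φ al) = al := by
  letI : ChartedSpace E Y := cs (E := E) φ
  funext y
  show (fun y => al y : Y → E [⋀^Fin 1]→L[ℝ] ℝ) (φ.symm (φ y)) =
    (fun y => al y : Y → E [⋀^Fin 1]→L[ℝ] ℝ) y
  rw [φ.symm_apply_apply]

theorem pull_bf1 (c0 : OpenPartialHomeomorph X E) (al : @OneForm E _ _ Y _ (cs (E := E) φ)) :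
    letI : ChartedSpace E Y := cs (E := E) φ
    pullOne c0.symm (bf1 φ al) = pullOne (φ.transOpenPartialHomeomorph c0).symm al := by
  letI : ChartedSpace E Y := cs (E := E) φ
  have h := pull_tf1 φ c0 (bf1 φ al)
  rw [tf1_bf1] at h
  exact h.symm

theorem isExact_tf {th : TwoForm E X} (h : IsExact th) :
    @IsExact E _ _ Y _ (cs (E := E) φ) (tf φ th) := by
  letI : ChartedSpace E Y := cs (E := E) φ
  obtain ⟨al, h1, h2⟩ := h
  refine ⟨tf1 φ al, ?_, ?_⟩
  · rintro c ⟨c0, h0, rfl⟩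
    rw [pull_tf1]
    exact h1 c0 h0
  · rintro c ⟨c0, h0, rfl⟩ y hy
    rw [pull_tf1, pull_tf]
    exact h2 c0 h0 y hy

theorem isExact_bf {th : @TwoForm E _ _ Y _ (cs (E := E) φ)}
    (h : @IsExact E _ _ Y _ (cs (E := E) φ) th) : IsExact (bf φ th) := by
  letI : ChartedSpace E Y := cs (E := E) φ
  obtain ⟨al, h1, h2⟩ := h
  refine ⟨bf1 φ al, ?_, ?_⟩
  · intro c0 h0
    rw [pull_bf1]
    exact h1 _ ⟨c0, h0, rfl⟩
  · intro c0 h0 y hy
    rw [pull_bf1, pull_bf]
    exact h2 _ ⟨c0, h0, rfl⟩ y hy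

theorem smooth_tf {om : TwoForm E X} (h : SmoothForm om) :
    @SmoothForm E _ _ Y _ (cs (E := E) φ) (tf φ om) := by
  letI : ChartedSpace E Y := cs (E := E) φ
  rintro c ⟨c0, h0, rfl⟩
  rw [pull_tf]
  exact h c0 h0

theorem smooth_bf {om : @TwoForm E _ _ Y _ (cs (E := E) φ)}
    (h : @SmoothForm E _ _ Y _ (cs (E := E) φ) om) : SmoothForm (bf φ om) := by
  letI : ChartedSpace E Y := cs (E := E) φ
  intro c0 h0
  rw [pull_bf]
  exact h _ ⟨c0, h0, rfl⟩

theorem closed_bf {om : @TwoForm E _ _ Y _ (cs (E := E) φ)}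
    (h : @ClosedForm E _ _ Y _ (cs (E := E) φ) om) : ClosedForm (bf φ om) := by
  letI : ChartedSpace E Y := cs (E := E) φ
  intro c0 h0
  rw [pull_bf]
  exact h _ ⟨c0, h0, rfl⟩

end Transport

section Four

variable {X : Type u} [TopologicalSpace X] [ChartedSpace E4 X]
variable {Y : Type v} [TopologicalSpace Y] (φ : Y ≃ₜ X)

/-- the integral on `X` from the one on `Y` -/
theorem isIntegral_bf {J : EndField E4 X}
    {I : @TwoForm E4 _ _ Y _ (cs (E := E4) φ) → @TwoForm E4 _ _ Y _ (cs (E := E4) φ) → ℝ}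
    (h : @IsIntegral Y _ (cs (E := E4) φ) (tJ φ J) I) :
    IsIntegral J (fun α β => I (tf φ α) (tf φ β)) := by
  letI : ChartedSpace E4 Y := cs (E := E4) φ
  refine ⟨fun α α' β hα hα' hβ => h.add _ _ _ (smooth_tf φ hα) (smooth_tf φ hα') (smooth_tf φ hβ), ?_⟩
  intro e he K hK hKc α β hα hβ hz
  have h1 := h.chart (φ.transOpenPartialHomeomorph e) ⟨e, he, rfl⟩ (φ ⁻¹' K)
    (fun y hy => hK hy) (φ.isClosedEmbedding.isCompact_preimage hKc) (tf φ α) (tf φ β)
    (smooth_tf φ hα) (smooth_tf φ hβ) (fun y hy => hz (φ y) hy)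
  rw [endRep_tJ, pull_tf, pull_tf] at h1
  exact h1

/-- the integral on `Y` from the one on `X` -/
theorem isIntegral_tf {J : EndField E4 X} {I : TwoForm E4 X → TwoForm E4 X → ℝ}
    (h : IsIntegral J I) :
    @IsIntegral Y _ (cs (E := E4) φ) (tJ φ J) (fun α β => I (bf φ α) (bf φ β)) := by
  letI : ChartedSpace E4 Y := cs (E := E4) φ
  refine ⟨fun α α' β hα hα' hβ => h.add _ _ _ (smooth_bf φ hα) (smooth_bf φ hα') (smooth_bf φ hβ), ?_⟩
  rintro c ⟨e, he, rfl⟩ K hK hKc α β hα hβ hz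
  have h1 := h.chart e he (φ '' K) (by rintro _ ⟨y, hy, rfl⟩; exact hK hy)
    (hKc.image φ.continuous) (bf φ α) (bf φ β) (smooth_bf φ hα) (smooth_bf φ hβ) (fun x hx => by
      refine hz (φ.symm x) fun hx' => hx ⟨φ.symm x, hx', φ.apply_symm_apply x⟩)
  rw [endRep_tJ]
  rw [pull_bf, pull_bf] at h1
  exact h1

theorem bPlus_tf {I : TwoForm E4 X → TwoForm E4 X → ℝ} (h : BPlusLeOne I) :
    @BPlusLeOne Y _ (cs (E := E4) φ) (fun α β => I (bf φ α) (bf φ β)) := by
  letI : ChartedSpace E4 Y := cs (E := E4) φ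
  intro α β hα hα' hβ hβ'
  exact h (bf φ α) (bf φ β) (smooth_bf φ hα) (closed_bf φ hα') (smooth_bf φ hβ) (closed_bf φ hβ')

end Four

theorem small_of_compact {E : Type} [TopologicalSpace E] (X : Type u) [TopologicalSpace X] [ChartedSpace E X]
    [CompactSpace X] : Small.{0} X := by
  obtain ⟨t, ht⟩ := isCompact_univ.elim_nhds_subcover (fun x : X => (chartAt E x).source)
    (fun x _ => chart_source_mem_nhds E x)
  have h1 : ∀ x : X, Small.{0} ((chartAt E x).source) := fun x =>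
    small_of_injective (f := fun y : (chartAt E x).source => chartAt E x y) (fun y z h =>
      Subtype.ext ((chartAt E x).injOn y.2 z.2 h))
  have h2 : Small.{0} (↑(⋃ x : t, (chartAt E (x : X)).source) : Type u) := small_iUnion _
  rw [← small_univ_iff]
  refine small_subset (t := univ) (s := ⋃ x : t, (chartAt E (x : X)).source) fun x _ => ?_
  obtain ⟨y, hy, hxy⟩ := mem_iUnion₂.1 (ht.2 (mem_univ x))
  exact mem_iUnion.2 ⟨⟨y, hy⟩, hxy⟩

/-- **H4**: universe transport of the class version -/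
theorem sameClass_univ (h : SameClass.{0}) : SameClass.{u} := by
  intro X _ _ _ _ _ _ J hJ om hom hT
  have hs : Small.{0} X := small_of_compact (E := E4) X
  letI : TopologicalSpace (Shrink.{0} X) := TopologicalSpace.induced (equivShrink X).symm inferInstance
  let φ : Shrink.{0} X ≃ₜ X := (equivShrink X).symm.toHomeomorphOfIsInducing ⟨rfl⟩
  letI : ChartedSpace E4 (Shrink.{0} X) := cs φ
  haveI : IsManifold (𝓡 4) ∞ (Shrink.{0} X) := cs_isManifold φ
  haveI : CompactSpace (Shrink.{0} X) := φ.symm.compactSpace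
  haveI : T2Space (Shrink.{0} X) := φ.symm.t2Space
  haveI : ConnectedSpace (Shrink.{0} X) := φ.symm.surjective.connectedSpace φ.symm.continuous
  obtain ⟨⟨I0, hI0⟩, h2⟩ := h (Shrink.{0} X) (tJ φ J) (almostComplex_tJ φ hJ) (tf φ om)
    (symplectic_tf φ hom) (tames_tf φ hT)
  refine ⟨⟨_, isIntegral_bf φ hI0⟩, fun I hI hb => ?_⟩
  obtain ⟨om', h3, h4, h5⟩ := h2 _ (isIntegral_tf φ hI) (bPlus_tf φ hb)
  refine ⟨bf φ om', symplectic_bf φ h3, compatible_bf φ h4, ?_⟩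
  have h6 := isExact_bf φ h5
  have e : bf φ (om' - tf φ om) = bf φ om' - om := by
    have e1 : bf φ (om' - tf φ om) = bf φ om' - bf φ (tf φ om) := rfl
    rw [e1, bf_tf]
  rw [e] at h6
  exact h6

end Vale.Agent.P204.CV.H4
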