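import Vale.Agent.P204.CV.H4

/-!
# P204 class version: the final statement in `Type` gives the final statement in `Type u`
-/

namespace Vale.Agent.P204.SC

theorem sameClass_univ.{u} (h : SameClass.{0}) : SameClass.{u} :=
  Vale.Agent.P204.CV.H4.sameClass_univ.{u} h

end Vale.Agent.P204.SC
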