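import Vale.Agent.P204.CV.HMain0
import Vale.Agent.P204.CV.HUniv

set_option linter.all false

/-! P204 class version: `SameClass` from the core statement. -/

open scoped Manifold ContDiff Topology
open Set MeasureTheory

namespace Vale.Agent.P204.Mfd

open Vale.Agent.P204.T4

/-- The existence of the integral. -/
def HasIntegral : Prop :=
  ∀ (X : Type) [TopologicalSpace X] [ChartedSpace E4 X] [IsManifold (𝓡 4) ∞ X] [CompactSpace X]
    [T2Space X] [ConnectedSpace X] (J : EndField X) (hJ : AlmostComplex J) (om : TwoForm X)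
    (hT : Tames om J) (hS : SmoothForm om) (hC : ClosedForm om) (A : FinAtlas X J)
    [MeasurableSpace X] [BorelSpace X],
    (∃ I : TwoForm X → TwoForm X → ℝ, SC.IsIntegral J I) ∧
    ∀ I : TwoForm X → TwoForm X → ℝ, SC.IsIntegral J I → SC.BPlusLeOne I →
      letI := A.metric; (A.toCM om hJ hS hC hT).BOne

theorem sameClass0_of (core : GX.CoreExact) (hI : HasIntegral) : SC.SameClass.{0} := by
  intro X _ _ _ _ _ _ J hJ om hom hT
  have hJ' : AlmostComplex (X := X) J := ⟨hJ.smooth, hJ.sq⟩
  obtain ⟨A⟩ := exists_finAtlas hJ'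
  letI : MeasurableSpace X := borel X
  haveI : BorelSpace X := ⟨rfl⟩
  obtain ⟨h1, h2⟩ := hI X J hJ' om hT hom.smooth hom.closed A
  refine ⟨h1, fun I hI hb => ?_⟩
  obtain ⟨om', ho, hc, he⟩ := A.sameClass_core om hJ' hT hom.smooth hom.closed core (h2 I hI hb)
  exact ⟨om', ⟨ho.smooth, ho.closed, ho.nondegenerate⟩, ⟨hc.tames, hc.invariant⟩, he⟩

theorem sameClass_of.{u} (core : GX.CoreExact) (hI : HasIntegral) : SC.SameClass.{u} :=
  SC.sameClass_univ (sameClass0_of core hI)

end Vale.Agent.P204.Mfd
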