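import Vale.Agent.P204.CV.HOne
import Vale.Agent.P204.CV.Core

set_option linter.all false

/-! P204 class version: from the core statement on `CM` to the statement on closed
four-manifolds (in `Type`). -/

open scoped Manifold ContDiff Topology
open Set MeasureTheory

namespace Vale.Agent.P204.Mfd

open Vale.Agent.P204.T4

variable {X : Type} [TopologicalSpace X] [ChartedSpace E4 X] [IsManifold (𝓡 4) ∞ X]
  {J : EndField X} [CompactSpace X] [T2Space X]

namespace FinAtlas

variable (A : FinAtlas X J) (om : TwoForm X)

theorem back_sub (w w' : X → L2) : A.back om (w - w') = A.back om w - A.back om w' := by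
  apply twoForm_ext
  intro x u v
  have e : omv (A.back om w - A.back om w') x u v =
      omv (A.back om w) x u v - omv (A.back om w') x u v := rfl
  rw [e, omv_back, omv_back, omv_back, ev_eq, ev_eq, ev_eq]
  simp only [Pi.sub_apply]
  ring

theorem posDef_F0 : PosDef J0 GX.F0 := by
  rw [← GX.Fm_J0_eq]
  exact posDef_Fm isCx_J0

theorem omX_eq_cmp : A.omX om = A.cmp om om := rfl

variable (hJ : AlmostComplex J) (hT : Tames om J) (hS : SmoothForm om) (hC : ClosedForm om)

/-- the core statement gives a compatible form in the class of the taming form -/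
theorem sameClass_core [MeasurableSpace X] [BorelSpace X] [Nonempty X] (core : GX.CoreExact)
    (hB : letI := A.metric; (A.toCM om hJ hS hC hT).BOne) :
    ∃ om' : TwoForm X, Symplectic om' ∧ Compatible om' J ∧ IsExact (om' - om) := by
  letI := A.metric
  obtain ⟨w, ⟨hw, hcl⟩, hpos, hm, hE⟩ := core X (A.toCM om hJ hS hC hT) hB (A.omX om)
    ⟨fun a => (A.toCM om hJ hS hC hT).om_smooth a, fun a => (A.toCM om hJ hS hC hT).om_closed a⟩
    (fun x => by rw [A.pP_omX om hJ hT]; exact posDef_F0)
  obtain ⟨h1, h2⟩ := A.back_compatible om hJ hT (fun a => hw a) (fun a => hcl a) hpos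
  refine ⟨A.back om w, h1, h2, ?_⟩
  have h3 : A.back om w - om = A.back om (w - A.omX om) := by
    rw [back_sub, omX_eq_cmp, A.back_cmp om hJ hT]
  rw [h3]
  exact A.isExact_back om hJ hT hS hC _ hm hE

end FinAtlas

end Vale.Agent.P204.Mfd
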