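import Vale.Agent.P204.Bdl.B3

set_option linter.all false

/-! P204 class version, package X3a: the Poincare lemma for closed two-forms on `V4`. -/

open MeasureTheory Set Filter Topology Metric
open scoped ContDiff BigOperators

namespace Vale.Agent.P204.GX
open Vale.Agent.P204.T4

/-- the integrand of the Poincare operator -/
noncomputable def poi (β : V4 → L2) (j : Fin 4) (t : ℝ) (y : V4) : ℝ :=
  t * ∑ i, y i * ent (β (t • y)) i j

/-- the Poincare operator -/
noncomputable def Po (β : V4 → L2) (y : V4) : V4 :=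
  fun j => ∫ t in (0 : ℝ)..1, t * ∑ i, y i * ent (β (t • y)) i j

theorem Po_apply (β : V4 → L2) (y : V4) (j : Fin 4) :
    Po β y j = ∫ t in Ioc (0 : ℝ) 1, poi β j t y := by
  rw [Po, intervalIntegral.integral_of_le zero_le_one]
  rfl

theorem po_null : (volume.restrict (Ioc (0 : ℝ) 1)) (Icc 0 1)ᶜ = 0 := by
  rw [Measure.restrict_apply measurableSet_Icc.compl]
  have : (Icc (0 : ℝ) 1)ᶜ ∩ Ioc 0 1 = ∅ := by
    ext x; simp only [mem_inter_iff, mem_compl_iff, mem_Icc, mem_Ioc, mem_empty_iff_false,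
      iff_false]
    rintro ⟨a1, a2, a3⟩; exact a1 ⟨a2.le, a3⟩
  rw [this, measure_empty]

instance po_fin : IsFiniteMeasure (volume.restrict (Ioc (0 : ℝ) 1)) :=
  ⟨by rw [Measure.restrict_apply_univ]; exact measure_Ioc_lt_top⟩

/-- the coordinates of `V4` are smooth -/
theorem contDiff_coord {W : Type} [NormedAddCommGroup W] [NormedSpace ℝ W] {g : W → V4}
    (hg : ContDiff ℝ ∞ g) (i : Fin 4) : ContDiff ℝ ∞ fun w => g w i :=
  contDiff_pi.1 hg i

theorem contDiff_poi {Z : Type} [NormedAddCommGroup Z] [NormedSpace ℝ Z]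
    {β : Z → V4 → L2} (hβ : ContDiff ℝ ∞ (Function.uncurry β)) (j : Fin 4) :
    ContDiff ℝ ∞ (Function.uncurry fun (t : ℝ) (p : Z × V4) => poi (β p.1) j t p.2) := by
  have a1 : ContDiff ℝ ∞ (fun q : ℝ × (Z × V4) => q.1) := contDiff_fst
  have a2 : ContDiff ℝ ∞ (fun q : ℝ × (Z × V4) => q.2.1) := contDiff_fst.comp contDiff_snd
  have a3 : ContDiff ℝ ∞ (fun q : ℝ × (Z × V4) => q.2.2) := contDiff_snd.comp contDiff_snd
  have a4 : ContDiff ℝ ∞ (fun q : ℝ × (Z × V4) => β q.2.1 (q.1 • q.2.2)) :=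
    hβ.comp (a2.prodMk (a1.smul a3))
  have a5 : ContDiff ℝ ∞ (fun q : ℝ × (Z × V4) =>
      q.1 * ∑ i, q.2.2 i * ent (β q.2.1 (q.1 • q.2.2)) i j) :=
    a1.mul (ContDiff.sum fun i _ => (contDiff_coord a3 i).mul ((contDiff_ent i j).comp a4))
  exact a5

/-- The Poincare operator depends smoothly on parameters. -/
theorem contDiff_Po {Z : Type} [NormedAddCommGroup Z] [NormedSpace ℝ Z] [FiniteDimensional ℝ Z]
    {β : Z → V4 → L2} (hβ : ContDiff ℝ ∞ (Function.uncurry β)) :
    ContDiff ℝ ∞ (Function.uncurry fun z => Po (β z)) := by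
  rw [contDiff_pi]
  intro j
  have h : (fun p : Z × V4 => Function.uncurry (fun z => Po (β z)) p j) = fun p : Z × V4 =>
      ∫ t in Ioc (0 : ℝ) 1, poi (β p.1) j t p.2 := by
    funext p
    exact Po_apply (β p.1) p.2 j
  rw [h]
  exact contDiff_integral_param (S := ℝ) (F := Z × V4) (volume.restrict (Ioc (0 : ℝ) 1))
    (isCompact_Icc (a := (0 : ℝ)) (b := 1)) po_null (contDiff_poi hβ j)

theorem contDiff_poi1 {β : V4 → L2} (hβ : ContDiff ℝ ∞ β) (j : Fin 4) :
    ContDiff ℝ ∞ (Function.uncurry fun (t : ℝ) (y : V4) => poi β j t y) := by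
  have a1 : ContDiff ℝ ∞ (fun q : ℝ × V4 => q.1) := contDiff_fst
  have a3 : ContDiff ℝ ∞ (fun q : ℝ × V4 => q.2) := contDiff_snd
  have a4 : ContDiff ℝ ∞ (fun q : ℝ × V4 => β (q.1 • q.2)) := hβ.comp (a1.smul a3)
  have a5 : ContDiff ℝ ∞ (fun q : ℝ × V4 => q.1 * ∑ i, q.2 i * ent (β (q.1 • q.2)) i j) :=
    a1.mul (ContDiff.sum fun i _ => (contDiff_coord a3 i).mul ((contDiff_ent i j).comp a4))
  exact a5

theorem contDiff_Po1 {β : V4 → L2} (hβ : ContDiff ℝ ∞ β) : ContDiff ℝ ∞ (Po β) := by
  rw [contDiff_pi]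
  intro j
  have h : (fun y : V4 => Po β y j) = fun y : V4 => ∫ t in Ioc (0 : ℝ) 1, poi β j t y := by
    funext y
    exact Po_apply β y j
  rw [h]
  exact contDiff_integral_param (S := ℝ) (F := V4) (volume.restrict (Ioc (0 : ℝ) 1))
    (isCompact_Icc (a := (0 : ℝ)) (b := 1)) po_null (contDiff_poi1 hβ j)

/-- the derivative in the direction `x` in terms of partial derivatives -/
theorem fderiv_eq_sum_pd (g : V4 → ℝ) (z x : V4) : fderiv ℝ g z x = ∑ i, x i * pd i g z := by
  have h1 : x = ∑ i, x i • (Pi.single i (1 : ℝ) : V4) := by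
    funext k
    rw [Finset.sum_apply]
    simp [Pi.single_apply]
  conv_lhs => rw [h1]
  rw [map_sum]
  refine Finset.sum_congr rfl fun i _ => ?_
  rw [map_smul, smul_eq_mul]
  rfl

theorem pd_scale {g : V4 → ℝ} (hg : Differentiable ℝ g) (t : ℝ) (x : V4) (k : Fin 4) :
    pd k (fun y => g (t • y)) x = t * pd k g (t • x) := by
  unfold pd
  have h1 : HasFDerivAt (fun y : V4 => t • y) (t • ContinuousLinearMap.id ℝ V4) x :=
    (hasFDerivAt_id x).const_smul t
  have h2 : HasFDerivAt (fun y : V4 => g (t • y))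
      ((fderiv ℝ g (t • x)).comp (t • ContinuousLinearMap.id ℝ V4)) x :=
    HasFDerivAt.comp (g := g) x (hg (t • x)).hasFDerivAt h1
  rw [h2.fderiv]
  simp

/-- partial derivatives of the integrand -/
theorem pd_poi {β : V4 → L2} (hβ : ContDiff ℝ ∞ β) (k l : Fin 4) (t : ℝ) (x : V4) :
    pd k (poi β l t) x = t * ent (β (t • x)) k l +
      t ^ 2 * ∑ i, x i * pd k (fun y => ent (β y) i l) (t • x) := by
  have hd : ∀ i, Differentiable ℝ (fun y => ent (β y) i l) := fun i =>
    ((contDiff_ent i l).comp hβ).differentiable (by simp)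
  have hd2 : ∀ i, Differentiable ℝ (fun y : V4 => ent (β (t • y)) i l) := fun i =>
    (hd i).comp (differentiable_id.const_smul t)
  have hc : ∀ i : Fin 4, Differentiable ℝ (fun y : V4 => y i) := fun i => differentiable_apply i
  have h1 : ∀ i, pd k (fun y : V4 => y i * ent (β (t • y)) i l) x =
      x i * (t * pd k (fun y => ent (β y) i l) (t • x)) +
        (if i = k then 1 else 0) * ent (β (t • x)) i l := by
    intro i
    rw [pd_mul (hc i x) (hd2 i x), pd_scale (hd i)]
    congr 2
    unfold pd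
    have : fderiv ℝ (fun y : V4 => y i) x = ContinuousLinearMap.proj i :=
      (ContinuousLinearMap.proj (R := ℝ) (φ := fun _ : Fin 4 => ℝ) i).fderiv
    rw [this]
    simp [Pi.single_apply]
  have h2 : pd k (poi β l t) x = t * ∑ i, pd k (fun y : V4 => y i * ent (β (t • y)) i l) x := by
    show pd k (fun y : V4 => t * ∑ i, y i * ent (β (t • y)) i l) x = _
    rw [pd_const_mul, pd_sum]
    · intro i _
      exact (hc i x).mul (hd2 i x)
    · exact DifferentiableAt.fun_sum fun i _ => (hc i x).mul (hd2 i x)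
  rw [h2]
  simp only [h1, Finset.sum_add_distrib, ite_mul, one_mul, zero_mul, Finset.sum_ite_eq',
    Finset.mem_univ, if_true]
  rw [mul_add, add_comm, Finset.mul_sum, Finset.mul_sum, add_right_inj]
  refine Finset.sum_congr rfl fun i _ => ?_
  ring

theorem cont_pd_poi {β : V4 → L2} (hβ : ContDiff ℝ ∞ β) (k l : Fin 4) (x : V4) :
    Continuous fun t => pd k (poi β l t) x := by
  have h := (contDiff_fderiv_snd (contDiff_poi1 hβ l)).continuous
  have h2 : Continuous fun t : ℝ => fderiv ℝ (poi β l t) x :=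
    h.comp (continuous_id.prodMk continuous_const)
  exact h2.clm_apply continuous_const

theorem pd_Po {β : V4 → L2} (hβ : ContDiff ℝ ∞ β) (k l : Fin 4) (x : V4) :
    pd k (fun y => Po β y l) x = ∫ t in (0 : ℝ)..1, pd k (poi β l t) x := by
  rw [intervalIntegral.integral_of_le zero_le_one]
  have h0 : (fun y => Po β y l) = fun y => ∫ t in Ioc (0 : ℝ) 1, poi β l t y := by
    funext y
    exact Po_apply β y l
  have h1 := hasFDerivAt_integral_param (S := ℝ) (F := V4) (volume.restrict (Ioc (0 : ℝ) 1))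
    (isCompact_Icc (a := (0 : ℝ)) (b := 1)) po_null (contDiff_poi1 hβ l) x
  have hcont : Continuous fun t : ℝ => fderiv ℝ (poi β l t) x :=
    (contDiff_fderiv_snd (contDiff_poi1 hβ l)).continuous.comp
      (continuous_id.prodMk continuous_const)
  have hint : Integrable (fun t : ℝ => fderiv ℝ (poi β l t) x) (volume.restrict (Ioc (0 : ℝ) 1)) :=
    (hcont.integrableOn_Icc (a := (0 : ℝ)) (b := 1)).mono_set Ioc_subset_Icc_self
  show fderiv ℝ (fun y => Po β y l) x (Pi.single k 1) = _
  rw [h0, h1.fderiv, ContinuousLinearMap.integral_apply hint]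
  rfl

/-- The Poincare lemma. -/
theorem d1_Po {β : V4 → L2} (hβ : ContDiff ℝ ∞ β) (hc : Closed β) : d1 (Po β) = β := by
  funext x
  rw [← ofEnt_ent (d1 (Po β) x), ← ofEnt_ent (β x)]
  apply ofEnt_congr
  intro k l
  rw [ent_d1, pd_Po hβ, pd_Po hβ, ← intervalIntegral.integral_sub
    ((cont_pd_poi hβ k l x).intervalIntegrable _ _) ((cont_pd_poi hβ l k x).intervalIntegrable _ _)]
  have hg : ContDiff ℝ ∞ (fun y => ent (β y) k l) := (contDiff_ent k l).comp hβ
  have hgd : Differentiable ℝ (fun y => ent (β y) k l) := hg.differentiable (by simp)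
  have hder : ∀ t : ℝ, HasDerivAt (fun t : ℝ => t ^ 2 * ent (β (t • x)) k l)
      (pd k (poi β l t) x - pd l (poi β k t) x) t := by
    intro t
    have e1 : HasDerivAt (fun t : ℝ => t • x) ((1 : ℝ) • x) t := (hasDerivAt_id t).smul_const x
    have e2 : HasDerivAt (fun t : ℝ => ent (β (t • x)) k l)
        (fderiv ℝ (fun y => ent (β y) k l) (t • x) ((1 : ℝ) • x)) t :=
      HasFDerivAt.comp_hasDerivAt (l := fun y => ent (β y) k l) t (hgd (t • x)).hasFDerivAt e1
    have e3 : HasDerivAt (fun t : ℝ => t ^ 2) (2 * t) t := by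
      simpa using hasDerivAt_pow 2 t
    refine (e3.mul e2).congr_deriv ?_
    rw [one_smul, fderiv_eq_sum_pd, pd_poi hβ, pd_poi hβ]
    have e4 : ∀ i, pd k (fun y => ent (β y) i l) (t • x) - pd l (fun y => ent (β y) i k) (t • x) =
        pd i (fun y => ent (β y) k l) (t • x) := by
      intro i
      have c1 := hc (t • x) i k l
      have c2 : pd k (fun y => ent (β y) l i) (t • x) = -pd k (fun y => ent (β y) i l) (t • x) := by
        have : (fun y => ent (β y) l i) = fun y => (-1 : ℝ) * ent (β y) i l := by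
          funext y
          rw [ent_swap]; ring
        have hdi : Differentiable ℝ (fun y => ent (β y) i l) :=
          ((contDiff_ent i l).comp hβ).differentiable (by simp)
        rw [this, pd_const_mul (f := fun y => ent (β y) i l) (hdi _)]
        ring
      rw [c2] at c1
      linarith only [c1]
    have e5 : ∑ i, x i * pd k (fun y => ent (β y) i l) (t • x) -
        ∑ i, x i * pd l (fun y => ent (β y) i k) (t • x) =
        ∑ i, x i * pd i (fun y => ent (β y) k l) (t • x) := by
      rw [← Finset.sum_sub_distrib]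
      refine Finset.sum_congr rfl fun i _ => ?_
      rw [← mul_sub, e4]
    have e6 : ent (β (t • x)) l k = -ent (β (t • x)) k l := ent_swap _ _ _
    rw [← e5, e6]
    ring
  rw [intervalIntegral.integral_eq_sub_of_hasDerivAt (fun t _ => hder t)
    (((cont_pd_poi hβ k l x).sub (cont_pd_poi hβ l k x)).intervalIntegrable _ _)]
  simp

end Vale.Agent.P204.GX
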