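import Vale.Agent.P204.Bdl.B1
import Vale.Agent.P204.Bdl.B2

set_option linter.all false

/-! P204 class version, X3a: a primitive for closed forms on `V4` and the primitive `kap` of
`(hz v)^* β - β`, with compact support. -/

open MeasureTheory Set Filter Topology
open scoped ContDiff

namespace Vale.Agent.P204.GX
open Vale.Agent.P204.T4

/-- the measure on `[0, 1]` -/
noncomputable def nu01 : Measure ℝ := volume.restrict (Ioc (0 : ℝ) 1)

instance : IsFiniteMeasure nu01 := by
  unfold nu01; infer_instance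

theorem nu01_compl : nu01 (Icc (0 : ℝ) 1)ᶜ = 0 := by
  unfold nu01
  rw [Measure.restrict_apply measurableSet_Icc.compl]
  have : (Icc (0 : ℝ) 1)ᶜ ∩ Ioc 0 1 = ∅ := by
    ext x
    simp only [mem_inter_iff, mem_compl_iff, mem_Icc, mem_Ioc, mem_empty_iff_false, iff_false]
    intro h
    exact h.1 ⟨h.2.1.le, h.2.2⟩
  rw [this, measure_empty]

/-- Poincare's primitive of a two-form -/
noncomputable def Po (β : V4 → L2) (y : V4) : V4 := fun j =>
  ∫ t in (0 : ℝ)..1, t * ∑ i, y i * ent (β (t • y)) i j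

/-- the integrand -/
noncomputable def poI (β : V4 → L2) (j : Fin 4) (t : ℝ) (y : V4) : ℝ :=
  t * ∑ i, y i * ent (β (t • y)) i j

theorem Po_eq (β : V4 → L2) (y : V4) (j : Fin 4) : Po β y j = ∫ t, poI β j t y ∂nu01 := by
  unfold Po poI nu01
  rw [intervalIntegral.integral_of_le zero_le_one]

section smooth
variable {Z : Type} [NormedAddCommGroup Z] [NormedSpace ℝ Z] [FiniteDimensional ℝ Z]

theorem contDiff_poI {β : Z → V4 → L2} (hβ : ContDiff ℝ ∞ (Function.uncurry β)) (j : Fin 4) :
    ContDiff ℝ ∞ (Function.uncurry fun (t : ℝ) (p : Z × V4) => poI (β p.1) j t p.2) := by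
  have h0 : ContDiff ℝ ∞ fun q : ℝ × (Z × V4) => (q.2.1, q.1 • q.2.2) :=
    (contDiff_fst.comp contDiff_snd).prodMk (contDiff_fst.smul (contDiff_snd.comp contDiff_snd))
  have h1 : ContDiff ℝ ∞ fun q : ℝ × (Z × V4) => β q.2.1 (q.1 • q.2.2) :=
    ContDiff.comp (g := Function.uncurry β) (f := fun q : ℝ × (Z × V4) => (q.2.1, q.1 • q.2.2))
      hβ h0
  have h2 : ∀ i, ContDiff ℝ ∞ fun q : ℝ × (Z × V4) => q.2.2 i := fun i =>
    (contDiff_apply ℝ ℝ i).comp (contDiff_snd.comp contDiff_snd)
  show ContDiff ℝ ∞ fun q : ℝ × (Z × V4) =>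
    q.1 * ∑ i, q.2.2 i * ent (β q.2.1 (q.1 • q.2.2)) i j
  exact contDiff_fst.mul (ContDiff.sum fun i _ => (h2 i).mul ((contDiff_ent i j).comp h1))

theorem contDiff_Po {β : Z → V4 → L2} (hβ : ContDiff ℝ ∞ (Function.uncurry β)) :
    ContDiff ℝ ∞ (Function.uncurry fun z => Po (β z)) := by
  rw [contDiff_pi]
  intro j
  have h := contDiff_integral_param nu01 (isCompact_Icc (a := (0 : ℝ)) (b := 1)) nu01_compl
    (contDiff_poI hβ j)
  show ContDiff ℝ ∞ fun p : Z × V4 => Po (β p.1) p.2 j
  simp only [Po_eq]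
  exact h

end smooth

theorem contDiff_Po1 {β : V4 → L2} (hβ : ContDiff ℝ ∞ β) : ContDiff ℝ ∞ (Po β) := by
  have h := contDiff_Po (Z := ℝ) (β := fun _ => β) (hβ.comp contDiff_snd)
  exact h.comp (contDiff_const (c := (0 : ℝ)).prodMk contDiff_id)

theorem pd_scale {f : V4 → ℝ} (hf : Differentiable ℝ f) (t : ℝ) (x : V4) (i : Fin 4) :
    pd i (fun y => f (t • y)) x = t * pd i f (t • x) := by
  have h1 : HasFDerivAt (fun y : V4 => t • y) (t • ContinuousLinearMap.id ℝ V4) x :=
    (hasFDerivAt_id x).const_smul t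
  have h2 : HasFDerivAt (fun y => f (t • y)) ((fderiv ℝ f (t • x)).comp
      (t • ContinuousLinearMap.id ℝ V4)) x := (hf (t • x)).hasFDerivAt.comp x h1
  unfold pd
  rw [h2.fderiv]
  simp

theorem pd_coord' (i k : Fin 4) (x : V4) : pd i (fun y : V4 => y k) x = if k = i then 1 else 0 := by
  unfold pd
  have h : HasFDerivAt (fun y : V4 => y k) (ContinuousLinearMap.proj k : V4 →L[ℝ] ℝ) x :=
    (ContinuousLinearMap.proj k : V4 →L[ℝ] ℝ).hasFDerivAt
  rw [h.fderiv]
  simp [Pi.single_apply]

theorem line_scale {f : V4 → ℝ} (hf : Differentiable ℝ f) (t : ℝ) (x : V4) :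
    HasDerivAt (fun s : ℝ => f (s • x)) (∑ k, x k * pd k f (t • x)) t := by
  have h1 : HasDerivAt (fun s : ℝ => s • x) x t := by
    simpa using (hasDerivAt_id t).smul_const x
  have h2 := (hf (t • x)).hasFDerivAt.comp_hasDerivAt t h1
  have h3 : fderiv ℝ f (t • x) x = ∑ k, x k * pd k f (t • x) := by
    have hx : x = ∑ k, (Pi.single k (x k) : V4) := (Finset.univ_sum_single x).symm
    unfold pd
    refine (congrArg (fderiv ℝ f (t • x)) hx).trans ?_
    rw [map_sum]
    refine Finset.sum_congr rfl fun k _ => ?_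
    have : (Pi.single k (x k) : V4) = x k • Pi.single k (1 : ℝ) := by
      rw [← Pi.single_smul]; simp
    rw [this, map_smul, smul_eq_mul]
  rw [← h3]
  exact h2

theorem pd_poI {β : V4 → L2} (hβ : ContDiff ℝ ∞ β) (i j : Fin 4) (t : ℝ) (x : V4) :
    pd i (poI β j t) x = t * ent (β (t • x)) i j +
      t ^ 2 * ∑ k, x k * pd i (fun y => ent (β y) k j) (t • x) := by
  have hb : ∀ k, Differentiable ℝ fun y => ent (β y) k j := fun k =>
    ((contDiff_ent k j).comp hβ).differentiable (by simp)
  have hs : Differentiable ℝ fun y : V4 => t • y := differentiable_id.const_smul t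
  have hbt : ∀ k, DifferentiableAt ℝ (fun y => ent (β (t • y)) k j) x := fun k =>
    (hb k).comp hs x
  have hc : ∀ k : Fin 4, DifferentiableAt ℝ (fun y : V4 => y k) x := fun k => by fun_prop
  have e : poI β j t = fun y => t * ∑ k, y k * ent (β (t • y)) k j := rfl
  rw [e, pd_const_mul (DifferentiableAt.fun_sum fun k _ => (hc k).fun_mul (hbt k)),
    pd_sum (fun k _ => (hc k).fun_mul (hbt k))]
  have h1 : ∀ k, pd i (fun y => y k * ent (β (t • y)) k j) x =
      x k * (t * pd i (fun y => ent (β y) k j) (t • x)) +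
        (if k = i then 1 else 0) * ent (β (t • x)) k j := by
    intro k
    rw [pd_mul (hc k) (hbt k), pd_coord', pd_scale (hb k)]
  simp only [h1, Finset.sum_add_distrib, ite_mul, one_mul, zero_mul, Finset.sum_ite_eq',
    Finset.mem_univ, if_true]
  rw [mul_add, add_comm, Finset.mul_sum, Finset.mul_sum]
  congr 1
  refine Finset.sum_congr rfl fun k _ => ?_
  ring

theorem pd_Po {β : V4 → L2} (hβ : ContDiff ℝ ∞ β) (i j : Fin 4) (x : V4) :
    pd i (fun y => Po β y j) x = ∫ t, pd i (poI β j t) x ∂nu01 := by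
  have h0 : ContDiff ℝ ∞ (Function.uncurry fun (t : ℝ) (y : V4) => poI β j t y) := by
    have h := contDiff_poI (Z := ℝ) (β := fun _ => β) (hβ.comp contDiff_snd) j
    exact h.comp (contDiff_fst.prodMk ((contDiff_const (c := (0 : ℝ))).prodMk contDiff_snd))
  have h1 := hasFDerivAt_integral_param nu01 (isCompact_Icc (a := (0 : ℝ)) (b := 1)) nu01_compl
    h0 x
  have e : (fun y => Po β y j) = fun y => ∫ t, poI β j t y ∂nu01 := by
    funext y; exact Po_eq _ _ _
  unfold pd
  rw [e, h1.fderiv]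
  refine ContinuousLinearMap.integral_apply ?_ _
  have hc : Continuous fun t => fderiv ℝ (fun y => poI β j t y) x :=
    (contDiff_fderiv_snd h0).continuous.comp (continuous_id.prodMk continuous_const)
  obtain ⟨C, hC⟩ := (isCompact_Icc (a := (0 : ℝ)) (b := 1)).exists_bound_of_continuousOn
    hc.continuousOn
  refine Integrable.of_bound hc.aestronglyMeasurable C ?_
  have hae : ∀ᵐ s ∂nu01, s ∈ Icc (0 : ℝ) 1 := by
    rw [ae_iff]; exact nu01_compl
  filter_upwards [hae] with s hs using hC s hs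

theorem d1_Po {β : V4 → L2} (hβ : ContDiff ℝ ∞ β) (hc : Closed β) : d1 (Po β) = β := by
  funext x
  rw [← ofEnt_ent (d1 (Po β) x), ← ofEnt_ent (β x)]
  apply ofEnt_congr
  intro i j
  rw [ent_d1, pd_Po hβ, pd_Po hβ]
  have hb : ∀ k l, Differentiable ℝ fun y => ent (β y) k l := fun k l =>
    ((contDiff_ent k l).comp hβ).differentiable (by simp)
  have hcont : ∀ i j, Continuous fun t : ℝ => pd i (poI β j t) x := by
    intro i j
    simp only [pd_poI hβ]
    have h1 : ∀ k l, Continuous fun t : ℝ => ent (β (t • x)) k l := fun k l =>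
      ((contDiff_ent k l).comp hβ).continuous.comp (continuous_id.smul continuous_const)
    have h2 : ∀ k, Continuous fun t : ℝ => pd i (fun y => ent (β y) k j) (t • x) := by
      intro k
      have h3 : ContDiff ℝ ∞ fun y => ent (β y) k j := (contDiff_ent k j).comp hβ
      have h4 : Continuous fun y => pd i (fun y => ent (β y) k j) y := by
        have h5 : Continuous (fderiv ℝ fun y => ent (β y) k j) :=
          h3.continuous_fderiv (by simp)
        exact h5.clm_apply continuous_const
      exact h4.comp (continuous_id.smul continuous_const)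
    have h1' := h1 i j
    exact (continuous_id.mul h1').add ((continuous_id.pow 2).mul
      (continuous_finset_sum _ fun k _ => continuous_const.mul (h2 k)))
  have hint : ∀ i j, Integrable (fun t : ℝ => pd i (poI β j t) x) nu01 := by
    intro i j
    obtain ⟨C, hC⟩ := (isCompact_Icc (a := (0 : ℝ)) (b := 1)).exists_bound_of_continuousOn
      (hcont i j).continuousOn
    refine Integrable.of_bound (hcont i j).aestronglyMeasurable C ?_
    have hae : ∀ᵐ s ∂nu01, s ∈ Icc (0 : ℝ) 1 := by
      rw [ae_iff]; exact nu01_compl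
    filter_upwards [hae] with s hs using hC s hs
  rw [← integral_sub (hint i j) (hint j i)]
  have key : ∀ t : ℝ, HasDerivAt (fun s : ℝ => s ^ 2 * ent (β (s • x)) i j)
      (pd i (poI β j t) x - pd j (poI β i t) x) t := by
    intro t
    have h1 : HasDerivAt (fun s : ℝ => s ^ 2 * ent (β (s • x)) i j)
        (2 * t * ent (β (t • x)) i j + t ^ 2 * ∑ k, x k * pd k (fun y => ent (β y) i j) (t • x))
        t := by
      have h := (hasDerivAt_pow 2 t).fun_mul (line_scale (hb i j) t x)
      simpa using h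
    refine h1.congr_deriv ?_
    rw [pd_poI hβ, pd_poI hβ, ent_swap (β (t • x)) j i]
    have h2 : ∀ k, x k * pd k (fun y => ent (β y) i j) (t • x) =
        x k * pd i (fun y => ent (β y) k j) (t • x) -
        x k * pd j (fun y => ent (β y) k i) (t • x) := by
      intro k
      have h3 := hc (t • x) i j k
      have h4 : pd i (fun y => ent (β y) k j) (t • x) =
          - pd i (fun y => ent (β y) j k) (t • x) := by
        have e : (fun y => ent (β y) k j) = fun y => (-1 : ℝ) * ent (β y) j k := by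
          funext y; rw [ent_swap]; ring
        rw [e, pd_const_mul (hb j k _)]
        ring
      rw [h4]
      linear_combination x k * h3
    simp only [h2, Finset.sum_sub_distrib]
    ring
  have h5 := intervalIntegral.integral_eq_sub_of_hasDerivAt (a := 0) (b := 1)
    (fun t _ => key t) (((hcont i j).sub (hcont j i)).intervalIntegrable 0 1)
  rw [intervalIntegral.integral_of_le zero_le_one] at h5
  have h6 : ∫ t, (pd i (poI β j t) x - pd j (poI β i t) x) ∂nu01 = _ := h5
  rw [h6]
  simp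

/-- a primitive of `(hz v)^* β - β` -/
noncomputable def kap (v : V4) (β : V4 → L2) : V4 → V4 := pf1 (hz v) (Po β) - Po β

theorem d1_kap {β : V4 → L2} (hβ : ContDiff ℝ ∞ β) (hc : Closed β) (v : V4) :
    d1 (kap v β) = pf (hz v) β - β := by
  have h0 := contDiff_Po1 hβ
  have h1 : ContDiff ℝ ∞ (pf1 (hz v) (Po β)) := contDiff_pf1 (contDiff_hz v) h0
  have e : kap v β = pf1 (hz v) (Po β) + (-1 : ℝ) • Po β := by
    unfold kap; rw [neg_one_smul, sub_eq_add_neg]
  have h2 : Differentiable ℝ ((-1 : ℝ) • Po β) := (h0.differentiable (by simp)).const_smul (-1 : ℝ)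
  funext x
  rw [e, d1_add (h1.differentiable (by simp)) h2,
    d1_smul _ (h0.differentiable (by simp)), CM.d1_pf1 (contDiff_hz v) h0, d1_Po hβ hc]
  rw [neg_one_smul, ← sub_eq_add_neg]
  rfl

theorem kap_zero {v : V4} {β : V4 → L2} {y : V4} (hy : 5 < ‖y‖) : kap v β y = 0 := by
  unfold kap pf1
  rw [Pi.sub_apply, Dm_id_far (fun z hz' => hz_of_ge hz' v) hy, hz_of_ge hy.le, copp_one, sub_self]

section smooth2
variable {Z : Type} [NormedAddCommGroup Z] [NormedSpace ℝ Z] [FiniteDimensional ℝ Z]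

theorem contDiff_kap {v : Z → V4} {β : Z → V4 → L2} (hv : ContDiff ℝ ∞ v)
    (hβ : ContDiff ℝ ∞ (Function.uncurry β)) :
    ContDiff ℝ ∞ (Function.uncurry fun z => kap (v z) (β z)) := by
  have h0 := contDiff_Po hβ
  have hz2 : ContDiff ℝ ∞ fun p : Z × V4 => hz (v p.1) p.2 :=
    contDiff_hz2.comp ((hv.comp contDiff_fst).prodMk contDiff_snd)
  have h1 : ContDiff ℝ ∞ fun p : Z × V4 => Po (β p.1) (hz (v p.1) p.2) :=
    ContDiff.comp (g := Function.uncurry fun z => Po (β z))
      (f := fun p : Z × V4 => (p.1, hz (v p.1) p.2)) h0 (contDiff_fst.prodMk hz2)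
  have h2 : ContDiff ℝ ∞ fun p : Z × V4 => Dm (hz (v p.1)) p.2 := by
    rw [contDiff_pi]; intro i
    rw [contDiff_pi]; intro j
    have h3 : ContDiff ℝ ∞ (Function.uncurry fun (z : Z) (y : V4) => hz (v z) y i) :=
      (contDiff_apply ℝ ℝ i).comp hz2
    have h4 := contDiff_fderiv_snd h3
    exact h4.clm_apply contDiff_const
  have h5 : ContDiff ℝ ∞ fun p : Z × V4 =>
      copp (Po (β p.1) (hz (v p.1) p.2)) (Dm (hz (v p.1)) p.2) :=
    ContDiff.comp (g := fun q : V4 × M4 => copp q.1 q.2)
      (f := fun p : Z × V4 => (Po (β p.1) (hz (v p.1) p.2), Dm (hz (v p.1)) p.2))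
      contDiff_copp (h1.prodMk h2)
  exact h5.sub h0

end smooth2

end Vale.Agent.P204.GX
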