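import Vale.Agent.P204.Bdl.B3

/-!
# P204: the Poincaré operator on two-forms on `ℝ⁴`, with parameters
-/

set_option linter.all false

open scoped BigOperators ContDiff Topology
open MeasureTheory Set

namespace Vale.Agent.P204.GX
open T4

namespace X3p

/-- contraction of a two-form with a vector -/
def ic (A : L2) (v : V4) : V4 := fun j => ∑ k, ent A k j * v k

theorem contDiff_ic : ContDiff ℝ ∞ (fun p : L2 × V4 => ic p.1 p.2) := by
  rw [contDiff_pi]; intro j
  show ContDiff ℝ ∞ (fun p : L2 × V4 => ∑ k, ent p.1 k j * p.2 k)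
  exact ContDiff.sum fun k _ => ((contDiff_ent k j).comp contDiff_fst).mul
    ((contDiff_apply ℝ ℝ k).comp contDiff_snd)

/-- the integrand -/
noncomputable def F (γ : V4 → L2) (t : ℝ) (y : V4) : V4 := t • ic (γ (t • y)) y

/-- the Poincaré operator -/
noncomputable def PO (γ : V4 → L2) (y : V4) : V4 := ∫ t in Icc (0 : ℝ) 1, F γ t y

theorem null01 : (volume.restrict (Icc (0 : ℝ) 1)) (Icc (0 : ℝ) 1)ᶜ = 0 := by
  rw [Measure.restrict_apply measurableSet_Icc.compl]
  simp

section param
variable {P : Type} [NormedAddCommGroup P] [NormedSpace ℝ P]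

theorem contDiff_F {Γ : P × V4 → L2} (hΓ : ContDiff ℝ ∞ Γ) :
    ContDiff ℝ ∞ (fun q : ℝ × (P × V4) => F (fun y => Γ (q.2.1, y)) q.1 q.2.2) := by
  unfold F
  have h1 : ContDiff ℝ ∞ fun q : ℝ × (P × V4) => Γ (q.2.1, q.1 • q.2.2) :=
    hΓ.comp ((contDiff_fst.comp contDiff_snd).prodMk
      (contDiff_fst.smul (contDiff_snd.comp contDiff_snd)))
  exact contDiff_fst.smul (contDiff_ic.comp (h1.prodMk (contDiff_snd.comp contDiff_snd)))

theorem contDiff_PO [FiniteDimensional ℝ P] {Γ : P × V4 → L2} (hΓ : ContDiff ℝ ∞ Γ) :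
    ContDiff ℝ ∞ (fun q : P × V4 => PO (fun y => Γ (q.1, y)) q.2) :=
  contDiff_integral_param (volume.restrict (Icc (0 : ℝ) 1)) isCompact_Icc null01
    (f := fun t (q : P × V4) => F (fun y => Γ (q.1, y)) t q.2) (contDiff_F hΓ)

end param

theorem contDiff_F' {γ : V4 → L2} (hγ : ContDiff ℝ ∞ γ) :
    ContDiff ℝ ∞ (Function.uncurry (F γ)) := by
  show ContDiff ℝ ∞ fun q : ℝ × V4 => F γ q.1 q.2
  unfold F
  exact contDiff_fst.smul (contDiff_ic.comp ((hγ.comp (contDiff_fst.smul contDiff_snd)).prodMk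
    contDiff_snd))

theorem contDiff_PO' {γ : V4 → L2} (hγ : ContDiff ℝ ∞ γ) : ContDiff ℝ ∞ (PO γ) :=
  contDiff_integral_param (volume.restrict (Icc (0 : ℝ) 1)) isCompact_Icc null01
    (f := F γ) (contDiff_F' hγ)

theorem fderiv_sum_pd {c : V4 → ℝ} (hc : ContDiff ℝ ∞ c) (x v : V4) :
    fderiv ℝ c x v = ∑ k, v k * pd k c x := by
  have h : v = ∑ k, v k • (Pi.single k (1 : ℝ) : V4) := by
    funext i
    simp only [Finset.sum_apply, Pi.smul_apply, Pi.single_apply, smul_eq_mul, mul_ite, mul_one,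
      mul_zero, Finset.sum_ite_eq, Finset.mem_univ, if_true]
  conv_lhs => rw [h]
  rw [map_sum]
  exact Finset.sum_congr rfl fun k _ => by rw [map_smul, smul_eq_mul]; rfl

/-- partial derivatives of the integrand -/
theorem pd_F {γ : V4 → L2} (hγ : ContDiff ℝ ∞ γ) (t : ℝ) (y : V4) (i j : Fin 4) :
    pd i (fun y => F γ t y j) y =
      t * (∑ k, t * pd i (fun y => ent (γ y) k j) (t • y) * y k + ent (γ (t • y)) i j) := by
  have hc : ∀ k, ContDiff ℝ ∞ fun y => ent (γ y) k j := fun k => (contDiff_ent k j).comp hγ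
  have hs : HasFDerivAt (fun y : V4 => t • y) (t • ContinuousLinearMap.id ℝ V4) y :=
    (hasFDerivAt_id y).const_smul t
  have h1 : ∀ k : Fin 4, HasFDerivAt (fun y : V4 => ent (γ (t • y)) k j * y k)
      (ent (γ (t • y)) k j • (ContinuousLinearMap.proj (R := ℝ) (φ := fun _ : Fin 4 => ℝ) k) +
        y k • ((fderiv ℝ (fun y => ent (γ y) k j) (t • y)).comp
          (t • ContinuousLinearMap.id ℝ V4))) y := by
    intro k
    have a1 : HasFDerivAt (fun y : V4 => ent (γ (t • y)) k j)
        ((fderiv ℝ (fun y => ent (γ y) k j) (t • y)).comp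
          (t • ContinuousLinearMap.id ℝ V4)) y :=
      (((hc k).differentiable (by simp) (t • y)).hasFDerivAt).comp y hs
    have a2 : HasFDerivAt (fun y : V4 => y k)
        (ContinuousLinearMap.proj (R := ℝ) (φ := fun _ : Fin 4 => ℝ) k) y :=
      (ContinuousLinearMap.proj (R := ℝ) (φ := fun _ : Fin 4 => ℝ) k).hasFDerivAt
    exact a1.mul a2
  have h2 : HasFDerivAt (fun y : V4 => F γ t y j)
      (t • ∑ k, (ent (γ (t • y)) k j • (ContinuousLinearMap.proj (R := ℝ)
        (φ := fun _ : Fin 4 => ℝ) k) +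
        y k • ((fderiv ℝ (fun y => ent (γ y) k j) (t • y)).comp
          (t • ContinuousLinearMap.id ℝ V4)))) y := by
    show HasFDerivAt (fun y : V4 => t * ∑ k, ent (γ (t • y)) k j * y k) _ y
    exact (HasFDerivAt.fun_sum fun k _ => h1 k).const_mul t
  unfold pd
  rw [h2.fderiv]
  simp only [ContinuousLinearMap.smul_apply, ContinuousLinearMap.sum_apply,
    ContinuousLinearMap.add_apply, ContinuousLinearMap.proj_apply, ContinuousLinearMap.comp_apply,
    ContinuousLinearMap.id_apply, smul_eq_mul, map_smul, Finset.sum_add_distrib]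
  rw [add_comm]
  congr 1
  congr 1
  · exact Finset.sum_congr rfl fun k _ => by ring
  · simp [Pi.single_apply]

/-- the derivative of `t² γ(ty)` -/
theorem hasDerivAt_g {γ : V4 → L2} (hγ : ContDiff ℝ ∞ γ) (y : V4) (i j : Fin 4) (t : ℝ) :
    HasDerivAt (fun t => t ^ 2 * ent (γ (t • y)) i j)
      (2 * t * ent (γ (t • y)) i j +
        t ^ 2 * ∑ k, y k * pd k (fun y => ent (γ y) i j) (t • y)) t := by
  have hc : ContDiff ℝ ∞ fun y => ent (γ y) i j := (contDiff_ent i j).comp hγ
  have h1 : HasDerivAt (fun t : ℝ => t • y) y t := by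
    simpa using (hasDerivAt_id t).smul_const y
  have h0 : HasFDerivAt (fun y => ent (γ y) i j) (fderiv ℝ (fun y => ent (γ y) i j) (t • y))
      (t • y) := (hc.differentiable (by simp) (t • y)).hasFDerivAt
  have h2 : HasDerivAt (fun t : ℝ => ent (γ (t • y)) i j)
      (fderiv ℝ (fun y => ent (γ y) i j) (t • y) y) t :=
    HasFDerivAt.comp_hasDerivAt (f := fun t : ℝ => t • y) (l := fun y => ent (γ y) i j) t h0 h1
  rw [fderiv_sum_pd hc] at h2
  have h3 : HasDerivAt (fun t : ℝ => t ^ 2) (2 * t) t := by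
    simpa using hasDerivAt_pow 2 t
  exact h3.mul h2

theorem d1_PO {γ : V4 → L2} (hγ : ContDiff ℝ ∞ γ) (hcl : Closed γ) (y : V4) :
    d1 (PO γ) y = γ y := by
  have hF := contDiff_F' hγ
  have hc : ∀ i j, ContDiff ℝ ∞ fun y => ent (γ y) i j := fun i j => (contDiff_ent i j).comp hγ
  rw [← ofEnt_ent (d1 (PO γ) y), ← ofEnt_ent (γ y)]
  apply ofEnt_congr
  intro i j
  have hint : ∀ {E : Type} [NormedAddCommGroup E] [NormedSpace ℝ E] {g : ℝ → E},
      Continuous g → Integrable g (volume.restrict (Icc (0 : ℝ) 1)) := by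
    intro E _ _ g hg
    exact hg.continuousOn.integrableOn_compact isCompact_Icc
  have hcomp : ∀ j : Fin 4, ContDiff ℝ ∞ (Function.uncurry fun t y => F γ t y j) := fun j =>
    (contDiff_pi.1 hF) j
  have hcont : ∀ i j, Continuous fun t => pd i (fun y => F γ t y j) y := by
    intro i j
    have h4 : Continuous fun t => fderiv ℝ (fun y => F γ t y j) y :=
      (contDiff_fderiv_snd (hcomp j)).continuous.comp (continuous_id.prodMk continuous_const)
    exact h4.clm_apply continuous_const
  have hpd : ∀ i j : Fin 4, pd i (fun y => PO γ y j) y =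
      ∫ t in Icc (0 : ℝ) 1, pd i (fun y => F γ t y j) y := by
    intro i j
    have h1 : (fun y => PO γ y j) = fun y => ∫ t in Icc (0 : ℝ) 1, F γ t y j := by
      funext w
      have h2 := (ContinuousLinearMap.proj (R := ℝ) (φ := fun _ : Fin 4 => ℝ) j).integral_comp_comm
        (hint (g := fun t => F γ t w)
          (hF.continuous.comp (continuous_id.prodMk continuous_const)))
      exact h2.symm
    have h3 := hasFDerivAt_integral_param (volume.restrict (Icc (0 : ℝ) 1)) isCompact_Icc
      null01 (f := fun t y => F γ t y j) (hcomp j) y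
    unfold pd
    rw [h1, h3.fderiv]
    have h4 : Continuous fun t => fderiv ℝ (fun y => F γ t y j) y :=
      (contDiff_fderiv_snd (hcomp j)).continuous.comp (continuous_id.prodMk continuous_const)
    exact (ContinuousLinearMap.integral_apply (hint h4) _)
  rw [ent_d1, hpd, hpd, ← integral_sub (hint (hcont i j)) (hint (hcont j i))]
  have hkey : ∀ t : ℝ, pd i (fun y => F γ t y j) y - pd j (fun y => F γ t y i) y =
      2 * t * ent (γ (t • y)) i j +
        t ^ 2 * ∑ k, y k * pd k (fun y => ent (γ y) i j) (t • y) := by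
    intro t
    rw [pd_F hγ, pd_F hγ, ent_swap (γ (t • y)) j i]
    have h5 : ∀ k, y k * pd k (fun y => ent (γ y) i j) (t • y) =
        pd i (fun y => ent (γ y) k j) (t • y) * y k -
          pd j (fun y => ent (γ y) k i) (t • y) * y k := by
      intro k
      have h6 := hcl (t • y) i j k
      have h7 : pd i (fun y => ent (γ y) j k) (t • y) =
          - pd i (fun y => ent (γ y) k j) (t • y) := by
        have : (fun y => ent (γ y) j k) = fun y => -1 * ent (γ y) k j := by
          funext z; rw [ent_swap]; ring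
        rw [this, pd_const_mul ((hc k j).differentiable (by simp) _)]
        ring
      rw [h7] at h6
      linear_combination (y k) * h6
    rw [Finset.sum_congr rfl fun k _ => h5 k, Finset.sum_sub_distrib]
    have h8 : ∀ i j, ∑ k, t * pd i (fun y => ent (γ y) k j) (t • y) * y k =
        t * ∑ k, pd i (fun y => ent (γ y) k j) (t • y) * y k := by
      intro i j
      rw [Finset.mul_sum]
      exact Finset.sum_congr rfl fun k _ => by ring
    rw [h8, h8]
    ring
  simp only [hkey]
  rw [integral_Icc_eq_integral_Ioc, ← intervalIntegral.integral_of_le zero_le_one]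
  have hcg : Continuous fun t : ℝ => 2 * t * ent (γ (t • y)) i j +
        t ^ 2 * ∑ k, y k * pd k (fun y => ent (γ y) i j) (t • y) := by
    have : (fun t : ℝ => 2 * t * ent (γ (t • y)) i j +
        t ^ 2 * ∑ k, y k * pd k (fun y => ent (γ y) i j) (t • y)) =
        fun t => pd i (fun y => F γ t y j) y - pd j (fun y => F γ t y i) y := by
      funext t; exact (hkey t).symm
    rw [this]
    exact (hcont i j).sub (hcont j i)
  rw [intervalIntegral.integral_eq_sub_of_hasDerivAt (fun t _ => hasDerivAt_g hγ y i j t)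
    (hcg.intervalIntegrable _ _)]
  simp

end X3p

/-! ### the homotopy for the chart translations -/

open X3p in
/-- a primitive of `pf (hz v) β - β` -/
noncomputable def kap (v : V4) (β : V4 → L2) : V4 → V4 := pf1 (hz v) (PO β) - PO β

theorem kap_zero {v : V4} {β : V4 → L2} {y : V4} (hy : 5 < ‖y‖) : kap v β y = 0 := by
  show pf1 (hz v) (X3p.PO β) y - X3p.PO β y = 0
  unfold pf1
  rw [Dm_id_far (fun y hy => hz_of_ge hy v) hy, hz_of_ge hy.le v, copp_one, sub_self]

theorem d1_kap {β : V4 → L2} (hβ : ContDiff ℝ ∞ β) (hc : Closed β) (v : V4) :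
    d1 (kap v β) = pf (hz v) β - β := by
  have hP := X3p.contDiff_PO' hβ
  have h1 : kap v β = pf1 (hz v) (X3p.PO β) + (-1 : ℝ) • X3p.PO β := by
    unfold kap
    rw [neg_one_smul, sub_eq_add_neg]
  have h2 : d1 (X3p.PO β) = β := funext fun y => X3p.d1_PO hβ hc y
  funext y
  rw [h1, d1_add ((contDiff_pf1 (contDiff_hz v) hP).differentiable (by simp))
    ((hP.differentiable (by simp)).const_smul _), d1_smul _ (hP.differentiable (by simp)),
    CM.d1_pf1 (contDiff_hz v) hP, h2, neg_one_smul, ← sub_eq_add_neg]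
  rfl

theorem contDiff_kap {Z : Type} [NormedAddCommGroup Z] [NormedSpace ℝ Z] [FiniteDimensional ℝ Z]
    {v : Z → V4} {β : Z → V4 → L2} (hv : ContDiff ℝ ∞ v)
    (hβ : ContDiff ℝ ∞ (Function.uncurry β)) :
    ContDiff ℝ ∞ (Function.uncurry fun z => kap (v z) (β z)) := by
  obtain ⟨G, hG⟩ : ∃ G : Z × V4 → V4, G = fun q => X3p.PO (β q.1) q.2 := ⟨_, rfl⟩
  have h1 : ContDiff ℝ ∞ G := by
    rw [hG]
    exact X3p.contDiff_PO (Γ := Function.uncurry β) hβ
  obtain ⟨H, hHd⟩ : ∃ H : Z → V4 → V4, H = fun z => hz (v z) := ⟨_, rfl⟩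
  have hH : ContDiff ℝ ∞ (Function.uncurry H) := by
    have h0 : ContDiff ℝ ∞ fun q : Z × V4 => (v q.1, q.2) :=
      (hv.comp contDiff_fst).prodMk contDiff_snd
    rw [hHd]
    exact contDiff_hz2.comp h0
  have h2 : ContDiff ℝ ∞ (fun q : Z × V4 => G (q.1, H q.1 q.2)) :=
    h1.comp (contDiff_fst.prodMk hH)
  have h3 : ContDiff ℝ ∞ (fun q : Z × V4 => Dm (H q.1) q.2) := contDiff_Dm_family hH
  have h4 : ContDiff ℝ ∞ (fun q : Z × V4 => copp (G (q.1, H q.1 q.2)) (Dm (H q.1) q.2)) := by
    have h5 : ContDiff ℝ ∞ (fun q : Z × V4 => (G (q.1, H q.1 q.2), Dm (H q.1) q.2)) :=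
      h2.prodMk h3
    exact contDiff_copp.comp h5
  have h6 : (Function.uncurry fun z => kap (v z) (β z)) =
      fun q : Z × V4 => copp (G (q.1, H q.1 q.2)) (Dm (H q.1) q.2) - G q := by
    funext q
    rw [hG, hHd]
    rfl
  rw [h6]
  exact h4.sub h1

end Vale.Agent.P204.GX
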