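import Vale.Agent.P204.CV.X2
import Vale.Agent.P204.CV.X3
import Vale.Agent.P204.CV.X4

set_option linter.all false

/-!
# P204, class version, package X4 (helper941): the smoothing system with the pairing estimate, the
homotopy clause and the compactness clause, without hypotheses.
-/

open MeasureTheory Set
open scoped ContDiff ENNReal NNReal BigOperators InnerProductSpace Topology

namespace Vale.Agent.P204.GX
open Vale.Agent.P204.T4 _root_.P204.GX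

theorem sysStatementD (X : Type) [MetricSpace X] [CompactSpace X] [MeasurableSpace X]
    [BorelSpace X] [Nonempty X] (M : CM X) :
    ∃ Z : FnSys X, Z.μ = M.mu ∧ (∀ u : X → L2, u ∈ Z.Om ↔ u ∈ M.Om) ∧
      (∀ b : Z.Om, b ∈ Z.Y.Cl ↔ ∀ a, Closed (M.cf a (b : X → L2))) ∧
      (∀ b : Z.Om, b ∈ Z.Y.Ex ↔ ∃ e ∈ M.Ex, (e : X → L2) = (b : X → L2)) ∧
      (∀ m, ∃ K : ℝ, 0 ≤ K ∧ ∀ δ (b : Z.Om), 0 < δ → δ ≤ 1 →
        Z.Y.N m δ b ≤ K * M.NN m δ (b : X → L2)) ∧ HasPG Z ∧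
      (∀ δ, 0 < δ → δ ≤ Z.Y.δ0 → ∀ b ∈ Z.Y.Cl, b - Z.Y.S δ (Z.Y.ι b) ∈ Z.Y.Ex) ∧
      (∀ δ, 0 < δ → δ ≤ Z.Y.δ0 → TotallyBounded ((fun u => Z.Y.ι (Z.Y.S δ u)) ''
        Metric.closedBall (0 : Lp E6 2 Z.μ) 1)) :=
  sysStatementD_of M (fun C => CM.totallyBounded_MM M C)
    (fun _ h0 h1 _ hb => CM.sub_S0L_mem_Ex M h0 h1 hb)

end Vale.Agent.P204.GX
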